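import Vale.Agent.P287.H270.OddCoordB

/-!
Good coordinates and an isotropic vector for the odd theta theorem.
-/

namespace Vale.Agent.P287.H270.OddCoord

open Polynomial Matrix Vale.Agent.P287 Vale.Agent.P287.Theta Vale.Agent.P287.Odd
open Vale.Agent.P287.H946 Vale.Agent.P287.H684

/-- the substitution followed by the affine chart -/
noncomputable def chi (T : Matrix (Fin 3) (Fin 3) ℂ) : R3 →+* ℂ[X][X] :=
  (dh : R3 →+* ℂ[X][X]).comp (sb T : R3 →+* R3)

lemma chi_apply (T : Matrix (Fin 3) (Fin 3) ℂ) (P : R3) : chi T P = dh (sb T P) := rfl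

/-- the value at the point `z` at infinity -/
noncomputable def val (T : Matrix (Fin 3) (Fin 3) ℂ) (z : ℂ) : R3 →+* ℂ :=
  (evalRingHom z).comp ((MvPolynomial.aeval ![0, 1, X] : R3 →ₐ[ℂ] ℂ[X]).toRingHom.comp
    (sb T : R3 →+* R3))

lemma eval_top_chi (T : Matrix (Fin 3) (Fin 3) ℂ) (z : ℂ) {P : R3} {d : ℕ}
    (hP : P.IsHomogeneous d) : (H684.top d (chi T P)).eval z = val T z P := by
  rw [chi_apply, top_dh' (sb_homog T hP)]
  rfl

lemma map_mulVec_chi {R S : Type} [CommRing R] [CommRing S] (φ : R →+* S)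
    (A : Matrix (Fin 3) (Fin 3) R) (v : Fin 3 → R) (i : Fin 3) :
    φ ((A *ᵥ v) i) = ((A.map φ) *ᵥ fun j => φ (v j)) i := by
  rw [mulVec, dotProduct, map_sum]
  simp only [map_mul]
  rfl

lemma map_dot {R S : Type} [CommRing R] [CommRing S] (φ : R →+* S)
    (v w : Fin 3 → R) : φ (v ⬝ᵥ w) = (fun j => φ (v j)) ⬝ᵥ fun j => φ (w j) := by
  rw [dotProduct, map_sum]
  simp only [map_mul]
  rfl

lemma eval_ne_of_coprime {a b : ℂ[X]} (h : IsCoprime a b) {z : ℂ} (hz : a.eval z = 0) :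
    b.eval z ≠ 0 := by
  obtain ⟨u, w, huw⟩ := h
  intro h0
  have h1 := congrArg (eval z) huw
  rw [eval_add, eval_mul, eval_mul, hz, h0, mul_zero, mul_zero, add_zero, eval_one] at h1
  exact zero_ne_one h1

lemma isUnit_CC {v : ℂ} (hv : v ≠ 0) : IsUnit (C (C v) : ℂ[X][X]) :=
  ((isUnit_iff_ne_zero.2 hv).map (C : ℂ →+* ℂ[X])).map (C : ℂ[X] →+* ℂ[X][X])

lemma chi_C (T : Matrix (Fin 3) (Fin 3) ℂ) (c : ℂ) : chi T (MvPolynomial.C c) = C (C c) := by
  rw [chi_apply, ← MvPolynomial.algebraMap_eq, AlgHom.commutes, AlgHom.commutes]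
  rfl

lemma TW_chi (T : Matrix (Fin 3) (Fin 3) ℂ) {P : R3} {d : ℕ} (hP : P.IsHomogeneous d) :
    TW d (chi T P) := by
  rw [chi_apply]
  exact Wd_iff_TW.1 (Wd_dh (sb_homog T hP))

lemma Wd_chi (T : Matrix (Fin 3) (Fin 3) ℂ) {P : R3} {d : ℕ} (hP : P.IsHomogeneous d) :
    Wd d (chi T P) := Wd_iff_TW.2 (TW_chi T hP)

lemma top_chi_mul (T : Matrix (Fin 3) (Fin 3) ℂ) {P Q : R3} {d e : ℕ} (hP : P.IsHomogeneous d)
    (hQ : Q.IsHomogeneous e) :
    H684.top (d + e) (chi T (P * Q)) = H684.top d (chi T P) * H684.top e (chi T Q) := by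
  rw [map_mul]
  exact H684.top_mul (TW_chi T hP) (TW_chi T hQ)

/-- The coordinates in terms of `chi`. -/
lemma Coords.facts {g f ν : R3} {n d e : ℕ} {T S : Matrix (Fin 3) (Fin 3) ℂ} {v : ℂ}
    (hf : f.IsHomogeneous d) (hν : ν.IsHomogeneous e)
    (hT : Coords g (f * ν) n (d + e) T S v) :
    IsCoprime (H684.top n (C (C v) * chi T g)) (H684.top d (chi T f)) ∧
    IsCoprime (H684.top n (C (C v) * chi T g)) (H684.top e (chi T ν)) ∧
    ∃ α β γ : ℂ[X][X], α * chi T f * chi T ν + β * (C (C v) * chi T g) + γ * C X = 1 := by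
  have h1 := hT.inf
  have h2 := hT.line
  rw [← chi_apply, ← chi_apply] at h1
  rw [← chi_apply, ← chi_apply] at h2
  rw [top_chi_mul T hf hν] at h1
  refine ⟨h1.of_mul_right_left, h1.of_mul_right_right, ?_⟩
  obtain ⟨α, β, γ, h⟩ := h2
  rw [map_mul] at h
  exact ⟨α, β, γ, by rw [← h]; ring⟩

lemma infUnit_of_coprime' {G F : ℂ[X][X]} {n d : ℕ} {c : ℂ} (hG : G.Monic)
    (hGn : G.natDegree = n) (hGW : Wd n G) (hF : Wd d F) (hc : c ≠ 0)
    (h : IsCoprime (H684.top n G) (H684.top d F)) : InfUnit n G d (C (C c) * F) := by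
  refine infUnit_of_coprime hG hGn hGW (Wd_iff_TW.2 ((Wd_iff_TW.1 hF).CC_mul c)) ?_
  rw [top_CC_mul']
  exact (isCoprime_mul_unit_left_right ((isUnit_iff_ne_zero.2 hc).map (C : ℂ →+* ℂ[X])) _ _).2 h

lemma curve_frame {f g : R3} {m : ℕ} {c : ℂ} {ν : R3} {e : ℕ} (hf : f.IsHomogeneous 6)
    (hm : 1 ≤ m) (hg : g.IsHomogeneous (2 * m + 1)) (hgi : Irreducible g) (hgf : ¬ g ∣ f)
    (hc : c ≠ 0) (hν : ν.IsHomogeneous e) {T S : Matrix (Fin 3) (Fin 3) ℂ} {v : ℂ}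
    (hT : Coords g (f * ν) (2 * m + 1) (6 + e) T S v) :
    Curve m (C (C v) * chi T g) (C (C c) * chi T f) := by
  obtain ⟨hcf, -, α, β, γ, h⟩ := hT.facts hf hν
  have hGW : Wd (2 * m + 1) (C (C v) * chi T g) :=
    Wd_iff_TW.2 ((TW_chi T hg).CC_mul v)
  have hmon := hT.monic
  have hdeg := hT.deg
  rw [← chi_apply] at hmon hdeg
  have hCC : C (C c⁻¹) * C (C c) = (1 : ℂ[X][X]) := by
    rw [← C_mul, ← C_mul, inv_mul_cancel₀ hc, C_1, C_1]
  have hg' := sb_homog T hg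
  have hgi' := sb_irreducible hT.inv hgi
  have hpr : Prime (chi T g) := by
    rw [chi_apply]
    exact prime_dh hg' (by omega) hgi'
  refine ⟨hmon, hdeg, hGW, ?_, ?_, infUnit_of_coprime' hmon hdeg hGW (Wd_chi T hf) hc hcf, ?_⟩
  · exact (associated_unit_mul_right _ _ (isUnit_CC hT.v_ne)).prime hpr
  · intro h0
    have h1 : chi T g ∣ chi T f := by
      refine (dvd_mul_left _ _).trans (h0.trans ?_)
      exact ((isUnit_CC hc).mul_left_dvd).2 dvd_rfl
    rw [chi_apply, chi_apply] at h1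
    exact hgf ((sb_dvd_iff hT.inv).1 (dvd_of_dh_dvd' hg' (by omega) hgi' (sb_homog T hf) h1))
  · refine ⟨α * chi T ν * C (C c⁻¹), β, γ, ?_⟩
    rw [← h]
    linear_combination (α * chi T ν * chi T f) * hCC

lemma quadrics_frame {f : R3} {c : ℂ} {A : Matrix (Fin 3) (Fin 3) R3} (hs : SmoothTernary f)
    (hA : A.IsSymm) (hA2 : ∀ i j, (A i j).IsHomogeneous 2) (hc : c ≠ 0)
    (hdet : A.det = MvPolynomial.C c * f) {T S : Matrix (Fin 3) (Fin 3) ℂ} (hTS : T * S = 1)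
    (G : ℂ[X][X]) :
    Quadrics G (C (C (-c)) * chi T f) (A.map (chi T)) := by
  have hadj : (A.map (chi T)).adjugate = A.adjugate.map (chi T) := by
    have := RingHom.map_adjugate (chi T) A
    simp only [RingHom.mapMatrix_apply] at this
    exact this.symm
  refine ⟨?_, fun i j => Wd_chi T (hA2 i j), ?_, ?_⟩
  · rw [Matrix.IsSymm, ← Matrix.transpose_map, hA.eq]
  · have h1 : (A.map (chi T)).det = chi T A.det := by
      have := RingHom.map_det (chi T) A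
      rw [this, RingHom.mapMatrix_apply]
    rw [h1, hdet, map_mul, chi_C, C_neg, C_neg]
    ring
  · by_contra hcon
    obtain ⟨M, hM, hle⟩ := Ideal.exists_le_maximal _ hcon
    obtain ⟨x, y, hxy⟩ := exists_point_of_maximal M hM
    have ht : T.mulVec ![1, x, y] ≠ 0 := by
      intro h0
      have h1 := congrArg S.mulVec h0
      rw [mulVec_mulVec, mul_eq_one_comm.1 hTS, one_mulVec, mulVec_zero] at h1
      have := congrFun h1 0
      simp at this
    obtain ⟨i, j, hij⟩ := exists_adj_ne hs hc hdet ht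
    apply hij
    have h1 : (A.map (chi T)).adjugate i j ∈ M :=
      hle (Ideal.mem_sup_left (Ideal.subset_span ⟨(i, j), rfl⟩))
    rw [hadj, Matrix.map_apply, hxy, chi_apply, evalEval_dh, eval_sb] at h1
    exact h1

lemma iso_frame {f g : R3} {m : ℕ} {c : ℂ} {A : Matrix (Fin 3) (Fin 3) R3} {ν : Fin 3 → R3}
    {i0 : Fin 3} (hf : f.IsHomogeneous 6) (hg : g.IsHomogeneous (2 * m + 1))
    (hA2 : ∀ i j, (A i j).IsHomogeneous 2) (hc : c ≠ 0) (hdet : A.det = MvPolynomial.C c * f)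
    (hν : ∀ i, (ν i).IsHomogeneous (2 * m + 1)) (hiso : g ∣ ν ⬝ᵥ (A *ᵥ ν))
    {T S : Matrix (Fin 3) (Fin 3) ℂ} {v : ℂ}
    (hT : Coords g (f * ν i0) (2 * m + 1) (6 + (2 * m + 1)) T S v) :
    Iso m (bc ℂ RatK (C (C v) * chi T g)) ((A.map (chi T)).map (bc ℂ RatK)) tvec
      (fun i => bc ℂ RatK (chi T (ν i))) (2 * m + 1) := by
  obtain ⟨hcf, hcν, α, β, γ, h⟩ := hT.facts hf (hν i0)
  have hGW : Wd (2 * m + 1) (C (C v) * chi T g) :=
    Wd_iff_TW.2 ((TW_chi T hg).CC_mul v)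
  have hmon := hT.monic
  have hdeg := hT.deg
  rw [← chi_apply] at hmon hdeg
  have hAν : ∀ i, ((A *ᵥ ν) i).IsHomogeneous (2 + (2 * m + 1)) := fun i =>
    MvPolynomial.IsHomogeneous.sum _ _ _ fun j _ => (hA2 i j).mul (hν j)
  have hAν' : ∀ i, (((A.map (chi T)).map (bc ℂ RatK)) *ᵥ
      (fun i => bc ℂ RatK (chi T (ν i)))) i = bc ℂ RatK (chi T ((A *ᵥ ν) i)) := by
    intro i
    rw [map_mulVec_chi (chi T), map_mulVec_chi (bc ℂ RatK)]
  have hAν'' : ((A.map (chi T)).map (bc ℂ RatK)) *ᵥ (fun i => bc ℂ RatK (chi T (ν i))) =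
      fun i => bc ℂ RatK (chi T ((A *ᵥ ν) i)) := funext hAν'
  refine ⟨?_, fun i => Wd_bc.2 (Wd_chi T (hν i)), ?_, ?_, ?_⟩
  · rw [hAν'']
    have h1 : (fun i => bc ℂ RatK (chi T (ν i))) ⬝ᵥ (fun i => bc ℂ RatK (chi T ((A *ᵥ ν) i))) =
        bc ℂ RatK (chi T (ν ⬝ᵥ (A *ᵥ ν))) := by
      rw [map_dot (chi T), map_dot (bc ℂ RatK)]
    rw [h1]
    exact _root_.map_dvd _ (((isUnit_CC hT.v_ne).mul_left_dvd).2 (_root_.map_dvd (chi T) hiso))
  · exact infUnit_generic hmon hdeg hGW (N := fun i => chi T (ν i)) (fun i => Wd_chi T (hν i))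
      fun z hz => ⟨i0, eval_ne_of_coprime hcν hz⟩
  · rw [hAν'', show 2 * m + 1 + 2 = 2 + (2 * m + 1) by ring]
    refine infUnit_generic hmon hdeg hGW (N := fun i => chi T ((A *ᵥ ν) i))
      (fun i => Wd_chi T (hAν i)) fun z hz => ?_
    have hfz : val T z f ≠ 0 := by
      rw [← eval_top_chi T z hf]
      exact eval_ne_of_coprime hcf hz
    have hνz : val T z (ν i0) ≠ 0 := by
      rw [← eval_top_chi T z (hν i0)]
      exact eval_ne_of_coprime hcν hz
    by_contra hcon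
    push Not at hcon
    have h1 : (A.map (val T z)) *ᵥ (fun j => val T z (ν j)) = 0 := by
      funext i
      rw [← map_mulVec_chi (val T z), ← eval_top_chi T z (hAν i)]
      exact hcon i
    have h2 : (fun j => val T z (ν j)) ≠ 0 := fun h0 => hνz (congrFun h0 i0)
    have h3 : (A.map (val T z)).det = 0 :=
      Matrix.exists_mulVec_eq_zero_iff.1 ⟨_, h2, h1⟩
    have h4 : (A.map (val T z)).det = val T z A.det := by
      have := RingHom.map_det (val T z) A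
      rw [this, RingHom.mapMatrix_apply]
    rw [h4, hdet, map_mul] at h3
    have h5 : val T z (MvPolynomial.C c) = c := by
      simp [val, ← MvPolynomial.algebraMap_eq]
    rw [h5] at h3
    exact (mul_ne_zero hc hfz) h3
  · refine ⟨Pi.single i0 (bc ℂ RatK (α * chi T f)), bc ℂ RatK β, bc ℂ RatK γ, ?_⟩
    rw [single_dotProduct]
    have h1 := congrArg (bc ℂ RatK) h
    have h2 : bc ℂ RatK (C X) = C X := by simp [bc]
    rw [map_add, map_add, map_mul (bc ℂ RatK) (α * chi T f), map_mul (bc ℂ RatK) β,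
      map_mul (bc ℂ RatK) γ, map_one, h2] at h1
    exact h1

theorem exists_frame_chi {f g : R3} {m : ℕ} {c : ℂ} {A : Matrix (Fin 3) (Fin 3) R3}
    (hf : f.IsHomogeneous 6) (hs : SmoothTernary f) (hm : 1 ≤ m)
    (hg : g.IsHomogeneous (2 * m + 1)) (hgi : Irreducible g) (hgf : ¬ g ∣ f) (hA : A.IsSymm)
    (hA2 : ∀ i j, (A i j).IsHomogeneous 2) (hc : c ≠ 0) (hdet : A.det = MvPolynomial.C c * f) :
    ∃ (T S : Matrix (Fin 3) (Fin 3) ℂ) (v : ℂ) (ν : Fin 3 → ℂ[X][X]) (dν : ℕ),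
      T * S = 1 ∧ v ≠ 0 ∧
      Curve m (C (C v) * chi T g) (C (C (-c)) * chi T f) ∧
      Quadrics (C (C v) * chi T g) (C (C (-c)) * chi T f) (A.map (chi T)) ∧
      Iso m (bc ℂ RatK (C (C v) * chi T g))
        ((A.map (chi T)).map (bc ℂ RatK)) tvec (fun i => bc ℂ RatK (ν i)) dν := by
  obtain ⟨ν, hν, ⟨i0, hi0⟩, hiso⟩ := OddT.exists_isotropic_homog hg (by omega) hgi.ne_zero hA2
  have hgp : Prime g := hgi.prime
  have hgh : ¬ g ∣ f * ν i0 := fun h => (hgp.dvd_or_dvd h).elim hgf hi0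
  obtain ⟨T, S, v, hT⟩ := exists_coords_pair hg (by omega) hgi (hf.mul (hν i0)) hgh
  have h1 := curve_frame hf hm hg hgi hgf (neg_ne_zero.2 hc) (hν i0) hT
  have h2 := quadrics_frame hs hA hA2 hc hdet hT.inv (C (C v) * chi T g)
  have h3 := iso_frame hf hg hA2 hc hdet hν hiso hT
  refine ⟨T, S, v, fun i => chi T (ν i), 2 * m + 1, hT.inv, hT.v_ne, h1, h2, ?_⟩
  exact h3

/-- Good coordinates for the curve `g = 0`, the smooth sextic `f = 0` and the matrix of quadrics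
`A` of determinant `c f`, with an isotropic vector over `ℂ(s₀, s₁)`. -/
theorem exists_frame {f g : R3} {m : ℕ} {c : ℂ} {A : Matrix (Fin 3) (Fin 3) R3}
    (hf : f.IsHomogeneous 6) (hs : SmoothTernary f) (hm : 1 ≤ m)
    (hg : g.IsHomogeneous (2 * m + 1)) (hgi : Irreducible g) (hgf : ¬ g ∣ f) (hA : A.IsSymm)
    (hA2 : ∀ i j, (A i j).IsHomogeneous 2) (hc : c ≠ 0) (hdet : A.det = MvPolynomial.C c * f) :
    ∃ (T S : Matrix (Fin 3) (Fin 3) ℂ) (v : ℂ) (ν : Fin 3 → ℂ[X][X]) (dν : ℕ),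
      T * S = 1 ∧ v ≠ 0 ∧
      Curve m (C (C v) * dh (sb T g)) (C (C (-c)) * dh (sb T f)) ∧
      Quadrics (C (C v) * dh (sb T g)) (C (C (-c)) * dh (sb T f)) (A.map fun P => dh (sb T P)) ∧
      Iso m (bc ℂ RatK (C (C v) * dh (sb T g)))
        ((A.map fun P => dh (sb T P)).map (bc ℂ RatK)) tvec (fun i => bc ℂ RatK (ν i)) dν := by
  obtain ⟨T, S, v, ν, dν, h1, h2, h3, h4, h5⟩ :=
    exists_frame_chi hf hs hm hg hgi hgf hA hA2 hc hdet
  have e : A.map (chi T) = A.map fun P => dh (sb T P) := rfl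
  rw [e] at h4 h5
  rw [chi_apply, chi_apply] at h3 h4
  rw [chi_apply] at h5
  exact ⟨T, S, v, ν, dν, h1, h2, h3, h4, h5⟩

end Vale.Agent.P287.H270.OddCoord
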