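import Vale.Agent.P287.EvenN.Spec
import Vale.Agent.P287.H270.OddFrame
import Vale.Agent.P287.Theta.Core

/-!
Good coordinates for a scroll of lines over a plane curve (the numerical even theta theorem).
-/

namespace Vale.Agent.P287.H270.OddCoord

open Polynomial Matrix Vale.Agent.P287 Vale.Agent.P287.Theta Vale.Agent.P287.Odd
open Vale.Agent.P287.H946 Vale.Agent.P287.H684 Vale.Agent.P287.EvenN

lemma curveN_frame {f g : R3} {n : ℕ} {ν : R3} {e : ℕ} (hf : f.IsHomogeneous 6)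
    (hn : 2 ≤ n) (hg : g.IsHomogeneous n) (hgi : Irreducible g) (hgf : ¬ g ∣ f)
    (hν : ν.IsHomogeneous e) {T S : Matrix (Fin 3) (Fin 3) ℂ} {v : ℂ}
    (hT : Coords g (f * ν) n (6 + e) T S v) :
    CurveN n (C (C v) * chi T g) (chi T f) := by
  obtain ⟨hcf, -, α, β, γ, h⟩ := hT.facts hf hν
  have hGW : Wd n (C (C v) * chi T g) :=
    Wd_iff_TW.2 ((TW_chi T hg).CC_mul v)
  have hmon := hT.monic
  have hdeg := hT.deg
  rw [← chi_apply] at hmon hdeg
  have hg' := sb_homog T hg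
  have hgi' := sb_irreducible hT.inv hgi
  have hpr : Prime (chi T g) := by
    rw [chi_apply]
    exact prime_dh hg' hn hgi'
  refine ⟨hmon, hdeg, hGW, ?_, ?_, infUnit_of_coprime hmon hdeg hGW (Wd_chi T hf) hcf, ?_⟩
  · exact (associated_unit_mul_right _ _ (isUnit_CC hT.v_ne)).prime hpr
  · intro h0
    have h1 : chi T g ∣ chi T f := (dvd_mul_left _ _).trans h0
    rw [chi_apply, chi_apply] at h1
    exact hgf ((sb_dvd_iff hT.inv).1 (dvd_of_dh_dvd' hg' hn hgi' (sb_homog T hf) h1))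
  · refine ⟨α * chi T ν, β, γ, ?_⟩
    rw [← h]
    ring

lemma map_mulVec_gen {R S ι : Type} [Fintype ι] [CommRing R] [CommRing S] (φ : R →+* S)
    (A : Matrix ι ι R) (v : ι → R) : (fun i => φ ((A *ᵥ v) i)) = (A.map φ) *ᵥ fun j => φ (v j) := by
  funext i
  rw [mulVec, dotProduct, map_sum]
  simp only [map_mul]
  rfl

lemma map_dot_gen {R S ι : Type} [Fintype ι] [CommRing R] [CommRing S] (φ : R →+* S)
    (v w : ι → R) : φ (v ⬝ᵥ w) = (fun j => φ (v j)) ⬝ᵥ fun j => φ (w j) := by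
  rw [dotProduct, map_sum]
  simp only [map_mul]
  rfl

lemma entry_hom {M : Matrix (Fin 4) (Fin 4) R3} (hM : FibShape M) (i j : Fin 4) :
    (M i j).IsHomogeneous (1 + wt0 i + wt0 j) := by
  have h := hM.entry i j
  have e : degE i j = 1 + wt0 i + wt0 j := by
    fin_cases i <;> fin_cases j <;> rfl
  rwa [e] at h

lemma quad4_frame {M : Matrix (Fin 4) (Fin 4) R3} (hM : FibShape M)
    (hs : SmoothTernary M.det) {T S : Matrix (Fin 3) (Fin 3) ℂ} (hTS : T * S = 1)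
    (G : ℂ[X][X]) : Quad4 G (chi T M.det) (M.map (chi T)) := by
  have hdet : (M.map (chi T)).det = chi T M.det := by
    have := RingHom.map_det (chi T) M
    rw [this, RingHom.mapMatrix_apply]
  refine ⟨?_, fun i j => Wd_chi T (entry_hom hM i j), hdet, ?_⟩
  · rw [Matrix.IsSymm, ← Matrix.transpose_map, hM.symm.eq]
  · by_contra hcon
    obtain ⟨N, hN, hle⟩ := Ideal.exists_le_maximal _ hcon
    obtain ⟨x, y, hxy⟩ := exists_point_of_maximal N hN
    have hp : evalEval x y (M.map (chi T)).det = 0 := by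
      rw [← hxy, hdet]
      exact hle (Ideal.mem_sup_right (Ideal.subset_span (by simp)))
    obtain ⟨i, j, hij⟩ := adj_ne_zero (M.map (chi T)) hp (by
      rw [hdet, chi_apply]
      refine smooth_dh (sb_homog T hM.det) (sb_smooth hTS hs) x y ?_
      rw [hdet, chi_apply] at hp
      exact hp)
    exact hij ((hxy _).1 (hle (Ideal.mem_sup_left (Ideal.subset_span ⟨(i, j), rfl⟩))))

lemma plane_frame {M : Matrix (Fin 4) (Fin 4) R3} {f g : R3} {n e : ℕ}
    {w : Fin 2 → Fin 4 → R3} (hf : f.IsHomogeneous 6)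
    (hiso : ∀ a b, g ∣ w a ⬝ᵥ (M *ᵥ w b)) {i0 j0 : Fin 4}
    (hν : (mnr2 w i0 j0).IsHomogeneous e) {T S : Matrix (Fin 3) (Fin 3) ℂ} {v : ℂ}
    (hT : Coords g (f * mnr2 w i0 j0) n (6 + e) T S v) :
    Plane (C (C v) * chi T g) (M.map (chi T)) (fun a i => chi T (w a i)) := by
  obtain ⟨-, -, α, β, γ, h⟩ := hT.facts hf hν
  refine ⟨fun a b => ?_, ?_⟩
  · have h1 : (fun i => chi T (w a i)) ⬝ᵥ ((M.map (chi T)) *ᵥ fun i => chi T (w b i)) =
        chi T (w a ⬝ᵥ (M *ᵥ w b)) := by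
      rw [map_dot_gen, map_mulVec_gen]
    rw [h1]
    exact ((isUnit_CC hT.v_ne).mul_left_dvd).2 (_root_.map_dvd (chi T) (hiso a b))
  · rw [Ideal.eq_top_iff_one, ← h]
    have h1 : mnr2 (fun a i => chi T (w a i)) i0 j0 = chi T (mnr2 w i0 j0) := by
      simp only [mnr2, map_sub, map_mul]
    have h2 : chi T (mnr2 w i0 j0) ∈
        (Ideal.span (Set.range fun ij : Fin 4 × Fin 4 =>
          mnr2 (fun a i => chi T (w a i)) ij.1 ij.2) : Ideal ℂ[X][X]) := by
      rw [← h1]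
      exact Ideal.subset_span ⟨(i0, j0), rfl⟩
    have h3 : C (C v) * chi T g ∈ (Ideal.span {C (C v) * chi T g, C X} : Ideal ℂ[X][X]) :=
      Ideal.subset_span (by simp)
    have h4 : (C X : ℂ[X][X]) ∈ (Ideal.span {C (C v) * chi T g, C X} : Ideal ℂ[X][X]) :=
      Ideal.subset_span (by simp)
    rw [add_assoc]
    exact add_mem (Ideal.mem_sup_left (Ideal.mul_mem_left _ _ h2))
      (Ideal.mem_sup_right (add_mem (Ideal.mul_mem_left _ _ h3) (Ideal.mul_mem_left _ _ h4)))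

/-- [TE] Good coordinates for a scroll of lines over the curve `g = 0`. -/
theorem exists_even_frame {M : Matrix (Fin 4) (Fin 4) R3} {g : R3} {n : ℕ} (hM : FibShape M)
    (hs : SmoothTernary M.det) (hn : 2 ≤ n) (hg : g.IsHomogeneous n) (hgi : Irreducible g)
    (hgf : ¬ g ∣ M.det) {w : Fin 2 → Fin 4 → R3} (hiso : ∀ a b, g ∣ w a ⬝ᵥ (M *ᵥ w b))
    {i0 j0 : Fin 4} {e : ℕ} (hν : (mnr2 w i0 j0).IsHomogeneous e) (hgν : ¬ g ∣ mnr2 w i0 j0) :
    ∃ (T S : Matrix (Fin 3) (Fin 3) ℂ) (v : ℂ), T * S = 1 ∧ v ≠ 0 ∧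
      CurveN n (C (C v) * dh (sb T g)) (dh (sb T M.det)) ∧
      Quad4 (C (C v) * dh (sb T g)) (dh (sb T M.det)) (M.map fun P => dh (sb T P)) ∧
      Plane (C (C v) * dh (sb T g)) (M.map fun P => dh (sb T P))
        (fun a i => dh (sb T (w a i))) := by
  have hgh : ¬ g ∣ M.det * mnr2 w i0 j0 := fun h => (hgi.prime.dvd_or_dvd h).elim hgf hgν
  obtain ⟨T, S, v, hT⟩ := exists_coords_pair hg hn hgi (hM.det.mul hν) hgh
  have h1 := curveN_frame hM.det hn hg hgi hgf hν hT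
  have h2 := quad4_frame hM hs hT.inv (C (C v) * chi T g)
  have h3 := plane_frame hM.det hiso hν hT
  have e : M.map (chi T) = M.map fun P => dh (sb T P) := rfl
  rw [e] at h2 h3
  rw [chi_apply, chi_apply] at h1 h2
  rw [chi_apply] at h3
  exact ⟨T, S, v, hT.inv, hT.v_ne, h1, h2, h3⟩

end Vale.Agent.P287.H270.OddCoord
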