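import Vale.Agent.P287.H270.Growth

/-!
The inequality on the dimensions of the filtered pieces, in affine coordinates.
-/

namespace Vale.Agent.P287.H270

open Polynomial Matrix

set_option linter.unusedSectionVars false

/-! ### Linear algebra -/

section LinAlg

variable {κ : Type*} [Field κ]

/-- A vector orthogonal to two independent equations of a plane lies in the plane. -/
lemma mem_of_orth (W : Submodule κ (Fin 4 → κ)) (hW : Module.finrank κ W = 2)
    (c c' : Fin 4 → κ) (hind : ∀ s t : κ, s • c + t • c' = 0 → s = 0 ∧ t = 0)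
    (hc : ∀ w ∈ W, c ⬝ᵥ w = 0) (hc' : ∀ w ∈ W, c' ⬝ᵥ w = 0)
    (v : Fin 4 → κ) (hv : c ⬝ᵥ v = 0) (hv' : c' ⬝ᵥ v = 0) : v ∈ W := by
  let T : (Fin 4 → κ) →ₗ[κ] (Fin 2 → κ) := (Matrix.of ![c, c']).mulVecLin
  have hT : ∀ w, T w = ![c ⬝ᵥ w, c' ⬝ᵥ w] := by
    intro w
    ext i
    fin_cases i <;> simp [T, Matrix.mulVec]
  have hker : W ≤ LinearMap.ker T := by
    intro w hw
    rw [LinearMap.mem_ker, hT, hc w hw, hc' w hw]
    ext i; fin_cases i <;> rfl
  have hrange : LinearMap.range T = ⊤ := by
    by_contra hne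
    obtain ⟨f, hf, hf'⟩ := Submodule.exists_le_ker_of_lt_top _ (lt_top_iff_ne_top.2 hne)
    apply hf
    have h1 : ∀ w, f ![1, 0] * (c ⬝ᵥ w) + f ![0, 1] * (c' ⬝ᵥ w) = 0 := by
      intro w
      have h2 : f (T w) = 0 := hf' (LinearMap.mem_range_self T w)
      have h3 : T w = (c ⬝ᵥ w) • ![1, 0] + (c' ⬝ᵥ w) • ![0, 1] := by
        rw [hT]
        ext i; fin_cases i <;> simp
      rw [h3, map_add, map_smul, map_smul, smul_eq_mul, smul_eq_mul] at h2
      linear_combination h2
    have h2 := hind (f ![1, 0]) (f ![0, 1]) (by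
      ext j
      have := h1 (Pi.single j 1)
      simpa using this)
    apply LinearMap.ext
    intro z
    have h3 : z = z 0 • ![1, 0] + z 1 • ![0, 1] := by
      ext i; fin_cases i <;> simp
    rw [h3, map_add, map_smul, map_smul, h2.1, h2.2]
    simp
  have h1 := LinearMap.finrank_range_add_finrank_ker T
  rw [hrange, finrank_top, Module.finrank_fin_fun, Module.finrank_fin_fun] at h1
  have h2 : W = LinearMap.ker T := Submodule.eq_of_le_of_finrank_eq hker (by omega)
  rw [h2, LinearMap.mem_ker, hT, hv, hv']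
  ext i; fin_cases i <;> rfl

end LinAlg

/-! ### Polynomials of bounded degree -/

section TDm

variable (k : Type*) [Field k]

/-- the polynomials of total degree at most `m` -/
def TDm (m : ℕ) : Submodule k k[X][X] where
  carrier := {p | TD m p}
  add_mem' := TD.add
  zero_mem' := TD.zero m
  smul_mem' := fun c _ hp => TD.smul c hp

lemma mem_TDm {m : ℕ} {p : k[X][X]} : p ∈ TDm k m ↔ TD m p := Iff.rfl

lemma coeff_coeff_CC_mon (c : k) (a b i j : ℕ) :
    ((C (C c) * mon a b : k[X][X]).coeff j).coeff i = if i = a ∧ j = b then c else 0 := by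
  rw [coeff_C_mul, coeff_C_mul, mon, coeff_C_mul, coeff_X_pow]
  by_cases hj : j = b
  · rw [if_pos hj, mul_one, coeff_X_pow]
    by_cases hi : i = a
    · rw [if_pos hi, if_pos ⟨hi, hj⟩, mul_one]
    · rw [if_neg hi, if_neg (by tauto), mul_zero]
  · rw [if_neg hj, if_neg (by tauto)]; simp

/-- the pairs of exponents -/
def expo (m : ℕ) : Finset (Σ _ : ℕ, ℕ) := (Finset.range (m + 1)).sigma fun b => Finset.range (m + 1 - b)

lemma mem_expo {m : ℕ} {s : Σ _ : ℕ, ℕ} : s ∈ expo m ↔ s.2 + s.1 ≤ m := by
  rw [expo, Finset.mem_sigma, Finset.mem_range, Finset.mem_range]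
  omega

lemma card_expo (m : ℕ) : (expo m).card = (m + 2).choose 2 := by
  rw [expo, Finset.card_sigma]
  simp only [Finset.card_range]
  rw [← Finset.sum_range_reflect]
  have h1 : ∀ j ∈ Finset.range (m + 1), m + 1 - (m + 1 - 1 - j) = j + 1 := by
    intro j hj
    rw [Finset.mem_range] at hj
    omega
  rw [Finset.sum_congr rfl h1]
  clear h1
  induction m with
  | zero => simp
  | succ m ih =>
    rw [Finset.sum_range_succ, ih, Nat.choose_succ_succ' (m + 2) 1, Nat.choose_one_right]
    ring

/-- coefficients -/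
noncomputable def tdEquiv (m : ℕ) : TDm k m ≃ₗ[k] (expo m → k) where
  toFun p := fun s => ((p.1.coeff s.1.1).coeff s.1.2)
  map_add' p q := by ext s; simp
  map_smul' c p := by ext s; simp
  invFun f := ⟨∑ s : expo m, C (C (f s)) * mon s.1.2 s.1.1, by
    refine TD.sum fun s _ => ?_
    have h1 := mem_expo.1 s.2
    have h2 := (TD.CC (m := 0) (f s)).mul (TD_mon (k := k) h1)
    rwa [Nat.zero_add] at h2⟩
  left_inv p := by
    apply Subtype.ext
    ext b a
    simp only [finsetSum_coeff, coeff_coeff_CC_mon]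
    by_cases h : a + b ≤ m
    · rw [Finset.sum_eq_single (⟨⟨b, a⟩, mem_expo.2 h⟩ : expo m)]
      · simp
      · intro s _ hs
        rw [if_neg]
        rintro ⟨rfl, rfl⟩
        exact hs rfl
      · intro h; exact absurd (Finset.mem_univ _) h
    · rw [p.2 a b (by omega)]
      refine Finset.sum_eq_zero fun s _ => ?_
      rw [if_neg]
      rintro ⟨rfl, rfl⟩
      exact h (mem_expo.1 s.2)
  right_inv f := by
    ext s
    simp only [finsetSum_coeff, coeff_coeff_CC_mon]
    rw [Finset.sum_eq_single s]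
    · simp
    · intro s' _ hs
      rw [if_neg]
      rintro ⟨h1, h2⟩
      apply hs
      apply Subtype.ext
      exact (Sigma.ext h2 (heq_of_eq h1)).symm
    · intro h; exact absurd (Finset.mem_univ _) h

lemma finrank_TDm (m : ℕ) : Module.finrank k (TDm k m) = (m + 2).choose 2 := by
  rw [(tdEquiv k m).finrank_eq, Module.finrank_fintype_fun_eq_card, Fintype.card_coe, card_expo]

instance (m : ℕ) : Module.Finite k (TDm k m) := Module.Finite.equiv (tdEquiv k m).symm

end TDm


/-! ### The evaluation map -/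

section EvalMap

variable (k : Type*) [Field k] {κ : Type*} [Field κ] [Algebra k κ] (x y : κ)
variable {U : Type*} [AddCommGroup U] [Module κ U] [Module k U] [IsScalarTower k κ U]
variable {ι : Type*} [Fintype ι] [DecidableEq ι] (wt : ι → ℕ) (a : ι → U)

/-- the evaluation map on vectors of polynomials of bounded degree -/
noncomputable def evalMap (m : ℕ) : (∀ j, TDm k (m + wt j)) →ₗ[k] U where
  toFun p := ∑ j, ev x y (p j).1 • a j
  map_add' p q := by
    simp only [Pi.add_apply, Submodule.coe_add, map_add, add_smul, Finset.sum_add_distrib]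
  map_smul' c p := by
    simp only [Pi.smul_apply, Submodule.coe_smul, RingHom.id_apply, Finset.smul_sum]
    refine Finset.sum_congr rfl fun j _ => ?_
    have h1 : c • (p j).1 = C (C c) * (p j).1 := by
      ext b a
      simp
    rw [h1, map_mul, ev_CC, mul_smul, algebraMap_smul]

lemma range_evalMap (m : ℕ) : LinearMap.range (evalMap k x y wt a m) = Vm k x y wt a m := by
  apply le_antisymm
  · rintro u ⟨p, rfl⟩
    exact Submodule.sum_mem _ fun j _ => mem_Vm k x y wt a (p j).2
  · rw [Vm, Submodule.span_le]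
    rintro u ⟨j, p, hp, rfl⟩
    refine ⟨Pi.single j ⟨p, hp⟩, ?_⟩
    change ∑ i, ev x y ((Pi.single j (⟨p, hp⟩ : TDm k (m + wt j)) : ∀ j, TDm k (m + wt j)) i).1 • a i = _
    rw [Finset.sum_eq_single j]
    · rw [Pi.single_eq_same]
    · intro i _ hij
      rw [Pi.single_eq_of_ne hij]
      simp
    · intro h; exact absurd (Finset.mem_univ _) h

lemma finrank_ker_evalMap (m : ℕ) :
    Module.finrank k (Vm k x y wt a m) + Module.finrank k (LinearMap.ker (evalMap k x y wt a m)) =
      ∑ j, (m + wt j + 2).choose 2 := by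
  have h1 := LinearMap.finrank_range_add_finrank_ker (K := k) (V := ∀ j, TDm k (m + wt j))
    (evalMap k x y wt a m)
  have : ∀ j, Module.Free k (TDm k (m + wt j)) := fun j =>
    Module.Free.of_equiv (tdEquiv k _).symm
  rw [range_evalMap, Module.finrank_pi_fintype] at h1
  rw [h1]
  exact Finset.sum_congr rfl fun j _ => finrank_TDm k _

end EvalMap

/-! ### Surjectivity -/

section Surj

variable (k : Type*) [Field k] {κ : Type*} [Field κ] [Algebra k κ] (x y : κ)
variable {U : Type*} [AddCommGroup U] [Module κ U] [Module k U] [IsScalarTower k κ U]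
variable {ι : Type*} [Fintype ι] (wt : ι → ℕ) (a : ι → U)
variable [Module k[X] U] [IsScalarTower k k[X] U]
variable (hX : ∀ (p : k[X]) (u : U), p • u = aeval x p • u)
variable (G : k[X][X]) (n : ℕ) (hG : G.Monic) (hn : G.natDegree = n) (hGt : TD n G)
  (hGev : ∀ p : k[X][X], ev x y p = 0 ↔ G ∣ p)

include hX hG hn hGt hGev

theorem surj_of_large (r : ℕ) (D' : ℕ) (c c' : ι → k[X][X]) (hcD : ∀ j, TD D' (c j))
    (hcD' : ∀ j, TD D' (c' j)) (hc : ∑ j, ev x y (c j) • a j = 0)
    (hc' : ∑ j, ev x y (c' j) • a j = 0)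
    (hno : ∀ w : ι → k[X][X],
      (∀ j i l, ((w j).coeff l).coeff i ≠ 0 → i + l + r + wt j + 3 ≤ n) →
      (∑ j, ev x y (c j) * ev x y (w j) = 0) → (∑ j, ev x y (c' j) * ev x y (w j) = 0) →
      ∀ j, w j = 0)
    (d : ℕ) (hd : D' + n < d) (u : U) (hu : u ∈ Nm k y a n) :
    ∃ v ∈ Vm k x y wt a (r + d), ∃ u' ∈ Nm k y a n, u = v + x ^ d • u' := by
  classical
  by_contra hcon
  set S : Submodule k U := Vm k x y wt a (r + d) ⊔
    ((Nm k y a n).restrictScalars k).map (mulK k (x ^ d)) with hS
  have huS : u ∉ S := by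
    intro h
    rw [hS, Submodule.mem_sup] at h
    obtain ⟨v, hv, z, hz, hvz⟩ := h
    obtain ⟨u', hu', rfl⟩ := hz
    exact hcon ⟨v, hv, u', hu', hvz.symm⟩
  obtain ⟨lam, hlu, hlS⟩ := Submodule.exists_le_ker_of_notMem huS
  have hlS' : ∀ z ∈ S, lam z = 0 := fun z hz => hlS hz
  have hNm : ∀ (p : k[X][X]) (j : ι), ev x y p • a j ∈ Nm k y a n :=
    mem_Nm k x y a hX G n hG hn ((hGev G).2 dvd_rfl)
  have hsm : ∀ (e : k) (z : U), (algebraMap k κ e) • z = e • z := fun e z => algebraMap_smul κ e z
  have hdual : ∀ j : ι, ∃ w : k[X][X],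
      (∀ a b, (w.coeff b).coeff a ≠ 0 → a + b + (r + d + wt j) + 3 ≤ n + d) ∧
      ∀ p, lam (ev x y p • a j) = res G n d (w * p) := by
    intro j
    refine exists_dual G n d hG hn hGt (by omega) (fun p => lam (ev x y p • a j)) ?_ ?_ ?_ ?_
      (r + d + wt j) ?_
    · intro p q
      simp only [map_add, add_smul]
    · intro e p
      simp only [map_mul, ev_CC, mul_smul, hsm, map_smul, smul_eq_mul]
    · intro p
      have h1 : ev x y (p * G) = 0 := by rw [map_mul, (hGev G).2 dvd_rfl, mul_zero]
      simp only [h1, zero_smul, map_zero]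
    · intro p
      have h1 : ev x y (C (X ^ d) * p) • a j = x ^ d • (ev x y p • a j) := by
        rw [map_mul, ev_Xd, mul_smul]
      simp only [h1]
      apply hlS'
      rw [hS]
      exact Submodule.mem_sup_right ⟨_, hNm p j, rfl⟩
    · intro α β hαβ
      apply hlS'
      rw [hS]
      exact Submodule.mem_sup_left (mem_Vm k x y wt a (TD_mon hαβ))
  choose w hw1 hw2 using hdual
  have hwTD : ∀ j, TD n (w j) := by
    intro j i l hil
    by_contra h
    have := hw1 j i l h
    omega
  -- orthogonality to the relations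
  have horth : ∀ e : ι → k[X][X], (∀ j, TD D' (e j)) → (∑ j, ev x y (e j) • a j = 0) →
      ∑ j, ev x y (e j) * ev x y (w j) = 0 := by
    intro e heD he
    have h1 : G ∣ ∑ j, e j * w j := by
      refine eq_zero_of_res G n d hG hn hGt (D := D' + n) hd
        (TD.sum fun j _ => (heD j).mul (hwTD j)) fun p => ?_
      rw [Finset.mul_sum, res_sum]
      have h2 : ∀ j, res G n d (p * (e j * w j)) = lam (ev x y p • (ev x y (e j) • a j)) := by
        intro j
        rw [smul_smul, ← map_mul, hw2]
        congr 1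
        ring
      simp only [h2]
      rw [← map_sum, ← Finset.smul_sum, he, smul_zero, map_zero]
    have h2 := (hGev _).2 h1
    rw [map_sum] at h2
    simpa only [map_mul] using h2
  have hw0 := hno w (fun j i l h => by have := hw1 j i l h; omega) (horth c hcD hc)
    (horth c' hcD' hc')
  have hl0 : ∀ (p : k[X][X]) (j : ι), lam (ev x y p • a j) = 0 := by
    intro p j
    rw [hw2, hw0 j, zero_mul, res_zero]
  apply hlu
  have key : ∀ z ∈ Nm k y a n, ∀ q : k[X], lam (q • z) = 0 := by
    intro z hz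
    refine Submodule.span_induction (p := fun z _ => ∀ q : k[X], lam (q • z) = 0) ?_ ?_ ?_ ?_ hz
    · rintro _ ⟨⟨j, b⟩, rfl⟩ q
      have h1 : q • (y ^ (b : ℕ) • a j) = ev x y (C q * X ^ (b : ℕ)) • a j := by
        rw [hX, map_mul, ev_C, map_pow, ev_X, mul_smul]
      change lam (q • (y ^ (b : ℕ) • a j)) = 0
      rw [h1, hl0]
    · intro q; simp
    · intro u v _ _ hu hv q
      rw [smul_add, map_add, hu, hv, add_zero]
    · intro q' u _ hu q
      rw [smul_smul]
      exact hu _
  have := key u hu 1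
  rwa [one_smul] at this

end Surj

end Vale.Agent.P287.H270
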