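import Vale.Agent.P287.H270.Affine

/-!
The inequality on the dimensions of the filtered pieces, in affine coordinates (second part).
-/

namespace Vale.Agent.P287.H270

open Polynomial Matrix

set_option linter.unusedSectionVars false

lemma eq_zero_of_dvd_of_lt {k : Type*} [Field k] {G : k[X][X]} {n : ℕ} (hG : G.Monic)
    (hn : G.natDegree = n) {z : k[X][X]} (h : G ∣ z) (hz : ∀ b, n ≤ b → z.coeff b = 0) : z = 0 := by
  rw [← modByMonic_eq_zero_iff_dvd hG] at h
  rw [← h]
  symm
  rw [modByMonic_eq_self_iff hG, degree_eq_natDegree hG.ne_zero, hn, degree_lt_iff_coeff_zero]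
  exact hz

lemma exists_TD {k : Type*} [Field k] (p : k[X][X]) : ∃ D, TD D p := by
  classical
  refine ⟨p.natDegree + ∑ b ∈ Finset.range (p.natDegree + 1), (p.coeff b).natDegree, ?_⟩
  intro i j hij
  by_cases hj : p.natDegree < j
  · rw [coeff_eq_zero_of_natDegree_lt hj, coeff_zero]
  · apply coeff_eq_zero_of_natDegree_lt
    have h1 : (p.coeff j).natDegree ≤
        ∑ b ∈ Finset.range (p.natDegree + 1), (p.coeff b).natDegree :=
      Finset.single_le_sum (f := fun b => (p.coeff b).natDegree) (fun b _ => Nat.zero_le _)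
        (Finset.mem_range.2 (by omega))
    omega

section

variable (k : Type*) [Field k] {κ : Type*} [Field κ] [Algebra k κ] (x y : κ)
variable {U : Type*} [AddCommGroup U] [Module κ U] [Module k U] [IsScalarTower k κ U]
variable {ι : Type*} [Fintype ι] (wt : ι → ℕ) (a : ι → U)
variable (G : k[X][X]) (n : ℕ) (hG : G.Monic) (hn : G.natDegree = n)
  (hGev : ∀ p : k[X][X], ev x y p = 0 ↔ G ∣ p)

include hG hn hGev

lemma n_pos : 0 < n := by
  rcases Nat.eq_zero_or_pos n with h | h
  · exfalso
    rw [h] at hn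
    have h1 := hG.natDegree_eq_zero.1 hn
    have h2 := (hGev 1).2 (by rw [h1])
    rw [map_one] at h2
    exact one_ne_zero h2
  · exact h

lemma inj_x (c : k[X]) (hc : aeval x c = 0) : c = 0 := by
  have h1 : ev x y (C c) = 0 := by rw [ev_C, hc]
  have h2 := eq_zero_of_dvd_of_lt hG hn ((hGev _).1 h1) (by
    intro b hb
    have := n_pos k x y G n hG hn hGev
    rw [coeff_C, if_neg (by omega)])
  exact C_eq_zero.1 h2

omit [Fintype ι] in
/-- the number of monomials -/
lemma finrank_ge_three [Finite ι] (S : Finset ι)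
    (hS : ∀ q : ι → k[X][X], (∀ j, j ∉ S → q j = 0) → ∑ j ∈ S, ev x y (q j) • a j = 0 →
      ∀ j ∈ S, ev x y (q j) = 0) (m : ℕ) :
    S.card * (n * (m + 1 - n)) ≤ Module.finrank k (Vm k x y wt a m) := by
  classical
  let v : S × (Fin n × Fin (m + 1 - n)) → Vm k x y wt a m := fun s =>
    ⟨ev x y (mon s.2.2 s.2.1) • a s.1.1, mem_Vm k x y wt a (TD_mon (by
      have h1 := s.2.1.2
      have h2 := s.2.2.2
      omega))⟩
  have hv : LinearIndependent k v := by
    rw [Fintype.linearIndependent_iff]
    intro g hg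
    have h1 : ∑ s : S × (Fin n × Fin (m + 1 - n)),
        g s • (ev (k := k) x y (mon s.2.2 s.2.1) • a s.1.1) = 0 := by
      have := congrArg (fun u : Vm k x y wt a m => (u : U)) hg
      simpa [v] using this
    let q : ι → k[X][X] := fun j => if h : j ∈ S then
      ∑ t : Fin n × Fin (m + 1 - n), C (C (g (⟨j, h⟩, t))) * mon t.2 t.1 else 0
    have hq : ∀ j : S, q j.1 = ∑ t : Fin n × Fin (m + 1 - n), C (C (g (j, t))) * mon t.2 t.1 := by
      intro j
      simp only [q, dif_pos j.2]
    have h2 := hS q (fun j hj => by simp only [q, dif_neg hj]) (by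
      rw [← Finset.sum_coe_sort S (fun j => ev x y (q j) • a j)]
      rw [Fintype.sum_prod_type] at h1
      rw [← h1]
      refine Finset.sum_congr rfl fun j _ => ?_
      rw [hq, map_sum, Finset.sum_smul]
      refine Finset.sum_congr rfl fun t _ => ?_
      rw [map_mul, ev_CC, mul_smul, algebraMap_smul])
    rintro ⟨j, t⟩
    have h3 : q j.1 = 0 := by
      refine eq_zero_of_dvd_of_lt hG hn ((hGev _).1 (h2 j.1 j.2)) fun b hb => ?_
      rw [hq, finsetSum_coeff]
      refine Finset.sum_eq_zero fun t _ => ?_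
      rw [coeff_C_mul, mon, coeff_C_mul, coeff_X_pow, if_neg, mul_zero, mul_zero]
      have := t.1.2
      omega
    have h4 := congrArg (fun p : k[X][X] => (p.coeff t.1).coeff t.2) h3
    simp only [coeff_zero] at h4
    rw [hq, finsetSum_coeff, finsetSum_coeff, Finset.sum_eq_single t] at h4
    · rw [coeff_coeff_CC_mon, if_pos ⟨rfl, rfl⟩] at h4
      exact h4
    · intro s _ hs
      rw [coeff_coeff_CC_mon, if_neg]
      rintro ⟨h5, h6⟩
      apply hs
      exact Prod.ext (Fin.ext h6.symm) (Fin.ext h5.symm)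
    · intro h; exact absurd (Finset.mem_univ _) h
  have h1 := hv.fintype_card_le_finrank
  simpa only [Fintype.card_prod, Fintype.card_coe, Fintype.card_fin] using h1

omit [IsScalarTower k κ U] in
/-- the rank over `k[X]` -/
lemma rank_ge [Module k[X] U] (hX : ∀ (p : k[X]) (u : U), p • u = aeval x p • u)
    (j1 j2 : ι) (hind : ∀ s t : κ, s • a j1 + t • a j2 = 0 → s = 0 ∧ t = 0) {ρ : ℕ}
    (b : Module.Basis (Fin ρ) k[X] (Nm k y a n)) : 2 * n ≤ ρ := by
  classical
  have hfin : Module.Finite k[X] (Nm k y a n) := Module.Finite.of_basis b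
  let e : Fin 2 → ι := ![j1, j2]
  let v : Fin 2 × Fin n → Nm k y a n := fun s =>
    ⟨y ^ (s.2 : ℕ) • a (e s.1), Submodule.subset_span ⟨(e s.1, s.2), rfl⟩⟩
  have hv : LinearIndependent k[X] v := by
    rw [Fintype.linearIndependent_iff]
    intro g hg
    have h1 : ∑ s : Fin 2 × Fin n, g s • (y ^ (s.2 : ℕ) • a (e s.1)) = 0 := by
      have := congrArg (fun u : Nm k y a n => (u : U)) hg
      simpa [v] using this
    let q : Fin 2 → k[X][X] := fun i => ∑ l : Fin n, C (g (i, l)) * X ^ (l : ℕ)
    have h2 : ev x y (q 0) • a j1 + ev x y (q 1) • a j2 = 0 := by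
      rw [Fintype.sum_prod_type, Fin.sum_univ_two] at h1
      rw [← h1]
      congr 1
      · simp only [q]
        rw [map_sum, Finset.sum_smul]
        refine Finset.sum_congr rfl fun l _ => ?_
        rw [map_mul, ev_C, map_pow, ev_X, mul_smul, hX]
        rfl
      · simp only [q]
        rw [map_sum, Finset.sum_smul]
        refine Finset.sum_congr rfl fun l _ => ?_
        rw [map_mul, ev_C, map_pow, ev_X, mul_smul, hX]
        rfl
    have h3 := hind _ _ h2
    have h4 : ∀ i, q i = 0 := by
      intro i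
      refine eq_zero_of_dvd_of_lt hG hn ((hGev _).1 (by fin_cases i; exacts [h3.1, h3.2]))
        fun b hb => ?_
      simp only [q]
      rw [finsetSum_coeff]
      refine Finset.sum_eq_zero fun l _ => ?_
      rw [coeff_C_mul, coeff_X_pow, if_neg, mul_zero]
      have := l.2
      omega
    rintro ⟨i, l⟩
    have h5 := congrArg (fun p : k[X][X] => p.coeff l) (h4 i)
    simp only [coeff_zero, q] at h5
    rw [finsetSum_coeff, Finset.sum_eq_single l] at h5
    · rw [coeff_C_mul, coeff_X_pow, if_pos rfl, mul_one] at h5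
      exact h5
    · intro s _ hs
      rw [coeff_C_mul, coeff_X_pow, if_neg, mul_zero]
      intro h; exact hs (Fin.ext h.symm)
    · intro h; exact absurd (Finset.mem_univ _) h
  have h1 := hv.fintype_card_le_finrank
  rw [Module.finrank_eq_card_basis b] at h1
  simpa only [Fintype.card_prod, Fintype.card_fin] using h1

end

section Final

variable {k : Type*} [Field k] {κ : Type*} [Field κ] [Algebra k κ] {W : Submodule κ (Fin 4 → κ)}

/-- the coordinate functions of the plane `W` -/
noncomputable def aW (bW : Module.Basis (Fin 2) κ W) (j : Fin 4) : Fin 2 → κ := fun i => (bW i : Fin 4 → κ) j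

lemma rel_iff (bW : Module.Basis (Fin 2) κ W) (c : Fin 4 → κ) :
    ∑ j, c j • aW bW j = 0 ↔ ∀ w ∈ W, c ⬝ᵥ w = 0 := by
  constructor
  · intro h w hw
    have h1 := congrArg W.subtype (bW.sum_repr ⟨w, hw⟩)
    rw [map_sum] at h1
    simp only [map_smul, Submodule.subtype_apply] at h1
    rw [← h1, dotProduct_sum]
    refine Finset.sum_eq_zero fun i _ => ?_
    have h3 := congrFun h i
    rw [Finset.sum_apply, Pi.zero_apply] at h3
    rw [dotProduct_smul]
    have h4 : c ⬝ᵥ (bW i : Fin 4 → κ) = 0 := h3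
    rw [h4, smul_zero]
  · intro h
    ext i
    rw [Finset.sum_apply, Pi.zero_apply]
    exact h _ (bW i).2

lemma exists_two (bW : Module.Basis (Fin 2) κ W) :
    ∃ j1 j2, ∀ s t : κ, s • aW bW j1 + t • aW bW j2 = 0 → s = 0 ∧ t = 0 := by
  have h0 : (bW 0 : Fin 4 → κ) ≠ 0 := by
    intro h
    exact bW.ne_zero 0 (Subtype.ext h)
  obtain ⟨j1, hj1⟩ := Function.ne_iff.1 h0
  rw [Pi.zero_apply] at hj1
  have h1 : (bW 0 : Fin 4 → κ) j1 • (bW 1 : Fin 4 → κ) -
      (bW 1 : Fin 4 → κ) j1 • (bW 0 : Fin 4 → κ) ≠ 0 := by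
    intro h
    have hli := Fintype.linearIndependent_iff.1 bW.linearIndependent
      ![-(bW 1 : Fin 4 → κ) j1, (bW 0 : Fin 4 → κ) j1] (by
        rw [Fin.sum_univ_two]
        apply Subtype.ext
        simp only [Matrix.cons_val_zero, Matrix.cons_val_one, Submodule.coe_add,
          Submodule.coe_smul, ZeroMemClass.coe_zero]
        rw [← h]
        module) 1
    exact hj1 (by simpa using hli)
  obtain ⟨j2, hj2⟩ := Function.ne_iff.1 h1
  rw [Pi.zero_apply, Pi.sub_apply, Pi.smul_apply, Pi.smul_apply, smul_eq_mul, smul_eq_mul] at hj2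
  refine ⟨j1, j2, fun s t hst => ?_⟩
  have e0 := congrFun hst 0
  have e1 := congrFun hst 1
  simp only [Pi.add_apply, Pi.smul_apply, smul_eq_mul, Pi.zero_apply, aW] at e0 e1
  have ht : t = 0 := by
    have : t * ((bW 0 : Fin 4 → κ) j1 * (bW 1 : Fin 4 → κ) j2 -
      (bW 1 : Fin 4 → κ) j1 * (bW 0 : Fin 4 → κ) j2) = 0 := by
      linear_combination ((bW 0 : Fin 4 → κ) j1) * e1 - ((bW 1 : Fin 4 → κ) j1) * e0
    exact (mul_eq_zero.1 this).resolve_right hj2
  refine ⟨?_, ht⟩
  rw [ht, zero_mul, add_zero] at e0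
  exact (mul_eq_zero.1 e0).resolve_right hj1

theorem affine_main (x y : κ) (G : k[X][X]) (n : ℕ) (hG : G.Monic) (hn : G.natDegree = n)
    (hGt : TD n G) (hGev : ∀ p : k[X][X], ev x y p = 0 ↔ G ∣ p)
    (wt : Fin 4 → ℕ) (r : ℕ) (hnr : n ≤ 2 * r + 4) (bW : Module.Basis (Fin 2) κ W)
    (M : Matrix (Fin 4) (Fin 4) k[X][X]) (hM : ∀ i j, TD (1 + wt i + wt j) (M i j))
    (hiso : ∀ w ∈ W, ∑ i, ∑ j, ev x y (M i j) * w i * w j = 0)
    (haniso : ∀ w : Fin 4 → k[X][X], ∑ i, ∑ j, M i j * w i * w j = 0 → ∀ i, w i = 0)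
    (C0 : ℤ) (hfreq : ∀ N : ℕ, ∃ m ≥ N,
      (Module.finrank k (Vm k x y wt (aW bW) m) : ℤ) ≤ 2 * n * m + C0) :
    (Module.finrank k (Vm k x y wt (aW bW) r) : ℤ) ≤ 2 * n * r + C0 := by
  classical
  have hn0 := n_pos k x y G n hG hn hGev
  let _ : Algebra k[X] κ := (aeval x : k[X] →ₐ[k] κ).toRingHom.toAlgebra
  have hal : ∀ p : k[X], algebraMap k[X] κ p = aeval x p := fun p => rfl
  have : IsScalarTower k k[X] κ := IsScalarTower.of_algebraMap_eq fun c => by
    rw [hal, Polynomial.algebraMap_eq, aeval_C]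
  have hX : ∀ (p : k[X]) (u : Fin 2 → κ), p • u = aeval x p • u := by
    intro p u
    ext i
    rw [Pi.smul_apply, Pi.smul_apply, Algebra.smul_def, hal, smul_eq_mul]
  have hxinj : Function.Injective (aeval x : k[X] → κ) := by
    rw [injective_iff_map_eq_zero (aeval x : k[X] →ₐ[k] κ)]
    exact fun c hc => inj_x k x y G n hG hn hGev c hc
  by_cases h : ∃ c c' : Fin 4 → k[X][X],
      ∑ j, ev x y (c j) • aW bW j = 0 ∧ ∑ j, ev x y (c' j) • aW bW j = 0 ∧
      ∀ s t : κ, s • (fun j => ev x y (c j)) + t • (fun j => ev x y (c' j)) = 0 → s = 0 ∧ t = 0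
  · obtain ⟨c, c', hc, hc', hind⟩ := h
    choose Dc hDc using fun j => exists_TD (c j)
    choose Dc' hDc' using fun j => exists_TD (c' j)
    set D' := ∑ j, (Dc j + Dc' j) with hD'
    have hle : ∀ j, Dc j ≤ D' ∧ Dc' j ≤ D' := by
      intro j
      have h1 : Dc j + Dc' j ≤ D' :=
        Finset.single_le_sum (f := fun j => Dc j + Dc' j) (fun _ _ => Nat.zero_le _)
          (Finset.mem_univ j)
      omega
    obtain ⟨m, hm, hmle⟩ := hfreq (r + (D' + n + 1))
    obtain ⟨d, rfl⟩ : ∃ d, m = r + d := ⟨m - r, by omega⟩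
    have hsurj := surj_of_large k x y wt (aW bW) hX G n hG hn hGt hGev r D' c c'
      (fun j => (hDc j).mono (hle j).1) (fun j => (hDc' j).mono (hle j).2) hc hc' (by
        intro w hw ho ho'
        apply haniso
        set z : k[X][X] := ∑ i, ∑ j, M i j * w i * w j with hz
        have hwW : (fun j => ev x y (w j)) ∈ W := by
          have hW2 : Module.finrank κ W = 2 := by
            rw [Module.finrank_eq_card_basis bW, Fintype.card_fin]
          exact mem_of_orth W hW2 (fun j => ev x y (c j)) (fun j => ev x y (c' j)) hind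
            ((rel_iff bW _).1 hc) ((rel_iff bW _).1 hc') _ ho ho'
        have h1 := hiso _ hwW
        have h2 : ev x y z = 0 := by
          rw [hz]
          simpa only [map_sum, map_mul] using h1
        refine eq_zero_of_dvd_of_lt hG hn ((hGev _).1 h2) ?_
        have hTDz : TD (n - 1) z := by
          refine TD.sum fun i _ => TD.sum fun j _ => ?_
          by_cases hi : w i = 0
          · rw [hi, mul_zero, zero_mul]; exact TD.zero _
          by_cases hj : w j = 0
          · rw [hj, mul_zero]; exact TD.zero _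
          have key : ∀ i, w i ≠ 0 → r + wt i + 3 ≤ n ∧ TD (n - r - wt i - 3) (w i) := by
            intro i hi
            constructor
            · by_contra hcon
              apply hi
              ext l e
              rw [coeff_zero, coeff_zero]
              by_contra h3
              have := hw i e l h3
              omega
            · intro e l hel
              by_contra h3
              have := hw i e l h3
              omega
          obtain ⟨k1, k2⟩ := key i hi
          obtain ⟨k3, k4⟩ := key j hj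
          exact TD.mono (by omega) (((hM i j).mul k2).mul k4)
        intro b hb
        ext e
        rw [coeff_zero]
        exact hTDz e b (by omega)) d (by omega)
    -- a basis of the module
    have : Module.Finite k[X] (Nm k y (aW bW) n) :=
      Module.Finite.span_of_finite k[X] (Set.finite_range _)
    have : Module.IsTorsionFree k[X] (Nm k y (aW bW) n) := by
      apply Module.IsTorsionFree.of_smul_eq_zero
      intro p u hpu
      have h1 : (p : k[X]) • (u : Fin 2 → κ) = 0 := by
        rw [← Submodule.coe_smul, hpu]; rfl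
      rw [hX] at h1
      rcases smul_eq_zero.1 h1 with h2 | h2
      · left; exact inj_x k x y G n hG hn hGev p h2
      · right; exact Subtype.ext h2
    obtain ⟨ρ, b⟩ := Module.basisOfFiniteTypeTorsionFree' (R := k[X]) (M := Nm k y (aW bW) n)
    have hgr := growth k x y wt (aW bW) hX G n hG hn ((hGev G).2 dvd_rfl) hxinj b d r hsurj
    obtain ⟨j1, j2, hj⟩ := exists_two bW
    have hρ := rank_ge k x y (aW bW) G n hG hn hGev hX j1 j2 hj b
    have h1 : ((ρ : ℤ) * d + Module.finrank k (Vm k x y wt (aW bW) r)) ≤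
        Module.finrank k (Vm k x y wt (aW bW) (r + d)) := by exact_mod_cast hgr
    have h2 : (2 * n : ℤ) * d ≤ ρ * d := by
      apply mul_le_mul_of_nonneg_right
      · exact_mod_cast hρ
      · positivity
    push_cast at hmle
    linarith
  · exfalso
    -- three of the coordinate functions are independent
    have hS : ∃ j0 : Fin 4, ∀ q : Fin 4 → k[X][X], q j0 = 0 → ∑ j, ev x y (q j) • aW bW j = 0 →
        ∀ j, ev x y (q j) = 0 := by
      by_cases h1 : ∃ c : Fin 4 → k[X][X], ∑ j, ev x y (c j) • aW bW j = 0 ∧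
          ∃ j, ev x y (c j) ≠ 0
      · obtain ⟨c, hc, j0, hj0⟩ := h1
        refine ⟨j0, fun q hq0 hq => ?_⟩
        by_contra hcon
        push Not at hcon
        obtain ⟨j, hj⟩ := hcon
        apply h
        refine ⟨c, q, hc, hq, fun s t hst => ?_⟩
        have e0 := congrFun hst j0
        simp only [Pi.add_apply, Pi.smul_apply, smul_eq_mul, Pi.zero_apply, hq0, map_zero,
          mul_zero, add_zero] at e0
        have hs : s = 0 := (mul_eq_zero.1 e0).resolve_right hj0
        have e1 := congrFun hst j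
        simp only [Pi.add_apply, Pi.smul_apply, smul_eq_mul, Pi.zero_apply, hs, zero_mul,
          zero_add] at e1
        exact ⟨hs, (mul_eq_zero.1 e1).resolve_right hj⟩
      · push Not at h1
        exact ⟨0, fun q _ hq => h1 q hq⟩
    obtain ⟨j0, hj0⟩ := hS
    obtain ⟨m, hm, hmle⟩ := hfreq (C0.natAbs + 3 * n * n + n + 1)
    have h1 := finrank_ge_three k x y wt (aW bW) G n hG hn hGev (Finset.univ.erase j0)
      (by
        intro q hq hsum j _
        have hq0 : q j0 = 0 := hq j0 (by simp)
        refine hj0 q hq0 ?_ j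
        rw [← Finset.sum_erase_add _ _ (Finset.mem_univ j0), hsum, hq0, map_zero, zero_smul,
          add_zero]) m
    rw [Finset.card_erase_of_mem (Finset.mem_univ j0), Finset.card_univ, Fintype.card_fin] at h1
    obtain ⟨e, he⟩ : ∃ e, m = n + e := ⟨m - n, by omega⟩
    have h2 : m + 1 - n = e + 1 := by omega
    rw [h2] at h1
    have h3 : ((4 - 1 : ℕ) : ℤ) * (n * (e + 1)) ≤ 2 * n * m + C0 := by
      refine le_trans ?_ hmle
      exact_mod_cast h1
    have h4 : C0 ≤ C0.natAbs := Int.le_natAbs
    have h5 : (e : ℤ) ≥ C0.natAbs + 3 * n * n + 1 := by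
      have : e ≥ C0.natAbs + 3 * n * n + 1 := by omega
      exact_mod_cast this
    have h6 : (1 : ℤ) ≤ n := by exact_mod_cast hn0
    have h7 : (m : ℤ) = n + e := by exact_mod_cast he
    rw [h7] at h3
    push_cast at h3
    nlinarith

end Final

end Vale.Agent.P287.H270
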