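import Mathlib

/-!
The product of three vectors in a space of dimension four.
-/

namespace Vale.Agent.P287.H270

open Matrix

section

variable {A : Type*} [CommRing A]

/-- the vector orthogonal to three vectors -/
def cr (a b c : Fin 4 → A) : Fin 4 → A :=
  ![a 1 * (b 2 * c 3 - b 3 * c 2) - a 2 * (b 1 * c 3 - b 3 * c 1) + a 3 * (b 1 * c 2 - b 2 * c 1),
    -(a 0 * (b 2 * c 3 - b 3 * c 2) - a 2 * (b 0 * c 3 - b 3 * c 0) +
      a 3 * (b 0 * c 2 - b 2 * c 0)),
    a 0 * (b 1 * c 3 - b 3 * c 1) - a 1 * (b 0 * c 3 - b 3 * c 0) + a 3 * (b 0 * c 1 - b 1 * c 0),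
    -(a 0 * (b 1 * c 2 - b 2 * c 1) - a 1 * (b 0 * c 2 - b 2 * c 0) +
      a 2 * (b 0 * c 1 - b 1 * c 0))]

/-- the determinant -/
def dt (d a b c : Fin 4 → A) : A := d ⬝ᵥ cr a b c

lemma dt_eq (d a b c : Fin 4 → A) : dt d a b c = d 0 * cr a b c 0 + d 1 * cr a b c 1 +
    d 2 * cr a b c 2 + d 3 * cr a b c 3 := by
  rw [dt, dotProduct, Fin.sum_univ_four]

lemma dt_self1 (a b c : Fin 4 → A) : a ⬝ᵥ cr a b c = 0 := by
  rw [dotProduct, Fin.sum_univ_four]; simp [cr]; ring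

lemma dt_self2 (a b c : Fin 4 → A) : b ⬝ᵥ cr a b c = 0 := by
  rw [dotProduct, Fin.sum_univ_four]; simp [cr]; ring

lemma dt_self3 (a b c : Fin 4 → A) : c ⬝ᵥ cr a b c = 0 := by
  rw [dotProduct, Fin.sum_univ_four]; simp [cr]; ring

lemma dt_swap1 (a b c d : Fin 4 → A) : a ⬝ᵥ cr d b c = - (d ⬝ᵥ cr a b c) := by
  rw [dotProduct, dotProduct, Fin.sum_univ_four, Fin.sum_univ_four]; simp [cr]; ring

lemma dt_swap2 (a b c d : Fin 4 → A) : b ⬝ᵥ cr a d c = - (d ⬝ᵥ cr a b c) := by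
  rw [dotProduct, dotProduct, Fin.sum_univ_four, Fin.sum_univ_four]; simp [cr]; ring

lemma dt_swap3 (a b c d : Fin 4 → A) : c ⬝ᵥ cr a b d = - (d ⬝ᵥ cr a b c) := by
  rw [dotProduct, dotProduct, Fin.sum_univ_four, Fin.sum_univ_four]; simp [cr]; ring

lemma cr_add1 (a a' b c : Fin 4 → A) : cr (a + a') b c = cr a b c + cr a' b c := by
  ext i; fin_cases i <;> simp [cr] <;> ring

lemma cr_add2 (a b b' c : Fin 4 → A) : cr a (b + b') c = cr a b c + cr a b' c := by
  ext i; fin_cases i <;> simp [cr] <;> ring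

lemma cr_add3 (a b c c' : Fin 4 → A) : cr a b (c + c') = cr a b c + cr a b c' := by
  ext i; fin_cases i <;> simp [cr] <;> ring

lemma cr_smul1 (t : A) (a b c : Fin 4 → A) : cr (t • a) b c = t • cr a b c := by
  ext i; fin_cases i <;> simp [cr] <;> ring

lemma cr_smul2 (t : A) (a b c : Fin 4 → A) : cr a (t • b) c = t • cr a b c := by
  ext i; fin_cases i <;> simp [cr] <;> ring

lemma cr_smul3 (t : A) (a b c : Fin 4 → A) : cr a b (t • c) = t • cr a b c := by
  ext i; fin_cases i <;> simp [cr] <;> ring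

lemma cr_self12 (a c : Fin 4 → A) : cr a a c = 0 := by
  ext i; fin_cases i <;> simp [cr] <;> ring

lemma cr_self13 (a b : Fin 4 → A) : cr a b a = 0 := by
  ext i; fin_cases i <;> simp [cr] <;> ring

lemma cr_self23 (a b : Fin 4 → A) : cr a b b = 0 := by
  ext i; fin_cases i <;> simp [cr] <;> ring

/-- a vector orthogonal to `a, b, c` is proportional to `cr a b c` -/
lemma cr_prop (a b c u : Fin 4 → A) (ha : a ⬝ᵥ u = 0) (hb : b ⬝ᵥ u = 0) (hc : c ⬝ᵥ u = 0)
    (i j : Fin 4) : u i * cr a b c j = u j * cr a b c i := by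
  rw [dotProduct, Fin.sum_univ_four] at ha hb hc
  have key : ∀ i j : Fin 4, i < j → u i * cr a b c j = u j * cr a b c i := by
    intro i j hij
    fin_cases i <;> fin_cases j <;> first
      | exact absurd hij (by decide)
      | skip
    · simp [cr]
      linear_combination (b 3 * c 2 - b 2 * c 3) * ha + (a 2 * c 3 - a 3 * c 2) * hb +
        (a 3 * b 2 - a 2 * b 3) * hc
    · simp [cr]
      linear_combination (b 1 * c 3 - b 3 * c 1) * ha + (a 3 * c 1 - a 1 * c 3) * hb +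
        (a 1 * b 3 - a 3 * b 1) * hc
    · simp [cr]
      linear_combination (b 2 * c 1 - b 1 * c 2) * ha + (a 1 * c 2 - a 2 * c 1) * hb +
        (a 2 * b 1 - a 1 * b 2) * hc
    · simp [cr]
      linear_combination (b 3 * c 0 - b 0 * c 3) * ha + (a 0 * c 3 - a 3 * c 0) * hb +
        (a 3 * b 0 - a 0 * b 3) * hc
    · simp [cr]
      linear_combination (b 0 * c 2 - b 2 * c 0) * ha + (a 2 * c 0 - a 0 * c 2) * hb +
        (a 0 * b 2 - a 2 * b 0) * hc
    · simp [cr]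
      linear_combination (b 1 * c 0 - b 0 * c 1) * ha + (a 0 * c 1 - a 1 * c 0) * hb +
        (a 1 * b 0 - a 0 * b 1) * hc
  rcases lt_trichotomy i j with h | h | h
  · exact key i j h
  · rw [h]
  · exact (key j i h).symm

/-- Cramer's rule for five vectors -/
lemma cramer5 (a b c h e : Fin 4 → A) (i : Fin 4) :
    (e ⬝ᵥ cr a b c) * h i = (e ⬝ᵥ cr h b c) * a i + (e ⬝ᵥ cr a h c) * b i +
      (e ⬝ᵥ cr a b h) * c i + (h ⬝ᵥ cr a b c) * e i := by
  simp only [dotProduct, Fin.sum_univ_four]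
  fin_cases i <;> simp [cr] <;> ring

lemma map_cr {B : Type*} [CommRing B] (f : A →+* B) (a b c : Fin 4 → A) (i : Fin 4) :
    f (cr a b c i) = cr (fun j => f (a j)) (fun j => f (b j)) (fun j => f (c j)) i := by
  fin_cases i <;> simp [cr]

end

end Vale.Agent.P287.H270
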