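import Vale.Agent.P287.H270.PencilHom
import Vale.Agent.P287.H270.Cross
import Vale.Agent.P287.H631.Rows

/-!
Three forms through the scroll and the vector orthogonal to them.
-/

namespace Vale.Agent.P287.H270

open Polynomial Matrix
open Vale.Agent.P287.H925 (wt ScrollForm Primitive exists_prim homog_factor hom_quot)

set_option linter.unusedSectionVars false

section LinAlg

lemma finrank_span_one_le {k V : Type*} [Field k] [AddCommGroup V] [Module k V] (v : V) :
    Module.finrank k (Submodule.span k {v}) ≤ 1 := by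
  by_cases hv : v = 0
  · subst hv
    rw [Submodule.span_zero_singleton, finrank_bot]
    omega
  · rw [finrank_span_singleton hv]

lemma exists_two_mod {k V : Type*} [Field k] [AddCommGroup V] [Module k V] [Module.Finite k V]
    (S : Submodule k V) (h : Module.finrank k S + 2 ≤ Module.finrank k V) :
    ∃ a b : V, ∀ s t : k, s • a + t • b ∈ S → s = 0 ∧ t = 0 := by
  have h1 : ∃ a, a ∉ S := by
    by_contra hcon
    push Not at hcon
    have : S = ⊤ := eq_top_iff.2 fun x _ => hcon x
    rw [this, finrank_top] at h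
    omega
  obtain ⟨a, ha⟩ := h1
  have h2 : ∃ b, b ∉ S ⊔ Submodule.span k {a} := by
    by_contra hcon
    push Not at hcon
    have h3 : S ⊔ Submodule.span k {a} = ⊤ := eq_top_iff.2 fun x _ => hcon x
    have h4 := Submodule.finrank_add_le_finrank_add_finrank S (Submodule.span k {a})
    rw [h3, finrank_top] at h4
    have h5 := finrank_span_one_le (k := k) a
    omega
  obtain ⟨b, hb⟩ := h2
  refine ⟨a, b, fun s t hst => ?_⟩
  have ht : t = 0 := by
    by_contra ht
    apply hb
    have h3 : b = t⁻¹ • (s • a + t • b) + (-(t⁻¹ * s)) • a := by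
      rw [smul_add, smul_smul, smul_smul, inv_mul_cancel₀ ht, one_smul]
      module
    rw [h3]
    exact Submodule.add_mem_sup (Submodule.smul_mem _ _ hst)
      (Submodule.smul_mem _ _ (Submodule.mem_span_singleton_self a))
  refine ⟨?_, ht⟩
  by_contra hs
  apply ha
  rw [ht, zero_smul, add_zero] at hst
  have h3 := S.smul_mem s⁻¹ hst
  rwa [smul_smul, inv_mul_cancel₀ hs, one_smul] at h3

end LinAlg

variable {k : Type*} [Field k] {κ : Type*} [Field κ]

lemma cr_eq_zero_of_orth (W : Submodule κ (Fin 4 → κ)) (hW : Module.finrank κ W = 2)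
    (a b c : Fin 4 → κ) (ha : ∀ w ∈ W, a ⬝ᵥ w = 0) (hb : ∀ w ∈ W, b ⬝ᵥ w = 0)
    (hc : ∀ w ∈ W, c ⬝ᵥ w = 0) : cr a b c = 0 := by
  by_contra hne
  obtain ⟨j, hj⟩ := Function.ne_iff.1 hne
  rw [Pi.zero_apply] at hj
  have h1 : W ≤ Submodule.span κ {cr a b c} := by
    intro w hw
    rw [Submodule.mem_span_singleton]
    refine ⟨w j / cr a b c j, ?_⟩
    ext i
    have := cr_prop a b c w (ha w hw) (hb w hw) (hc w hw) i j
    rw [Pi.smul_apply, smul_eq_mul]
    field_simp
    linear_combination -this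
  have h2 := Submodule.finrank_mono h1
  have h3 := finrank_span_one_le (k := κ) (cr a b c)
  omega

lemma det_rows_eq {A : Type*} [CommRing A] (d a b c : Fin 4 → A) :
    (Matrix.of ![d, a, b, c]).det = d ⬝ᵥ cr a b c := by
  rw [Matrix.det_succ_row_zero, dotProduct]
  simp only [Fin.sum_univ_four, Matrix.det_fin_three, Matrix.submatrix_apply, Fin.succAbove]
  simp [cr]
  ring

variable {φ : MvPolynomial (Fin 3) k →+* κ} {g : MvPolynomial (Fin 3) k} {r : ℕ}
  {W : Submodule κ (Fin 4 → κ)} {M : Matrix (Fin 4) (Fin 4) (MvPolynomial (Fin 3) k)}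

/-- `φ u` is in the plane -/
def InW (φ : MvPolynomial (Fin 3) k →+* κ) (W : Submodule κ (Fin 4 → κ))
    (u : Fin 4 → MvPolynomial (Fin 3) k) : Prop := (fun i => φ (u i)) ∈ W

/-- `f` vanishes on the plane -/
def Orth (φ : MvPolynomial (Fin 3) k →+* κ) (W : Submodule κ (Fin 4 → κ))
    (f : Fin 4 → MvPolynomial (Fin 3) k) : Prop := ∀ w ∈ W, ∑ i, φ (f i) * w i = 0

lemma Orth.dvd_cr (hφ : ∀ p, φ p = 0 ↔ g ∣ p) (hW : Module.finrank κ W = 2)
    {a b c : Fin 4 → MvPolynomial (Fin 3) k} (ha : Orth φ W a) (hb : Orth φ W b)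
    (hc : Orth φ W c) (i : Fin 4) : g ∣ cr a b c i := by
  rw [← hφ, map_cr, cr_eq_zero_of_orth W hW _ _ _ ha hb hc]
  rfl

lemma Orth.dot (hφ : ∀ p, φ p = 0 ↔ g ∣ p) {f u : Fin 4 → MvPolynomial (Fin 3) k}
    (hf : Orth φ W f) (hu : InW φ W u) : g ∣ f ⬝ᵥ u := by
  rw [← hφ, dotProduct, map_sum]
  simp only [map_mul]
  exact hf _ hu

/-- the vector orthogonal to three forms, divided by `g`, is in the plane -/
lemma Orth.inW (hφ : ∀ p, φ p = 0 ↔ g ∣ p) (hg0 : g ≠ 0) (hW : Module.finrank κ W = 2)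
    (hrat : Rat φ W) {a b c u : Fin 4 → MvPolynomial (Fin 3) k} (ha : Orth φ W a)
    (hb : Orth φ W b) (hc : Orth φ W c) (hu : ∀ i, cr a b c i = g * u i) : InW φ W u := by
  obtain ⟨T, e, he, heind⟩ := hrat
  have key : ∀ i : Fin 2, (fun j => φ (e i j)) ⬝ᵥ (fun j => φ (u j)) = 0 := by
    intro i
    obtain ⟨A, d, _, hd, _, _⟩ := Vale.Agent.P287.H925.step_one φ g hφ hg0
      (Matrix.of ![e i, a, b, c]) W hW.ge (by
        intro w hw
        ext l
        fin_cases l
        · exact (he i).van w hw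
        · exact ha w hw
        · exact hb w hw
        · exact hc w hw)
    rw [det_rows_eq] at hd
    have h1 : g * (e i ⬝ᵥ u) = g * (g * d) := by
      rw [dotProduct] at hd ⊢
      rw [Finset.mul_sum]
      have h2 : ∑ j, g * (e i j * u j) = ∑ j, e i j * cr a b c j :=
        Finset.sum_congr rfl fun j _ => by rw [hu]; ring
      rw [h2, hd]; ring
    have h2 := mul_left_cancel₀ hg0 h1
    have h3 : φ (e i ⬝ᵥ u) = 0 := by
      rw [h2, hφ]
      exact dvd_mul_right _ _
    rw [dotProduct, map_sum] at h3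
    rw [dotProduct, ← h3]
    exact Finset.sum_congr rfl fun j _ => (map_mul _ _ _).symm
  refine mem_of_orth W hW (fun j => φ (e 0 j)) (fun j => φ (e 1 j)) ?_ ?_ ?_ _ (key 0) (key 1)
  · intro s t hst
    apply heind
    intro j
    have := congrFun hst j
    simpa using this
  · exact fun w hw => (he 0).van w hw
  · exact fun w hw => (he 1).van w hw

lemma Mon.dvd_q (H : Mon φ g r W M) {u : Fin 4 → MvPolynomial (Fin 3) k} (hu : InW φ W u) :
    g ∣ u ⬝ᵥ (M *ᵥ u) := by
  rw [← H.hφ]
  have h1 := H.hiso _ hu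
  rw [hdot] at h1 ⊢
  rw [map_sum]
  rw [← h1]
  refine Finset.sum_congr rfl fun i _ => ?_
  rw [map_sum]
  refine Finset.sum_congr rfl fun j _ => ?_
  rw [map_mul, map_mul, Matrix.map_apply]

lemma cr_hom {A B C : ℕ} {a b c : Fin 4 → MvPolynomial (Fin 3) k}
    (ha : ∀ i, (a i).IsHomogeneous (A + wt i)) (hb : ∀ i, (b i).IsHomogeneous (B + wt i))
    (hc : ∀ i, (c i).IsHomogeneous (C + wt i)) (i : Fin 4) :
    (cr a b c i).IsHomogeneous (A + B + C + 1 - wt i) := by
  have key : ∀ i j l : Fin 4, (a i * (b j * c l - b l * c j)).IsHomogeneous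
      (A + B + C + (wt i + wt j + wt l)) := by
    intro i j l
    have h1 := (hb j).mul (hc l)
    have h2 := (hb l).mul (hc j)
    have e1 : B + wt j + (C + wt l) = B + C + (wt j + wt l) := by ring
    have e2 : B + wt l + (C + wt j) = B + C + (wt j + wt l) := by ring
    rw [e1] at h1
    rw [e2] at h2
    have h3 := (ha i).mul (h1.sub h2)
    have e3 : A + wt i + (B + C + (wt j + wt l)) = A + B + C + (wt i + wt j + wt l) := by ring
    rwa [e3] at h3
  fin_cases i
  · exact ((key 1 2 3).sub (key 2 1 3)).add (key 3 1 2)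
  · exact (((key 0 2 3).sub (key 2 0 3)).add (key 3 0 2)).neg
  · exact ((key 0 1 3).sub (key 1 0 3)).add (key 3 0 1)
  · exact (((key 0 1 2).sub (key 1 0 2)).add (key 2 0 1)).neg

lemma val_eq {D : ℕ} {f : Fin 4 → MvPolynomial (Fin 3) k} (hf : ScrollForm φ W D f) (j : Fin 4) :
    val D f j = MvPolynomial.eval ![0, 0, 1] (f j) := coeff_dh_top (hf.hom j)

/-- three forms: `s` of degree `r - 1`, `a` and `b` of degree `r` independent of `s` -/
theorem Mon.cr_ne (H : Mon φ g r W M) (hrat : Rat φ W)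
    {s a b : Fin 4 → MvPolynomial (Fin 3) k} (hs : ScrollForm φ W (r - 1) s) (hs0 : s ≠ 0)
    (ha : ScrollForm φ W r a) (hb : ScrollForm φ W r b)
    (hind : ∀ (u v : k) (l : MvPolynomial (Fin 3) k), l.IsHomogeneous 1 →
      (∀ j, MvPolynomial.C u * a j + MvPolynomial.C v * b j = l * s j) → u = 0 ∧ v = 0) :
    cr s a b ≠ 0 := by
  intro hcr
  have hr := H.hr
  let N : Matrix (Fin 3) (Fin 4) k := Matrix.of ![val (r - 1) s, val r a, val r b]
  have hN : ∀ c, Vale.Agent.P287.H631.mnr N c = 0 := by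
    intro c
    have h1 : Vale.Agent.P287.H631.mnr N c = cr (val (r - 1) s) (val r a) (val r b) c := by
      have e0 : ∀ i, N 0 i = val (r - 1) s i := fun i => rfl
      have e1 : ∀ i, N 1 i = val r a i := fun i => rfl
      have e2 : ∀ i, N 2 i = val r b i := fun i => rfl
      fin_cases c <;> simp [Vale.Agent.P287.H631.mnr, cr, e0, e1, e2] <;> ring
    have h2 : cr (val (r - 1) s) (val r a) (val r b) c =
        MvPolynomial.eval ![0, 0, 1] (cr s a b c) := by
      rw [map_cr]
      have e0 : val (r - 1) s = fun j => MvPolynomial.eval ![0, 0, 1] (s j) :=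
        funext fun j => val_eq hs j
      have e1 : val r a = fun j => MvPolynomial.eval ![0, 0, 1] (a j) :=
        funext fun j => val_eq ha j
      have e2 : val r b = fun j => MvPolynomial.eval ![0, 0, 1] (b j) :=
        funext fun j => val_eq hb j
      rw [e0, e1, e2]
    rw [h1, h2, hcr]
    simp
  obtain ⟨d, hd, hdN⟩ := Vale.Agent.P287.H631.exists_relation N hN
  -- the combination
  have hs1 : ScrollForm φ W r (fun j => MvPolynomial.C (d 0) * MvPolynomial.X 2 * s j) := by
    have := ScrollForm_mul hs ((MvPolynomial.isHomogeneous_X k (2 : Fin 3)).C_mul (d 0))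
    have h3 : 1 + (r - 1) = r := by omega
    rwa [h3] at this
  have ha1 : ScrollForm φ W r (fun j => MvPolynomial.C (d 1) * a j) := by
    have := ScrollForm_mul ha (MvPolynomial.isHomogeneous_C (Fin 3) (d 1))
    rwa [Nat.zero_add] at this
  have hb1 : ScrollForm φ W r (fun j => MvPolynomial.C (d 2) * b j) := by
    have := ScrollForm_mul hb (MvPolynomial.isHomogeneous_C (Fin 3) (d 2))
    rwa [Nat.zero_add] at this
  have hh := ScrollForm_add (ScrollForm_add hs1 ha1) hb1
  obtain ⟨l, hl, hhl⟩ := H.mult_of_val hrat hs hs0 hh (by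
    funext j
    have h1 := hdN j
    rw [Fin.sum_univ_three] at h1
    rw [val_eq hh]
    simp only [Pi.add_apply, map_add, map_mul, MvPolynomial.eval_C, MvPolynomial.eval_X,
      Pi.zero_apply]
    have e0 : N 0 j = MvPolynomial.eval ![0, 0, 1] (s j) := val_eq hs j
    have e1 : N 1 j = MvPolynomial.eval ![0, 0, 1] (a j) := val_eq ha j
    have e2 : N 2 j = MvPolynomial.eval ![0, 0, 1] (b j) := val_eq hb j
    rw [e0, e1, e2] at h1
    simp
    linear_combination h1)
  have h1 := hind (d 1) (d 2) (l - MvPolynomial.C (d 0) * MvPolynomial.X 2)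
    (hl.sub ((MvPolynomial.isHomogeneous_X k (2 : Fin 3)).C_mul (d 0))) (by
      intro j
      have := hhl j
      simp only [Pi.add_apply] at this
      linear_combination this)
  apply hd
  have h2 : d 0 = 0 := by
    by_contra hd0
    apply H.val_ne hrat hs hs0
    funext j
    have h3 := hdN j
    rw [Fin.sum_univ_three, h1.1, h1.2, zero_mul, zero_mul, add_zero, add_zero] at h3
    exact (mul_eq_zero.1 h3).resolve_left hd0
  funext i
  fin_cases i
  · exact h2
  · exact h1.1
  · exact h1.2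

end Vale.Agent.P287.H270
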