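import Vale.Agent.P287.H270.B2a

/-!
Three forms through the scroll, the vector orthogonal to them, and its kernel.
-/

namespace Vale.Agent.P287.H270

open Polynomial Matrix
open Vale.Agent.P287.H925 (wt ScrollForm Primitive exists_prim homog_factor hom_quot)

set_option linter.unusedSectionVars false

variable {k : Type*} [Field k] {κ : Type*} [Field κ]
variable {φ : MvPolynomial (Fin 3) k →+* κ} {g : MvPolynomial (Fin 3) k} {r : ℕ}
  {W : Submodule κ (Fin 4 → κ)} {M : Matrix (Fin 4) (Fin 4) (MvPolynomial (Fin 3) k)}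

/-- three forms and the vector orthogonal to them -/
structure Tri (φ : MvPolynomial (Fin 3) k →+* κ) (g : MvPolynomial (Fin 3) k) (r : ℕ)
    (W : Submodule κ (Fin 4 → κ)) (s a b v : Fin 4 → MvPolynomial (Fin 3) k) : Prop where
  hs : ScrollForm φ W (r - 1) s
  ha : ScrollForm φ W r a
  hb : ScrollForm φ W r b
  hv : ∀ i, cr s a b i = g * v i
  hne : v ≠ 0

variable {s a b v : Fin 4 → MvPolynomial (Fin 3) k}

lemma Mon.prime_not_unit (H : Mon φ g r W M) : ¬ IsUnit g := by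
  intro h
  have h1 := (H.hφ 1).2 h.dvd
  rw [map_one] at h1
  exact one_ne_zero h1

lemma Mon.v_hom (H : Mon φ g r W M) (Q : Tri φ g r W s a b v) (i : Fin 4) :
    (v i).IsHomogeneous (r - wt i) := by
  have h1 := cr_hom Q.hs.hom Q.ha.hom Q.hb.hom i
  rw [Q.hv i] at h1
  refine hom_quot H.hgn H.g_ne ?_
  have hr := H.hr
  have hw := wt_le1 i
  have h2 : 2 * r + (r - wt i) = r - 1 + r + r + 1 - wt i := by omega
  rwa [h2]

lemma Mon.v_inW (H : Mon φ g r W M) (hrat : Rat φ W) (Q : Tri φ g r W s a b v) : InW φ W v :=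
  Orth.inW H.hφ H.g_ne H.hW hrat Q.hs.van Q.ha.van Q.hb.van Q.hv

lemma qhom {D : ℕ} (H : Mon φ g r W M) {u : Fin 4 → MvPolynomial (Fin 3) k}
    (hu : ∀ i, u i ≠ 0 → wt i ≤ D ∧ (u i).IsHomogeneous (D - wt i)) :
    (u ⬝ᵥ (M *ᵥ u)).IsHomogeneous (1 + 2 * D) := by
  rw [hdot]
  refine MvPolynomial.IsHomogeneous.sum _ _ _ fun i _ =>
    MvPolynomial.IsHomogeneous.sum _ _ _ fun j _ => ?_
  by_cases hi : u i = 0
  · rw [hi, mul_zero, zero_mul]; exact MvPolynomial.isHomogeneous_zero _ _ _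
  by_cases hj : u j = 0
  · rw [hj, mul_zero]; exact MvPolynomial.isHomogeneous_zero _ _ _
  obtain ⟨h1, h2⟩ := hu i hi
  obtain ⟨h3, h4⟩ := hu j hj
  have h5 := ((H.hM i j).mul h2).mul h4
  have h6 : 1 + wt i + wt j + (D - wt i) + (D - wt j) = 1 + 2 * D := by omega
  rwa [h6] at h5

theorem Mon.v_prim (H : Mon φ g r W M) (hrat : Rat φ W) (Q : Tri φ g r W s a b v) :
    Primitive v := by
  obtain ⟨τ, e, hτ, he, hprim⟩ := exists_prim v Q.hne
  obtain ⟨i0, hi0⟩ := hprim.ne_zero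
  have hr := H.hr
  obtain ⟨d, l, hd, hl, hdl⟩ := homog_factor (n := r - wt i0) (by
    rw [← he i0]; exact H.v_hom Q i0) (mul_ne_zero hτ hi0)
  have hw := wt_le1 i0
  have hφτ := H.phi_ne hd (by omega) hτ
  have heW : InW φ W e := by
    have h1 := H.v_inW hrat Q
    have h2 : (fun i => φ (e i)) = (φ τ)⁻¹ • (fun i => φ (v i)) := by
      funext i
      rw [Pi.smul_apply, smul_eq_mul, he i, map_mul, inv_mul_cancel_left₀ hφτ]
    rw [InW, h2]
    exact W.smul_mem _ h1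
  obtain ⟨q', hq'⟩ := H.dvd_q heW
  have he0 : e ≠ 0 := fun h => hi0 (congrFun h i0)
  have hqe : e ⬝ᵥ (M *ᵥ e) ≠ 0 := fun h => he0 (H.haniso e h)
  have hqv : v ⬝ᵥ (M *ᵥ v) = τ ^ 2 * (e ⬝ᵥ (M *ᵥ e)) := by
    rw [hdot, hdot, Finset.mul_sum]
    refine Finset.sum_congr rfl fun i _ => ?_
    rw [Finset.mul_sum]
    refine Finset.sum_congr rfl fun j _ => ?_
    rw [he i, he j]; ring
  have hqvh := qhom H (u := v) (D := r) (fun i _ => ⟨by have := wt_le1 i; omega, H.v_hom Q i⟩)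
  have h1 : (g * (τ ^ 2 * q')).IsHomogeneous (2 * r + 1) := by
    have h2 : g * (τ ^ 2 * q') = v ⬝ᵥ (M *ᵥ v) := by rw [hqv, hq']; ring
    rw [h2]
    have h3 : 1 + 2 * r = 2 * r + 1 := by ring
    rwa [h3] at hqvh
  have h2 := hom_quot H.hgn H.g_ne h1
  have hq'0 : q' ≠ 0 := by
    rintro rfl
    rw [mul_zero] at hq'
    exact hqe hq'
  obtain ⟨d', l', hd', hl', hdl'⟩ := homog_factor h2 (mul_ne_zero (pow_ne_zero 2 hτ) hq'0)
  have h3 : (τ ^ 2).IsHomogeneous (d * 2) := hd.pow 2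
  have h4 : d * 2 = d' := by
    rw [← h3.totalDegree (pow_ne_zero 2 hτ), ← hd'.totalDegree (pow_ne_zero 2 hτ)]
  have h5 : d = 0 := by omega
  subst h5
  obtain ⟨c, rfl⟩ := Vale.Agent.P287.H925.const_of_hom hd
  have hc : c ≠ 0 := by
    rintro rfl
    exact hτ (map_zero _)
  have hu : IsUnit (MvPolynomial.C c : MvPolynomial (Fin 3) k) :=
    (IsUnit.mk0 c hc).map MvPolynomial.C
  intro a' b' hab
  refine hprim a' b' fun i => ?_
  have h1 := hab i
  rw [he i] at h1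
  have h2 : a' * (MvPolynomial.C c * e i) = MvPolynomial.C c * (a' * e i) := by ring
  rw [h2] at h1
  exact (hu.dvd_mul_left).1 h1

/-- a cross product orthogonal to the three forms is a multiple of `cr s a b` -/
lemma Mon.factor (H : Mon φ g r W M) (hrat : Rat φ W) (Q : Tri φ g r W s a b v)
    {x y z : Fin 4 → MvPolynomial (Fin 3) k} (hx : Orth φ W x) (hy : Orth φ W y)
    (hz : Orth φ W z) (h1 : s ⬝ᵥ cr x y z = 0) (h2 : a ⬝ᵥ cr x y z = 0)
    (h3 : b ⬝ᵥ cr x y z = 0) : ∃ p, ∀ i, cr x y z i = p * cr s a b i := by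
  have hprim := H.v_prim hrat Q
  have hg0 := H.g_ne
  obtain ⟨q, hq⟩ := hprim.factor (cr x y z) (by
    intro i j
    have h4 := cr_prop s a b _ h1 h2 h3 i j
    rw [Q.hv, Q.hv] at h4
    apply mul_left_cancel₀ hg0
    linear_combination h4)
  obtain ⟨p, hp⟩ := hprim q g (fun i => by
    rw [← hq i]
    exact Orth.dvd_cr H.hφ H.hW hx hy hz i)
  refine ⟨p, fun i => ?_⟩
  rw [hq i, hp, Q.hv]; ring

lemma Tri.cr_ne_zero (hg0 : g ≠ 0) (Q : Tri φ g r W s a b v) : ∃ j, cr s a b j ≠ 0 := by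
  obtain ⟨j, hj⟩ := Function.ne_iff.1 Q.hne
  exact ⟨j, by rw [Q.hv]; exact mul_ne_zero hg0 hj⟩

/-- the forms orthogonal to `v` are the combinations of the three forms -/
theorem Mon.kernel (H : Mon φ g r W M) (hrat : Rat φ W) (Q : Tri φ g r W s a b v) {d : ℕ}
    {h : Fin 4 → MvPolynomial (Fin 3) k} (hh : ScrollForm φ W (r + d) h) (hv0 : h ⬝ᵥ v = 0) :
    ∃ x y z : MvPolynomial (Fin 3) k, x.IsHomogeneous (d + 1) ∧ y.IsHomogeneous d ∧
      z.IsHomogeneous d ∧ ∀ i, h i = x * s i + y * a i + z * b i := by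
  have hg0 := H.g_ne
  have hr := H.hr
  have hcr0 : h ⬝ᵥ cr s a b = 0 := by
    rw [dotProduct] at hv0 ⊢
    have h1 : ∑ i, h i * cr s a b i = g * ∑ i, h i * v i := by
      rw [Finset.mul_sum]
      exact Finset.sum_congr rfl fun i _ => by rw [Q.hv]; ring
    rw [h1, hv0, mul_zero]
  obtain ⟨x, hx⟩ := H.factor hrat Q (x := h) (y := a) (z := b) hh.van Q.ha.van Q.hb.van
    (by rw [dt_swap1, hcr0, neg_zero]) (dt_self2 _ _ _) (dt_self3 _ _ _)
  obtain ⟨y, hy⟩ := H.factor hrat Q (x := s) (y := h) (z := b) Q.hs.van hh.van Q.hb.van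
    (dt_self1 _ _ _) (by rw [dt_swap2, hcr0, neg_zero]) (dt_self3 _ _ _)
  obtain ⟨z, hz⟩ := H.factor hrat Q (x := s) (y := a) (z := h) Q.hs.van Q.ha.van hh.van
    (dt_self1 _ _ _) (dt_self2 _ _ _) (by rw [dt_swap3, hcr0, neg_zero])
  obtain ⟨j, hj⟩ := Q.cr_ne_zero hg0
  have hwj := wt_le1 j
  have hcrh := cr_hom Q.hs.hom Q.ha.hom Q.hb.hom j
  refine ⟨x, y, z, ?_, ?_, ?_, ?_⟩
  · refine hom_quot hcrh hj ?_
    have h1 := cr_hom hh.hom Q.ha.hom Q.hb.hom j
    rw [hx, mul_comm] at h1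
    have h2 : r - 1 + r + r + 1 - wt j + (d + 1) = r + d + r + r + 1 - wt j := by omega
    rwa [h2]
  · refine hom_quot hcrh hj ?_
    have h1 := cr_hom Q.hs.hom hh.hom Q.hb.hom j
    rw [hy, mul_comm] at h1
    have h2 : r - 1 + r + r + 1 - wt j + d = r - 1 + (r + d) + r + 1 - wt j := by omega
    rwa [h2]
  · refine hom_quot hcrh hj ?_
    have h1 := cr_hom Q.hs.hom Q.ha.hom hh.hom j
    rw [hz, mul_comm] at h1
    have h2 : r - 1 + r + r + 1 - wt j + d = r - 1 + r + (r + d) + 1 - wt j := by omega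
    rwa [h2]
  · intro i
    have h1 := cramer5 s a b h (Pi.single j 1) i
    have h2 : ∀ u : Fin 4 → MvPolynomial (Fin 3) k,
        (Pi.single j 1 : Fin 4 → MvPolynomial (Fin 3) k) ⬝ᵥ u = u j := by
      intro u
      rw [single_one_dotProduct]
    rw [h2, h2, h2, h2, hcr0, hx, hy, hz] at h1
    apply mul_left_cancel₀ hj
    linear_combination h1

/-- uniqueness of the coefficients -/
lemma Tri.unique (hg0 : g ≠ 0) (Q : Tri φ g r W s a b v) {x y z : MvPolynomial (Fin 3) k}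
    (h : ∀ i, x * s i + y * a i + z * b i = 0) : x = 0 ∧ y = 0 ∧ z = 0 := by
  obtain ⟨j, hj⟩ := Q.cr_ne_zero hg0
  have h0 : x • s + y • a + z • b = 0 := by
    funext i
    simpa using h i
  have e1 : x * cr s a b j = 0 := by
    have h1 : cr (x • s + y • a + z • b) a b j = 0 := by
      rw [h0]; fin_cases j <;> simp [cr]
    rw [cr_add1, cr_add1, cr_smul1, cr_smul1, cr_smul1, cr_self12, cr_self13] at h1
    simpa using h1
  have e2 : y * cr s a b j = 0 := by
    have h1 : cr s (x • s + y • a + z • b) b j = 0 := by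
      rw [h0]; fin_cases j <;> simp [cr]
    rw [cr_add2, cr_add2, cr_smul2, cr_smul2, cr_smul2, cr_self12, cr_self23] at h1
    simpa using h1
  have e3 : z * cr s a b j = 0 := by
    have h1 : cr s a (x • s + y • a + z • b) j = 0 := by
      rw [h0]; fin_cases j <;> simp [cr]
    rw [cr_add3, cr_add3, cr_smul3, cr_smul3, cr_smul3, cr_self13, cr_self23] at h1
    simpa using h1
  exact ⟨(mul_eq_zero.1 e1).resolve_right hj, (mul_eq_zero.1 e2).resolve_right hj,
    (mul_eq_zero.1 e3).resolve_right hj⟩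

end Vale.Agent.P287.H270
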