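import Vale.Agent.P287.H270.B2b

/-!
Dimensions.
-/

namespace Vale.Agent.P287.H270

open Polynomial Matrix
open Vale.Agent.P287.H925 (wt ScrollForm Primitive exists_prim homog_factor hom_quot)

set_option linter.unusedSectionVars false

section HomDim

variable (k : Type*) [Field k]

/-- forms of degree `m` -/
abbrev HS (m : ℕ) : Submodule k (MvPolynomial (Fin 3) k) :=
  MvPolynomial.homogeneousSubmodule (Fin 3) k m

/-- dehomogenisation of forms of degree `m` -/
noncomputable def hsEquiv (m : ℕ) : HS k m ≃ₗ[k] TDm k m :=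
  LinearEquiv.ofBijective
    ({ toFun := fun p => ⟨dh p.1, TD_dh ((MvPolynomial.mem_homogeneousSubmodule _ _).1 p.2)⟩
       map_add' := fun p q => Subtype.ext (map_add dh _ _)
       map_smul' := fun c p => Subtype.ext (map_smul dh c _) } : HS k m →ₗ[k] TDm k m)
    ⟨by
      rw [injective_iff_map_eq_zero]
      intro p hp
      have h1 : dh p.1 = 0 := congrArg Subtype.val hp
      exact Subtype.ext (dh_inj ((MvPolynomial.mem_homogeneousSubmodule _ _).1 p.2) h1), by
      intro q
      exact ⟨⟨hm m q.1, (MvPolynomial.mem_homogeneousSubmodule _ _).2 (hm_homogeneous m q.1)⟩,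
        Subtype.ext (dh_hm q.2)⟩⟩

lemma finrank_HS (m : ℕ) : Module.finrank k (HS k m) = (m + 2).choose 2 := by
  rw [(hsEquiv k m).finrank_eq, finrank_TDm]

instance finite_HS (m : ℕ) : Module.Finite k (HS k m) := Module.Finite.equiv (hsEquiv k m).symm

end HomDim

variable {k : Type*} [Field k] {κ : Type*} [Field κ]
variable {φ : MvPolynomial (Fin 3) k →+* κ} {g : MvPolynomial (Fin 3) k} {r : ℕ}
  {W : Submodule κ (Fin 4 → κ)} {M : Matrix (Fin 4) (Fin 4) (MvPolynomial (Fin 3) k)}

lemma mem_scrollForms {D : ℕ} {f : Fin 4 → MvPolynomial (Fin 3) k} :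
    f ∈ scrollForms φ W wt D ↔ ScrollForm φ W D f := ⟨fun h => ⟨h.1, h.2⟩, fun h => ⟨h.hom, h.van⟩⟩

instance finite_scrollForms (D : ℕ) : Module.Finite k (scrollForms φ W wt D) := by
  let E : scrollForms φ W wt D →ₗ[k] (∀ j, HS k (D + wt j)) :=
    { toFun := fun f j => ⟨f.1 j, (MvPolynomial.mem_homogeneousSubmodule _ _).2 (f.2.1 j)⟩
      map_add' := fun f f' => rfl
      map_smul' := fun c f => rfl }
  refine Module.Finite.of_injective E ?_
  intro f f' h
  apply Subtype.ext
  funext j
  exact congrArg (fun z : (∀ j, HS k (D + wt j)) => (z j : MvPolynomial (Fin 3) k)) h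

variable {s a b v : Fin 4 → MvPolynomial (Fin 3) k}

/-- the values of the forms on `v`, divided by `g` -/
def Jd (φ : MvPolynomial (Fin 3) k →+* κ) (g : MvPolynomial (Fin 3) k) (r : ℕ)
    (W : Submodule κ (Fin 4 → κ)) (v : Fin 4 → MvPolynomial (Fin 3) k) (d : ℕ) :
    Submodule k (MvPolynomial (Fin 3) k) where
  carrier := {p | p.IsHomogeneous d ∧ ∃ h, ScrollForm φ W (r + d) h ∧ h ⬝ᵥ v = g * p}
  add_mem' := by
    rintro p q ⟨hp, h, hh, hv⟩ ⟨hq, h', hh', hv'⟩
    exact ⟨hp.add hq, h + h', ScrollForm_add hh hh', by rw [add_dotProduct, hv, hv', mul_add]⟩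
  zero_mem' := ⟨MvPolynomial.isHomogeneous_zero _ _ _, 0,
    ⟨fun i => MvPolynomial.isHomogeneous_zero _ _ _, fun w _ => by simp⟩, by simp⟩
  smul_mem' := by
    rintro c p ⟨hp, h, hh, hv⟩
    refine ⟨?_, fun j => MvPolynomial.C c * h j, ?_, ?_⟩
    · rw [MvPolynomial.smul_eq_C_mul]; exact hp.C_mul c
    · have := ScrollForm_mul hh (MvPolynomial.isHomogeneous_C (Fin 3) c)
      rwa [Nat.zero_add] at this
    · rw [MvPolynomial.smul_eq_C_mul, dotProduct]
      rw [dotProduct] at hv
      calc ∑ i, MvPolynomial.C c * h i * v i = MvPolynomial.C c * ∑ i, h i * v i := by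
            rw [Finset.mul_sum]; exact Finset.sum_congr rfl fun i _ => by ring
        _ = g * (MvPolynomial.C c * p) := by rw [hv]; ring

lemma mem_Jd {d : ℕ} {p : MvPolynomial (Fin 3) k} : p ∈ Jd φ g r W v d ↔
    p.IsHomogeneous d ∧ ∃ h, ScrollForm φ W (r + d) h ∧ h ⬝ᵥ v = g * p := Iff.rfl

lemma Jd_mul {d e : ℕ} {p q : MvPolynomial (Fin 3) k} (hp : p ∈ Jd φ g r W v d)
    (hq : q.IsHomogeneous e) : q * p ∈ Jd φ g r W v (e + d) := by
  obtain ⟨h1, h, hh, hv⟩ := hp
  refine ⟨hq.mul h1, fun j => q * h j, ?_, ?_⟩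
  · have := ScrollForm_mul hh hq
    have h3 : e + (r + d) = r + (e + d) := by ring
    rwa [h3] at this
  · rw [dotProduct]
    rw [dotProduct] at hv
    calc ∑ i, q * h i * v i = q * ∑ i, h i * v i := by
          rw [Finset.mul_sum]; exact Finset.sum_congr rfl fun i _ => by ring
      _ = g * (q * p) := by rw [hv]; ring

lemma Jd_le (d : ℕ) : Jd φ g r W v d ≤ HS k d := fun _ hp =>
  (MvPolynomial.mem_homogeneousSubmodule _ _).2 hp.1

instance finite_Jd (d : ℕ) : Module.Finite k (Jd φ g r W v d) :=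
  Submodule.finiteDimensional_of_le (Jd_le (φ := φ) (g := g) (r := r) (W := W) (v := v) d)

/-- the value of a form on `v` -/
noncomputable def psi (φ : MvPolynomial (Fin 3) k →+* κ) (W : Submodule κ (Fin 4 → κ))
    (v : Fin 4 → MvPolynomial (Fin 3) k) (D : ℕ) :
    scrollForms φ W wt D →ₗ[k] MvPolynomial (Fin 3) k where
  toFun h := h.1 ⬝ᵥ v
  map_add' h h' := by
    change (h.1 + h'.1) ⬝ᵥ v = _
    rw [add_dotProduct]
  map_smul' c h := by
    change (c • h.1) ⬝ᵥ v = _
    rw [smul_dotProduct]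
    rfl

/-- the dimension formula -/
theorem Mon.dim_formula (H : Mon φ g r W M) (hrat : Rat φ W) (Q : Tri φ g r W s a b v) (d : ℕ) :
    Module.finrank k (scrollForms φ W wt (r + d)) =
      (d + 3).choose 2 + 2 * (d + 2).choose 2 + Module.finrank k (Jd φ g r W v d) := by
  have hr := H.hr
  have hg0 := H.g_ne
  let E : (HS k (d + 1) × HS k d × HS k d) →ₗ[k] scrollForms φ W wt (r + d) :=
    { toFun := fun t => ⟨fun i => t.1.1 * s i + t.2.1.1 * a i + t.2.2.1 * b i, by
        rw [mem_scrollForms]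
        have h1 := ScrollForm_mul Q.hs ((MvPolynomial.mem_homogeneousSubmodule _ _).1 t.1.2)
        have h2 := ScrollForm_mul Q.ha ((MvPolynomial.mem_homogeneousSubmodule _ _).1 t.2.1.2)
        have h3 := ScrollForm_mul Q.hb ((MvPolynomial.mem_homogeneousSubmodule _ _).1 t.2.2.2)
        have e1 : d + 1 + (r - 1) = r + d := by omega
        have e2 : d + r = r + d := by omega
        rw [e1] at h1
        rw [e2] at h2 h3
        exact ScrollForm_add (ScrollForm_add h1 h2) h3⟩
      map_add' := fun t t' => by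
        apply Subtype.ext
        funext i
        change (t.1.1 + t'.1.1) * s i + (t.2.1.1 + t'.2.1.1) * a i + (t.2.2.1 + t'.2.2.1) * b i =
          (t.1.1 * s i + t.2.1.1 * a i + t.2.2.1 * b i) +
            (t'.1.1 * s i + t'.2.1.1 * a i + t'.2.2.1 * b i)
        ring
      map_smul' := fun c t => by
        apply Subtype.ext
        funext i
        change (c • t.1.1) * s i + (c • t.2.1.1) * a i + (c • t.2.2.1) * b i =
          c • (t.1.1 * s i + t.2.1.1 * a i + t.2.2.1 * b i)
        simp only [MvPolynomial.smul_eq_C_mul]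
        ring }
  have hE : Function.Injective E := by
    rw [injective_iff_map_eq_zero]
    intro t ht
    have h1 : ∀ i, t.1.1 * s i + t.2.1.1 * a i + t.2.2.1 * b i = 0 := fun i =>
      congrFun (congrArg Subtype.val ht) i
    obtain ⟨e1, e2, e3⟩ := Q.unique hg0 h1
    exact Prod.ext (Subtype.ext e1) (Prod.ext (Subtype.ext e2) (Subtype.ext e3))
  have hker : LinearMap.ker (psi φ W v (r + d)) = LinearMap.range E := by
    apply le_antisymm
    · intro h hh
      have h1 : h.1 ⬝ᵥ v = 0 := hh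
      obtain ⟨x, y, z, hx, hy, hz, hxyz⟩ := H.kernel hrat Q (mem_scrollForms.1 h.2) h1
      refine ⟨⟨⟨x, (MvPolynomial.mem_homogeneousSubmodule _ _).2 hx⟩,
        ⟨y, (MvPolynomial.mem_homogeneousSubmodule _ _).2 hy⟩,
        ⟨z, (MvPolynomial.mem_homogeneousSubmodule _ _).2 hz⟩⟩, ?_⟩
      apply Subtype.ext
      funext i
      exact (hxyz i).symm
    · rintro _ ⟨t, rfl⟩
      rw [LinearMap.mem_ker]
      change (fun i => t.1.1 * s i + t.2.1.1 * a i + t.2.2.1 * b i) ⬝ᵥ v = 0
      apply mul_left_cancel₀ hg0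
      have h1 := dt_self1 s a b
      have h2 := dt_self2 s a b
      have h3 := dt_self3 s a b
      simp only [dotProduct] at h1 h2 h3 ⊢
      rw [Finset.mul_sum, mul_zero]
      have h4 : ∀ i, g * ((t.1.1 * s i + t.2.1.1 * a i + t.2.2.1 * b i) * v i) =
          t.1.1 * (s i * cr s a b i) + t.2.1.1 * (a i * cr s a b i) +
            t.2.2.1 * (b i * cr s a b i) := by
        intro i
        rw [Q.hv]; ring
      simp only [h4]
      rw [Finset.sum_add_distrib, Finset.sum_add_distrib, ← Finset.mul_sum, ← Finset.mul_sum,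
        ← Finset.mul_sum, h1, h2, h3]
      ring
  have hrange : LinearMap.range (psi φ W v (r + d)) =
      (Jd φ g r W v d).map (LinearMap.mulLeft k g) := by
    apply le_antisymm
    · rintro _ ⟨h, rfl⟩
      obtain ⟨p, hp⟩ := Orth.dot H.hφ (f := h.1) h.2.2 (H.v_inW hrat Q)
      refine ⟨p, ⟨?_, h.1, mem_scrollForms.1 h.2, hp⟩, hp.symm⟩
      refine hom_quot H.hgn hg0 ?_
      rw [← hp, dotProduct]
      refine MvPolynomial.IsHomogeneous.sum _ _ _ fun i _ => ?_
      have h1 := (h.2.1 i).mul (H.v_hom Q i)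
      have h2 := wt_le1 i
      have h3 : r + d + wt i + (r - wt i) = 2 * r + d := by omega
      rwa [h3] at h1
    · rintro _ ⟨p, ⟨_, h, hh, hv⟩, rfl⟩
      exact ⟨⟨h, mem_scrollForms.2 hh⟩, hv⟩
  have h1 := LinearMap.finrank_range_add_finrank_ker (psi φ W v (r + d))
  have h2 : Module.finrank k (LinearMap.range (psi φ W v (r + d))) =
      Module.finrank k (Jd φ g r W v d) := by
    rw [hrange]
    exact (Submodule.equivMapOfInjective (LinearMap.mulLeft k g)
      (mul_right_injective₀ hg0) _).symm.finrank_eq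
  have h3 : Module.finrank k (LinearMap.ker (psi φ W v (r + d))) =
      (d + 3).choose 2 + 2 * (d + 2).choose 2 := by
    rw [hker, LinearMap.finrank_range_of_inj hE, Module.finrank_prod, Module.finrank_prod,
      finrank_HS, finrank_HS]
    ring
  omega

end Vale.Agent.P287.H270
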