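import Vale.Agent.P287.H925.RankCore

/-!
A graded family of spaces of forms closed under multiplication which is not everything in
infinitely many degrees has a common zero.
-/

namespace Vale.Agent.P287.H270

open MvPolynomial

set_option linter.unusedSectionVars false

variable {k : Type*} [Field k]

lemma hcomp_X_mul (i : Fin 3) (p : MvPolynomial (Fin 3) k) (m : ℕ) :
    homogeneousComponent (m + 1) (p * X i) = homogeneousComponent m p * X i := by
  rw [mul_comm p, mul_comm _ (X i), add_comm]
  exact Vale.Agent.P287.H925.hc_mul (isHomogeneous_X k i) m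

lemma hcomp_X_mul_zero (i : Fin 3) (p : MvPolynomial (Fin 3) k) :
    homogeneousComponent 0 (p * X i) = 0 := by
  rw [homogeneousComponent_zero]
  have : coeff 0 (p * X i) = 0 := by
    rw [coeff_mul_X']
    simp
  rw [this, map_zero]

/-- the ideal generated by the family -/
def famIdeal (J : ℕ → Submodule k (MvPolynomial (Fin 3) k))
    (hmul : ∀ d e p q, p ∈ J d → q.IsHomogeneous e → q * p ∈ J (e + d)) :
    Ideal (MvPolynomial (Fin 3) k) where
  carrier := {p | ∀ m, homogeneousComponent m p ∈ J m}
  add_mem' := by
    intro p q hp hq m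
    rw [map_add]
    exact (J m).add_mem (hp m) (hq m)
  zero_mem' := fun m => by rw [map_zero]; exact (J m).zero_mem
  smul_mem' := by
    intro a p hp
    change ∀ m, homogeneousComponent m (a * p) ∈ J m
    induction a using MvPolynomial.induction_on with
    | C c =>
      intro m
      rw [← smul_eq_C_mul, map_smul]
      exact (J m).smul_mem c (hp m)
    | add a b ha hb =>
      intro m
      rw [add_mul, map_add]
      exact (J m).add_mem (ha m) (hb m)
    | mul_X a i ha =>
      intro m
      have h1 : a * X i * p = (a * p) * X i := by ring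
      rw [h1]
      cases m with
      | zero => rw [hcomp_X_mul_zero]; exact (J 0).zero_mem
      | succ m =>
        rw [hcomp_X_mul, mul_comm]
        have h2 := hmul m 1 _ (X i) (ha m) (isHomogeneous_X k i)
        rwa [add_comm 1 m] at h2

theorem exists_zero [IsAlgClosed k] (J : ℕ → Submodule k (MvPolynomial (Fin 3) k))
    (hhom : ∀ d p, p ∈ J d → p.IsHomogeneous d)
    (hmul : ∀ d e p q, p ∈ J d → q.IsHomogeneous e → q * p ∈ J (e + d))
    (hinf : ∀ N : ℕ, ∃ d ≥ N, ∃ p : MvPolynomial (Fin 3) k, p.IsHomogeneous d ∧ p ∉ J d) :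
    ∃ z : Fin 3 → k, z ≠ 0 ∧ ∀ d, ∀ p ∈ J d, eval z p = 0 := by
  classical
  by_contra hcon
  push Not at hcon
  set I := famIdeal J hmul with hI
  have hJI : ∀ d, ∀ p ∈ J d, p ∈ I := by
    intro d p hp m
    rw [homogeneousComponent_of_mem (hhom d p hp)]
    split_ifs with h
    · rw [h]; exact hp
    · exact (J m).zero_mem
  have hrad : I.radical = vanishingIdeal k (zeroLocus k I) :=
    (vanishingIdeal_zeroLocus_eq_radical I).symm
  have hX : ∀ i : Fin 3, ∃ n : ℕ, (X i : MvPolynomial (Fin 3) k) ^ n ∈ J n := by
    intro i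
    have h1 : (X i : MvPolynomial (Fin 3) k) ∈ I.radical := by
      rw [hrad, mem_vanishingIdeal_iff]
      intro z hz
      have hz0 : z = 0 := by
        by_contra hz0
        obtain ⟨d, p, hp, hpz⟩ := hcon z hz0
        apply hpz
        exact (mem_zeroLocus_iff.1 hz) p (hJI d p hp)
      rw [hz0, aeval_X]; rfl
    obtain ⟨n, hn⟩ := h1
    refine ⟨n, ?_⟩
    have h2 := hn n
    have h3 : ((X i : MvPolynomial (Fin 3) k) ^ n).IsHomogeneous n := by
      have := (isHomogeneous_X k i).pow n
      rwa [one_mul] at this
    rwa [homogeneousComponent_of_mem h3, if_pos rfl] at h2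
  choose n hn using hX
  set N := ∑ i, n i with hN
  have hle : ∀ i, n i ≤ N := fun i => Finset.single_le_sum (f := n) (fun _ _ => Nat.zero_le _)
    (Finset.mem_univ i)
  obtain ⟨d, hd, p, hp, hpJ⟩ := hinf (3 * N + 1)
  apply hpJ
  rw [p.as_sum]
  refine Submodule.sum_mem _ fun s hs => ?_
  have hdeg : s 0 + s 1 + s 2 = d := by
    have h1 := hp (mem_support_iff.1 hs)
    rw [← h1]
    simp [Finsupp.weight_apply, Finsupp.sum_fintype, Fin.sum_univ_three]
  have hex : ∃ i : Fin 3, n i ≤ s i := by
    by_contra hc
    push Not at hc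
    have h0 := hc 0
    have h1 := hc 1
    have h2 := hc 2
    have g0 := hle 0
    have g1 := hle 1
    have g2 := hle 2
    omega
  obtain ⟨i, hi⟩ := hex
  have hsplit : s = (s - Finsupp.single i (n i)) + Finsupp.single i (n i) := by
    ext j
    rw [Finsupp.add_apply, Finsupp.tsub_apply]
    by_cases hj : j = i
    · subst hj
      rw [Finsupp.single_eq_same]
      omega
    · rw [Finsupp.single_eq_of_ne hj]
      omega
  have hmon : monomial s (coeff s p) =
      monomial (s - Finsupp.single i (n i)) (coeff s p) * X i ^ n i := by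
    rw [X_pow_eq_monomial, monomial_mul, mul_one, ← hsplit]
  rw [hmon]
  have h1 := hmul (n i) (d - n i) _ (monomial (s - Finsupp.single i (n i)) (coeff s p)) (hn i) (by
    apply isHomogeneous_monomial
    have h2 : s.degree = (s - Finsupp.single i (n i)).degree + n i := by
      conv_lhs => rw [hsplit]
      rw [map_add, Finsupp.degree_single]
    have h3 : s.degree = d := by
      rw [Finsupp.degree_eq_sum, Fin.sum_univ_three, hdeg]
    omega)
  have h2 : n i ≤ d := by
    have h3 : s i ≤ s 0 + s 1 + s 2 := by fin_cases i <;> simp <;> omega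
    omega
  have h3 : d - n i + n i = d := by omega
  rwa [h3] at h1

end Vale.Agent.P287.H270
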