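import Vale.Agent.P287.H270.B2c
import Vale.Agent.P287.H270.Null

/-!
There is no form of degree `r - 1` through the scroll.
-/

namespace Vale.Agent.P287.H270

open Polynomial Matrix
open Vale.Agent.P287.H925 (wt ScrollForm Primitive exists_prim homog_factor hom_quot lin lin_hom
  lin_add eval_lin lin_inj exists_lin prime_lin dvd_lin span_of_vanish)

set_option linter.unusedSectionVars false

variable {k : Type*} [Field k] {κ : Type*} [Field κ]
variable {φ : MvPolynomial (Fin 3) k →+* κ} {g : MvPolynomial (Fin 3) k} {r : ℕ}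
  {W : Submodule κ (Fin 4 → κ)} {M : Matrix (Fin 4) (Fin 4) (MvPolynomial (Fin 3) k)}

/-- a form which vanishes at the common zero of two independent linear forms -/
lemma exists_lin_comb {a0 a1 z : Fin 3 → k} (hz : z ≠ 0) (h0 : a0 ⬝ᵥ z = 0) (h1 : a1 ⬝ᵥ z = 0)
    (hind : ∀ s t : k, s • a0 + t • a1 = 0 → s = 0 ∧ t = 0) {d : ℕ}
    {p : MvPolynomial (Fin 3) k} (hp : p.IsHomogeneous (d + 1)) (hpz : MvPolynomial.eval z p = 0) :
    ∃ x y : MvPolynomial (Fin 3) k, x.IsHomogeneous d ∧ y.IsHomogeneous d ∧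
      p = x * lin a0 + y * lin a1 := by
  classical
  obtain ⟨i0, hi0⟩ := Function.ne_iff.1 hz
  rw [Pi.zero_apply] at hi0
  -- modulo the two linear forms, `X i = z i * (X i0 / z i0)`
  set I : Ideal (MvPolynomial (Fin 3) k) := Ideal.span {lin a0, lin a1} with hI
  set L : MvPolynomial (Fin 3) k := MvPolynomial.C (z i0)⁻¹ * MvPolynomial.X i0 with hL
  have hX : ∀ i, MvPolynomial.X i - MvPolynomial.C (z i) * L ∈ I := by
    intro i
    set u : Fin 3 → k := Pi.single i 1 - (z i * (z i0)⁻¹) • Pi.single i0 1 with hu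
    have huz : u ⬝ᵥ z = 0 := by
      rw [hu, sub_dotProduct, smul_dotProduct, single_one_dotProduct, single_one_dotProduct,
        smul_eq_mul, mul_assoc, inv_mul_cancel₀ hi0]
      ring
    obtain ⟨s, t, hst⟩ := span_of_vanish a0 a1 u z hz h0 h1 huz hind
    have hlin : lin u = MvPolynomial.X i - MvPolynomial.C (z i) * L := by
      rw [hu, hL, lin]
      simp only [Pi.sub_apply, Pi.smul_apply, smul_eq_mul, map_sub, map_mul, sub_mul,
        Finset.sum_sub_distrib]
      rw [Finset.sum_eq_single i, Finset.sum_eq_single i0]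
      · simp only [Pi.single_eq_same, map_one]
        ring
      · intro b _ hb; rw [Pi.single_eq_of_ne hb]; simp
      · intro h; exact absurd (Finset.mem_univ _) h
      · intro b _ hb; rw [Pi.single_eq_of_ne hb]; simp
      · intro h; exact absurd (Finset.mem_univ _) h
    rw [← hlin, hst, lin_add]
    exact I.add_mem (I.mul_mem_left _ (Ideal.subset_span (by simp)))
      (I.mul_mem_left _ (Ideal.subset_span (by simp)))
  have hmem : p ∈ I := by
    rw [← Ideal.Quotient.eq_zero_iff_mem]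
    have h2 : (Ideal.Quotient.mk I) p =
        (Ideal.Quotient.mk I) (MvPolynomial.aeval (fun i => MvPolynomial.C (z i) * L) p) := by
      have h3 : (Ideal.Quotient.mkₐ k I) = (Ideal.Quotient.mkₐ k I).comp
          (MvPolynomial.aeval (fun i => MvPolynomial.C (z i) * L)) := by
        apply MvPolynomial.algHom_ext
        intro i
        rw [AlgHom.comp_apply, MvPolynomial.aeval_X]
        exact Ideal.Quotient.eq.2 (hX i)
      exact DFunLike.congr_fun h3 p
    rw [h2]
    have h4 : MvPolynomial.aeval (fun i => MvPolynomial.C (z i) * L) p = 0 := by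
      have h5 : MvPolynomial.aeval (fun i => MvPolynomial.C (z i) * L) p =
          L ^ (d + 1) * MvPolynomial.C (MvPolynomial.eval z p) := by
        rw [MvPolynomial.eval_eq', map_sum, Finset.mul_sum]
        conv_lhs => rw [p.as_sum]
        rw [map_sum]
        refine Finset.sum_congr rfl fun t ht => ?_
        rw [MvPolynomial.aeval_monomial, Finsupp.prod_fintype _ _ (by simp),
          MvPolynomial.algebraMap_eq, Fin.prod_univ_three, Fin.prod_univ_three,
          ← sum_of_mem_support hp ht]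
        simp only [mul_pow, map_mul, map_pow, pow_add]
        ring
      rw [h5, hpz, map_zero, mul_zero]
    rw [h4, map_zero]
  obtain ⟨x, y, hxy⟩ := Ideal.mem_span_pair.1 hmem
  refine ⟨MvPolynomial.homogeneousComponent d x, MvPolynomial.homogeneousComponent d y,
    MvPolynomial.homogeneousComponent_isHomogeneous _ _,
    MvPolynomial.homogeneousComponent_isHomogeneous _ _, ?_⟩
  have h6 := congrArg (MvPolynomial.homogeneousComponent (d + 1)) hxy
  rw [map_add, MvPolynomial.homogeneousComponent_eq_self hp] at h6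
  rw [← h6, mul_comm x, mul_comm y, add_comm d 1,
    Vale.Agent.P287.H925.hc_mul (lin_hom a0) d, Vale.Agent.P287.H925.hc_mul (lin_hom a1) d]
  ring

/-- a linear form whose multiple by a square not vanishing at `z` is singular at `z` is zero -/
lemma lin_eq_zero {a0 a1 l z : Fin 3 → k} (h0 : a0 ⬝ᵥ z = 0) (h1 : a1 ⬝ᵥ z = 0)
    {θ A B C' : MvPolynomial (Fin 3) k} (hθ : MvPolynomial.eval z θ ≠ 0)
    (h : θ ^ 2 * lin l = (lin a1) ^ 2 * A - lin a0 * lin a1 * B + (lin a0) ^ 2 * C') : l = 0 := by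
  have e0 : MvPolynomial.eval z (lin a0) = 0 := by rw [eval_lin, h0]
  have e1 : MvPolynomial.eval z (lin a1) = 0 := by rw [eval_lin, h1]
  have hl : MvPolynomial.eval z (lin l) = 0 := by
    have h2 := congrArg (MvPolynomial.eval z) h
    simp only [map_mul, map_pow, map_sub, map_add, e0, e1] at h2
    have h3 : MvPolynomial.eval z θ ^ 2 * MvPolynomial.eval z (lin l) = 0 := by
      rw [h2]; ring
    exact (mul_eq_zero.1 h3).resolve_left (pow_ne_zero 2 hθ)
  funext i
  have h2 := congrArg (fun p => MvPolynomial.eval z (MvPolynomial.pderiv i p)) h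
  have hd : ∀ u : Fin 3 → k, MvPolynomial.eval z (MvPolynomial.pderiv i (lin u)) = u i := by
    intro u
    rw [lin, map_sum, map_sum, Finset.sum_eq_single i]
    · simp
    · intro b _ hb
      rw [MvPolynomial.pderiv_C_mul, MvPolynomial.pderiv_X_of_ne hb]
      simp
    · intro h; exact absurd (Finset.mem_univ _) h
  simp only [map_add, map_sub, Derivation.leibniz, Derivation.leibniz_pow, smul_eq_mul, map_mul,
    map_pow, e0, e1, hl, hd, nsmul_eq_mul] at h2
  have h3 : MvPolynomial.eval z θ ^ 2 * l i = 0 := by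
    linear_combination h2
  exact (mul_eq_zero.1 h3).resolve_left (pow_ne_zero 2 hθ)

/-- the final step: `θ v` is a combination of two vectors of the lattice with coefficients
vanishing at a point where `θ` does not vanish -/
lemma Mon.final (H : Mon φ g r W M) (hrat : Rat φ W)
    {s a b v : Fin 4 → MvPolynomial (Fin 3) k} (Q : Tri φ g r W s a b v)
    {a0 a1 z : Fin 3 → k} (h0 : a0 ⬝ᵥ z = 0) (h1 : a1 ⬝ᵥ z = 0)
    {θ : MvPolynomial (Fin 3) k} (hθ : MvPolynomial.eval z θ ≠ 0)
    {w0 w1 : Fin 4 → MvPolynomial (Fin 3) k} (hw0 : InW φ W w0) (hw1 : InW φ W w1)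
    (h : ∀ i, θ * v i = lin a1 * w0 i - lin a0 * w1 i) : False := by
  have hr := H.hr
  have hg0 := H.g_ne
  apply Q.hne
  apply H.haniso
  obtain ⟨q, hq⟩ := H.dvd_q (H.v_inW hrat Q)
  obtain ⟨q0, hq0⟩ := H.dvd_q hw0
  obtain ⟨q1, hq1⟩ := H.dvd_q hw1
  have hw01 : InW φ W (w0 + w1) := by
    have := W.add_mem hw0 hw1
    have e : (fun i => φ ((w0 + w1) i)) = (fun i => φ (w0 i)) + (fun i => φ (w1 i)) := by
      funext i
      simp
    rw [InW, e]
    exact this
  obtain ⟨q2, hq2⟩ := H.dvd_q hw01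
  -- the form of `v` is `g` times a linear form
  have hqlin : q.IsHomogeneous 1 := by
    refine hom_quot H.hgn hg0 ?_
    rw [← hq]
    have h2 := qhom H (u := v) (D := r) (fun i _ => ⟨by have := wt_le1 i; omega, H.v_hom Q i⟩)
    have h3 : 1 + 2 * r = 2 * r + 1 := by ring
    rwa [h3] at h2
  obtain ⟨l, rfl⟩ := exists_lin hqlin
  have hb : w0 ⬝ᵥ (M *ᵥ w1) + w1 ⬝ᵥ (M *ᵥ w0) = g * (q2 - q0 - q1) := by
    have h2 : (w0 + w1) ⬝ᵥ (M *ᵥ (w0 + w1)) = w0 ⬝ᵥ (M *ᵥ w0) + (w0 ⬝ᵥ (M *ᵥ w1) +
        w1 ⬝ᵥ (M *ᵥ w0)) + w1 ⬝ᵥ (M *ᵥ w1) := by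
      rw [Matrix.mulVec_add, dotProduct_add, add_dotProduct, add_dotProduct]
      ring
    rw [hq2, hq0, hq1] at h2
    linear_combination -h2
  have hqv : θ ^ 2 * (v ⬝ᵥ (M *ᵥ v)) = (lin a1) ^ 2 * (w0 ⬝ᵥ (M *ᵥ w0)) -
      lin a0 * lin a1 * (w0 ⬝ᵥ (M *ᵥ w1) + w1 ⬝ᵥ (M *ᵥ w0)) +
      (lin a0) ^ 2 * (w1 ⬝ᵥ (M *ᵥ w1)) := by
    have h2 : θ • v = lin a1 • w0 - lin a0 • w1 := by
      funext i
      simpa using h i
    have h3 : (θ • v) ⬝ᵥ (M *ᵥ (θ • v)) = θ ^ 2 * (v ⬝ᵥ (M *ᵥ v)) := by
      rw [Matrix.mulVec_smul, dotProduct_smul, smul_dotProduct, smul_eq_mul, smul_eq_mul]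
      ring
    rw [← h3, h2, Matrix.mulVec_sub, Matrix.mulVec_smul, Matrix.mulVec_smul]
    simp only [dotProduct_sub, sub_dotProduct, dotProduct_smul, smul_dotProduct, smul_eq_mul]
    ring
  have h4 : θ ^ 2 * lin l = (lin a1) ^ 2 * q0 - lin a0 * lin a1 * (q2 - q0 - q1) +
      (lin a0) ^ 2 * q1 := by
    apply mul_left_cancel₀ hg0
    rw [hq, hq0, hq1, hb] at hqv
    linear_combination hqv
  have h5 := lin_eq_zero h0 h1 hθ h4
  rw [hq, h5]
  simp [lin]

/-- **There is no form of degree `r - 1` through the scroll.** -/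
theorem Mon.phi_minus_one [IsAlgClosed k] (H : Mon φ g r W M) (hrat : Rat φ W)
    (h5 : 5 ≤ Module.finrank k (scrollForms φ W wt r))
    (h14 : 14 ≤ Module.finrank k (scrollForms φ W wt (r + 1)))
    (hinf : ∀ N : ℕ, ∃ d ≥ N, Module.finrank k (scrollForms φ W wt (r + d)) + 1 ≤
      (d + 3).choose 2 + 3 * (d + 2).choose 2)
    {s : Fin 4 → MvPolynomial (Fin 3) k} (hs : ScrollForm φ W (r - 1) s) : s = 0 := by
  classical
  by_contra hs0
  have hr := H.hr
  have hg0 := H.g_ne
  obtain ⟨i0, hi0⟩ : ∃ i, s i ≠ 0 := by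
    by_contra hcon
    push Not at hcon
    exact hs0 (funext hcon)
  -- the multiples of `s`
  let E : HS k 1 →ₗ[k] scrollForms φ W wt r :=
    { toFun := fun l => ⟨fun j => l.1 * s j, by
        rw [mem_scrollForms]
        have := ScrollForm_mul hs ((MvPolynomial.mem_homogeneousSubmodule _ _).1 l.2)
        have h3 : 1 + (r - 1) = r := by omega
        rwa [h3] at this⟩
      map_add' := fun l l' => by
        apply Subtype.ext
        funext j
        exact add_mul _ _ _
      map_smul' := fun c l => by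
        apply Subtype.ext
        funext j
        exact smul_mul_assoc c _ _ }
  have hS : Module.finrank k (LinearMap.range E) + 2 ≤
      Module.finrank k (scrollForms φ W wt r) := by
    have h1 := LinearMap.finrank_range_le E
    rw [finrank_HS] at h1
    have h2 : (1 + 2).choose 2 = 3 := rfl
    omega
  obtain ⟨a', b', hab⟩ := exists_two_mod (LinearMap.range E) hS
  have ha := mem_scrollForms.1 a'.2
  have hb := mem_scrollForms.1 b'.2
  have hcr := H.cr_ne hrat hs hs0 ha hb (by
    intro u w l hl h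
    apply hab u w
    refine ⟨⟨l, (MvPolynomial.mem_homogeneousSubmodule _ _).2 hl⟩, ?_⟩
    apply Subtype.ext
    funext j
    change l * s j = (u • a' + w • b' : scrollForms φ W wt r).1 j
    rw [← h j]
    simp [MvPolynomial.smul_eq_C_mul])
  choose v hv using fun i => Orth.dvd_cr (g := g) H.hφ H.hW hs.van ha.van hb.van i
  have Q : Tri φ g r W s a'.1 b'.1 v := ⟨hs, ha, hb, hv, by
    rintro rfl
    apply hcr
    funext i
    rw [hv i]
    simp⟩
  have hdim := H.dim_formula hrat Q
  -- not everything is a value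
  have hnot : ∀ N : ℕ, ∃ d ≥ N, ∃ p : MvPolynomial (Fin 3) k, p.IsHomogeneous d ∧
      p ∉ Jd φ g r W v d := by
    intro N
    obtain ⟨d, hd, hle⟩ := hinf N
    refine ⟨d, hd, ?_⟩
    by_contra hcon
    push Not at hcon
    have h1 : Jd φ g r W v d = HS k d := le_antisymm (Jd_le d) fun p hp =>
      hcon p ((MvPolynomial.mem_homogeneousSubmodule _ _).1 hp)
    have h2 := hdim d
    rw [h1, finrank_HS] at h2
    omega
  obtain ⟨z, hz0, hz⟩ := exists_zero (Jd φ g r W v) (fun d p hp => hp.1)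
    (fun d e p q hp hq => Jd_mul hp hq) hnot
  -- `g` is not a value in degree `r`
  have hone : ∀ f, ScrollForm φ W r f → f ⬝ᵥ v ≠ g := by
    intro f hf hfv
    have h1 : (1 : MvPolynomial (Fin 3) k) ∈ Jd φ g r W v 0 :=
      ⟨MvPolynomial.isHomogeneous_one _ _, f, hf, by rw [hfv, mul_one]⟩
    have h2 := hz 0 1 h1
    rw [map_one] at h2
    exact one_ne_zero h2
  -- two linear forms
  have hJ1 : 2 ≤ Module.finrank k (Jd φ g r W v 1) := by
    have h1 := hdim 1
    have h2 : (1 + 3).choose 2 = 6 := rfl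
    have h3 : (1 + 2).choose 2 = 3 := rfl
    rw [h2, h3] at h1
    omega
  obtain ⟨p0, p1, hp01⟩ := exists_two_mod (⊥ : Submodule k (Jd φ g r W v 1))
    (by rw [finrank_bot]; omega)
  obtain ⟨hp0h, f0, hf0, hf0v⟩ := p0.2
  obtain ⟨hp1h, f1, hf1, hf1v⟩ := p1.2
  obtain ⟨a0, ha0⟩ := exists_lin hp0h
  obtain ⟨a1, ha1⟩ := exists_lin hp1h
  have ha0z : a0 ⬝ᵥ z = 0 := by
    rw [← eval_lin, ← ha0]
    exact hz 1 p0.1 p0.2
  have ha1z : a1 ⬝ᵥ z = 0 := by
    rw [← eval_lin, ← ha1]
    exact hz 1 p1.1 p1.2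
  have hind : ∀ u w : k, u • a0 + w • a1 = 0 → u = 0 ∧ w = 0 := by
    intro u w huw
    apply hp01
    rw [Submodule.mem_bot]
    apply Subtype.ext
    change u • p0.1 + w • p1.1 = 0
    rw [ha0, ha1, MvPolynomial.smul_eq_C_mul, MvPolynomial.smul_eq_C_mul, ← lin_add, huw]
    simp [lin]
  rw [ha0] at hf0v
  rw [ha1] at hf1v
  have hl0 : lin a0 ≠ 0 := by
    intro h
    have h1 := lin_inj h
    have h2 := (hind 1 0 (by rw [h1]; simp)).1
    exact one_ne_zero h2
  have hl1 : lin a1 ≠ 0 := by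
    intro h
    have h1 := lin_inj h
    have h2 := (hind 0 1 (by rw [h1]; simp)).2
    exact one_ne_zero h2
  -- the combination orthogonal to `v`
  have hc : ScrollForm φ W (r + 2) (fun j => lin a1 * f0 j + (-(lin a0)) * f1 j) := by
    have h1 := ScrollForm_mul hf0 (lin_hom a1)
    have h2 := ScrollForm_mul hf1 (lin_hom a0).neg
    have h3 : 1 + (r + 1) = r + 2 := by ring
    rw [h3] at h1 h2
    exact ScrollForm_add h1 h2
  obtain ⟨x, y, w, hx, hy, hw, hxyw⟩ := H.kernel hrat Q (d := 2) hc (by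
    have e : (fun j => lin a1 * f0 j + (-(lin a0)) * f1 j) = lin a1 • f0 + (-(lin a0)) • f1 := by
      funext j; simp
    rw [e, add_dotProduct, smul_dotProduct, smul_dotProduct, hf0v, hf1v, smul_eq_mul, smul_eq_mul]
    ring)
  -- one of the coefficients does not vanish at `z`
  have hnz : MvPolynomial.eval z x ≠ 0 ∨ MvPolynomial.eval z y ≠ 0 ∨ MvPolynomial.eval z w ≠ 0 := by
    by_contra hcon
    push Not at hcon
    obtain ⟨hxz, hyz, hwz⟩ := hcon
    obtain ⟨x0, x1, hx0, hx1, hx⟩ := exists_lin_comb hz0 ha0z ha1z hind hx hxz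
    obtain ⟨y0, y1, hy0, hy1, hy⟩ := exists_lin_comb hz0 ha0z ha1z hind hy hyz
    obtain ⟨w0, w1, hw0, hw1, hw⟩ := exists_lin_comb hz0 ha0z ha1z hind hw hwz
    -- `lin a1 * (f0 - e1) = lin a0 * (f1 + e0)`
    set e0 : Fin 4 → MvPolynomial (Fin 3) k := fun i => x0 * s i + y0 * a'.1 i + w0 * b'.1 i
    set e1 : Fin 4 → MvPolynomial (Fin 3) k := fun i => x1 * s i + y1 * a'.1 i + w1 * b'.1 i
      with he1
    have hrel : ∀ i, lin a1 * (f0 i - e1 i) = lin a0 * (f1 i + e0 i) := by
      intro i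
      have h1 := hxyw i
      rw [hx, hy, hw] at h1
      simp only [e0, e1]
      linear_combination h1
    have hpr := prime_lin (lin_hom a0) hl0
    have hnd : ¬ lin a0 ∣ lin a1 := by
      intro h
      obtain ⟨c, hc⟩ := dvd_lin (lin_hom a0) hl0 (lin_hom a1) h
      have h1 := hind (-c) 1 (by
        apply lin_inj
        rw [lin_add, hc]
        simp)
      exact one_ne_zero h1.2
    have hdiv : ∀ i, lin a0 ∣ f0 i - e1 i := by
      intro i
      have h1 : lin a0 ∣ lin a1 * (f0 i - e1 i) := ⟨_, hrel i⟩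
      exact (hpr.dvd_or_dvd h1).resolve_left hnd
    choose f' hf' using hdiv
    have he1S : ScrollForm φ W (r + 1) e1 := by
      have h1 := ScrollForm_mul hs hx1
      have h2 := ScrollForm_mul ha hy1
      have h3 := ScrollForm_mul hb hw1
      have q1 : 2 + (r - 1) = r + 1 := by omega
      have q2 : 1 + r = r + 1 := by omega
      rw [q1] at h1
      rw [q2] at h2 h3
      exact ScrollForm_add (ScrollForm_add h1 h2) h3
    have hfS : ScrollForm φ W r f' := by
      refine ⟨fun i => ?_, fun t ht => ?_⟩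
      · refine hom_quot (lin_hom a0) hl0 ?_
        rw [← hf']
        have h1 := (hf0.hom i).sub (he1S.hom i)
        have q1 : 1 + (r + wt i) = r + 1 + wt i := by ring
        rwa [q1]
      · have h1 := hf0.van t ht
        have h2 := he1S.van t ht
        have h3 : φ (lin a0) * ∑ i, φ (f' i) * t i = 0 := by
          rw [Finset.mul_sum]
          have h4 : ∀ i, φ (lin a0) * (φ (f' i) * t i) = φ (f0 i) * t i - φ (e1 i) * t i := by
            intro i
            rw [← sub_mul, ← map_sub, hf', map_mul]; ring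
          simp only [h4, Finset.sum_sub_distrib, h1, h2, sub_zero]
        exact (mul_eq_zero.1 h3).resolve_left (H.phi_ne (lin_hom a0) (by omega) hl0)
    apply hone f' hfS
    apply mul_left_cancel₀ hl0
    have he1v : e1 ⬝ᵥ v = 0 := by
      apply mul_left_cancel₀ hg0
      have h1 := dt_self1 s a'.1 b'.1
      have h2 := dt_self2 s a'.1 b'.1
      have h3 := dt_self3 s a'.1 b'.1
      simp only [dotProduct] at h1 h2 h3 ⊢
      rw [Finset.mul_sum, mul_zero]
      have h4 : ∀ i, g * (e1 i * v i) = x1 * (s i * cr s a'.1 b'.1 i) +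
          y1 * (a'.1 i * cr s a'.1 b'.1 i) + w1 * (b'.1 i * cr s a'.1 b'.1 i) := by
        intro i
        simp only [e1]
        rw [Q.hv]; ring
      simp only [h4]
      rw [Finset.sum_add_distrib, Finset.sum_add_distrib, ← Finset.mul_sum, ← Finset.mul_sum,
        ← Finset.mul_sum, h1, h2, h3]
      ring
    have h5 : lin a0 * (f' ⬝ᵥ v) = (f0 - e1) ⬝ᵥ v := by
      rw [dotProduct, dotProduct, Finset.mul_sum]
      refine Finset.sum_congr rfl fun i _ => ?_
      rw [Pi.sub_apply, hf']; ring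
    rw [h5, sub_dotProduct, hf0v, he1v, sub_zero]
    ring
  -- the three cases
  have hc' : lin a1 • f0 - lin a0 • f1 = x • s + y • a'.1 + w • b'.1 := by
    funext i
    have := hxyw i
    simp only [Pi.sub_apply, Pi.add_apply, Pi.smul_apply, smul_eq_mul]
    linear_combination this
  rcases hnz with h | h | h
  · -- `x`
    choose w0 hw0 using fun i => Orth.dvd_cr (g := g) H.hφ H.hW hf0.van ha.van hb.van i
    choose w1 hw1 using fun i => Orth.dvd_cr (g := g) H.hφ H.hW hf1.van ha.van hb.van i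
    refine H.final hrat Q ha0z ha1z h
      (Orth.inW H.hφ hg0 H.hW hrat hf0.van ha.van hb.van hw0)
      (Orth.inW H.hφ hg0 H.hW hrat hf1.van ha.van hb.van hw1) fun i => ?_
    apply mul_left_cancel₀ hg0
    have h1 : cr (lin a1 • f0 - lin a0 • f1) a'.1 b'.1 i = x * cr s a'.1 b'.1 i := by
      rw [hc', cr_add1, cr_add1, cr_smul1, cr_smul1, cr_smul1, cr_self12, cr_self13]
      simp
    have h2 : cr (lin a1 • f0 - lin a0 • f1) a'.1 b'.1 i =
        lin a1 * cr f0 a'.1 b'.1 i - lin a0 * cr f1 a'.1 b'.1 i := by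
      have e : lin a1 • f0 - lin a0 • f1 = lin a1 • f0 + (-(lin a0)) • f1 := by
        rw [neg_smul, sub_eq_add_neg]
      rw [e, cr_add1, cr_smul1, cr_smul1]
      simp only [Pi.add_apply, Pi.smul_apply, smul_eq_mul]
      ring
    rw [h2, hw0, hw1, Q.hv] at h1
    linear_combination -h1
  · -- `y`
    choose w0 hw0 using fun i => Orth.dvd_cr (g := g) H.hφ H.hW hs.van hf0.van hb.van i
    choose w1 hw1 using fun i => Orth.dvd_cr (g := g) H.hφ H.hW hs.van hf1.van hb.van i
    refine H.final hrat Q ha0z ha1z h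
      (Orth.inW H.hφ hg0 H.hW hrat hs.van hf0.van hb.van hw0)
      (Orth.inW H.hφ hg0 H.hW hrat hs.van hf1.van hb.van hw1) fun i => ?_
    apply mul_left_cancel₀ hg0
    have h1 : cr s (lin a1 • f0 - lin a0 • f1) b'.1 i = y * cr s a'.1 b'.1 i := by
      rw [hc', cr_add2, cr_add2, cr_smul2, cr_smul2, cr_smul2, cr_self12, cr_self23]
      simp
    have h2 : cr s (lin a1 • f0 - lin a0 • f1) b'.1 i =
        lin a1 * cr s f0 b'.1 i - lin a0 * cr s f1 b'.1 i := by
      have e : lin a1 • f0 - lin a0 • f1 = lin a1 • f0 + (-(lin a0)) • f1 := by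
        rw [neg_smul, sub_eq_add_neg]
      rw [e, cr_add2, cr_smul2, cr_smul2]
      simp only [Pi.add_apply, Pi.smul_apply, smul_eq_mul]
      ring
    rw [h2, hw0, hw1, Q.hv] at h1
    linear_combination -h1
  · -- `w`
    choose w0 hw0 using fun i => Orth.dvd_cr (g := g) H.hφ H.hW hs.van ha.van hf0.van i
    choose w1 hw1 using fun i => Orth.dvd_cr (g := g) H.hφ H.hW hs.van ha.van hf1.van i
    refine H.final hrat Q ha0z ha1z h
      (Orth.inW H.hφ hg0 H.hW hrat hs.van ha.van hf0.van hw0)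
      (Orth.inW H.hφ hg0 H.hW hrat hs.van ha.van hf1.van hw1) fun i => ?_
    apply mul_left_cancel₀ hg0
    have h1 : cr s a'.1 (lin a1 • f0 - lin a0 • f1) i = w * cr s a'.1 b'.1 i := by
      rw [hc', cr_add3, cr_add3, cr_smul3, cr_smul3, cr_smul3, cr_self13, cr_self23]
      simp
    have h2 : cr s a'.1 (lin a1 • f0 - lin a0 • f1) i =
        lin a1 * cr s a'.1 f0 i - lin a0 * cr s a'.1 f1 i := by
      have e : lin a1 • f0 - lin a0 • f1 = lin a1 • f0 + (-(lin a0)) • f1 := by
        rw [neg_smul, sub_eq_add_neg]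
      rw [e, cr_add3, cr_smul3, cr_smul3]
      simp only [Pi.add_apply, Pi.smul_apply, smul_eq_mul]
      ring
    rw [h2, hw0, hw1, Q.hv] at h1
    linear_combination -h1

end Vale.Agent.P287.H270
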