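import Vale.Agent.P287.H270.B2d

/-!
The relations exist, and the theorem in general coordinates.
-/

namespace Vale.Agent.P287.H270

open Polynomial Matrix
open Vale.Agent.P287.H925 (wt ScrollForm Primitive exists_prim homog_factor hom_quot)

set_option linter.unusedSectionVars false

section Affine

variable {k : Type*} [Field k] {κ : Type*} [Field κ] [Algebra k κ] {W : Submodule κ (Fin 4 → κ)}

/-- if the dimensions grow slowly there are two independent relations -/
theorem exists_rel (x y : κ) (G : k[X][X]) (n : ℕ) (hG : G.Monic) (hn : G.natDegree = n)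
    (hGev : ∀ p : k[X][X], ev x y p = 0 ↔ G ∣ p)
    (wt : Fin 4 → ℕ) (bW : Module.Basis (Fin 2) κ W)
    (C0 : ℤ) (hfreq : ∀ N : ℕ, ∃ m ≥ N,
      (Module.finrank k (Vm k x y wt (aW bW) m) : ℤ) ≤ 2 * n * m + C0) :
    ∃ c c' : Fin 4 → k[X][X],
      ∑ j, ev x y (c j) • aW bW j = 0 ∧ ∑ j, ev x y (c' j) • aW bW j = 0 ∧
      ∀ s t : κ, s • (fun j => ev x y (c j)) + t • (fun j => ev x y (c' j)) = 0 →
        s = 0 ∧ t = 0 := by
  classical
  by_contra h
  have hn0 := n_pos k x y G n hG hn hGev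
  have hS : ∃ j0 : Fin 4, ∀ q : Fin 4 → k[X][X], q j0 = 0 → ∑ j, ev x y (q j) • aW bW j = 0 →
      ∀ j, ev x y (q j) = 0 := by
    by_cases h1 : ∃ c : Fin 4 → k[X][X], ∑ j, ev x y (c j) • aW bW j = 0 ∧
        ∃ j, ev x y (c j) ≠ 0
    · obtain ⟨c, hc, j0, hj0⟩ := h1
      refine ⟨j0, fun q hq0 hq => ?_⟩
      by_contra hcon
      push Not at hcon
      obtain ⟨j, hj⟩ := hcon
      apply h
      refine ⟨c, q, hc, hq, fun s t hst => ?_⟩
      have e0 := congrFun hst j0
      simp only [Pi.add_apply, Pi.smul_apply, smul_eq_mul, Pi.zero_apply, hq0, map_zero,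
        mul_zero, add_zero] at e0
      have hs : s = 0 := (mul_eq_zero.1 e0).resolve_right hj0
      have e1 := congrFun hst j
      simp only [Pi.add_apply, Pi.smul_apply, smul_eq_mul, Pi.zero_apply, hs, zero_mul,
        zero_add] at e1
      exact ⟨hs, (mul_eq_zero.1 e1).resolve_right hj⟩
    · push Not at h1
      exact ⟨0, fun q _ hq => h1 q hq⟩
  obtain ⟨j0, hj0⟩ := hS
  obtain ⟨m, hm, hmle⟩ := hfreq (C0.natAbs + 3 * n * n + n + 1)
  have h1 := finrank_ge_three k x y wt (aW bW) G n hG hn hGev (Finset.univ.erase j0)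
    (by
      intro q hq hsum j _
      have hq0 : q j0 = 0 := hq j0 (by simp)
      refine hj0 q hq0 ?_ j
      rw [← Finset.sum_erase_add _ _ (Finset.mem_univ j0), hsum, hq0, map_zero, zero_smul,
        add_zero]) m
  rw [Finset.card_erase_of_mem (Finset.mem_univ j0), Finset.card_univ, Fintype.card_fin] at h1
  obtain ⟨e, he⟩ : ∃ e, m = n + e := ⟨m - n, by omega⟩
  have h2 : m + 1 - n = e + 1 := by omega
  rw [h2] at h1
  have h3 : ((4 - 1 : ℕ) : ℤ) * (n * (e + 1)) ≤ 2 * n * m + C0 := by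
    refine le_trans ?_ hmle
    exact_mod_cast h1
  have h4 : C0 ≤ C0.natAbs := Int.le_natAbs
  have h5 : (e : ℤ) ≥ C0.natAbs + 3 * n * n + 1 := by
    have : e ≥ C0.natAbs + 3 * n * n + 1 := by omega
    exact_mod_cast this
  have h6 : (1 : ℤ) ≤ n := by exact_mod_cast hn0
  have h7 : (m : ℤ) = n + e := by exact_mod_cast he
  rw [h7] at h3
  push_cast at h3
  nlinarith

end Affine

variable {k : Type*} [Field k] {κ : Type*} [Field κ]
variable {φ : MvPolynomial (Fin 3) k →+* κ} {g : MvPolynomial (Fin 3) k} {r : ℕ}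
  {W : Submodule κ (Fin 4 → κ)} {M : Matrix (Fin 4) (Fin 4) (MvPolynomial (Fin 3) k)}

theorem Mon.rat (H : Mon φ g r W M) (C0 : ℤ)
    (hfreq : ∀ N : ℕ, ∃ D ≥ N, (∑ j, ((D + wt j + 2).choose 2 : ℤ)) - 2 * (2 * r : ℕ) * D - C0 ≤
      Module.finrank k (scrollForms φ W wt D)) : Rat φ W := by
  classical
  let _ : Algebra k κ := (φ.comp MvPolynomial.C).toAlgebra
  have hφC : ∀ c, φ (MvPolynomial.C c) = algebraMap k κ c := fun c => rfl
  have h0 := H.phi_X 0
  set x := φ (MvPolynomial.X 1) / φ (MvPolynomial.X 0) with hx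
  set y := φ (MvPolynomial.X 2) / φ (MvPolynomial.X 0) with hy
  have hGev : ∀ p : k[X][X], ev x y p = 0 ↔ dh g ∣ p := by
    intro p
    constructor
    · intro hp
      obtain ⟨m, hmp⟩ := exists_TD p
      have h1 : φ (hm m p) = 0 := by
        rw [phi_eq φ hφC h0 (hm_homogeneous m p), dh_hm hmp, hp, mul_zero]
      rw [H.hφ] at h1
      have h2 := map_dvd dh h1
      rwa [dh_hm hmp] at h2
    · intro h
      have h1 : ev x y (dh g) = 0 := by
        have h2 := phi_eq φ hφC h0 H.hgn
        rw [(H.hφ g).2 dvd_rfl] at h2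
        exact (mul_eq_zero.1 h2.symm).resolve_left (pow_ne_zero _ h0)
      obtain ⟨q, rfl⟩ := h
      rw [map_mul, h1, zero_mul]
  set E := scaleE _ h0 wt with hE
  set W' := W.map E.toLinearMap with hW'
  have hfin : Module.finrank κ W' = 2 := by
    rw [hW', ← H.hW]
    exact LinearEquiv.finrank_map_eq E W
  let bW : Module.Basis (Fin 2) κ W' := Module.finBasisOfFinrankEq κ W' hfin
  obtain ⟨c, c', hc, hc', hind⟩ := exists_rel x y (dh g) (2 * r) H.G_monic H.G_deg hGev wt bW C0
    (by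
      intro N
      obtain ⟨D, hD, hle⟩ := hfreq N
      refine ⟨D, hD, ?_⟩
      have h1 := finrank_scroll φ hφC h0 W wt D bW
      have h2 := finrank_ker_evalMap k x y wt (aW bW) D
      have h3 : (Module.finrank k (Vm k x y wt (aW bW) D) : ℤ) +
          Module.finrank k (scrollForms φ W wt D) = ∑ j, ((D + wt j + 2).choose 2 : ℤ) := by
        rw [h1]
        exact_mod_cast h2
      linarith)
  choose Dc hDc using fun j => exists_TD (c j)
  choose Dc' hDc' using fun j => exists_TD (c' j)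
  set T := ∑ j, (Dc j + Dc' j) with hT
  have hle : ∀ j, Dc j ≤ T ∧ Dc' j ≤ T := by
    intro j
    have h1 : Dc j + Dc' j ≤ T :=
      Finset.single_le_sum (f := fun j => Dc j + Dc' j) (fun _ _ => Nat.zero_le _)
        (Finset.mem_univ j)
    omega
  have hd : ∀ j, dh (hm (T + wt j) (c j)) = c j := fun j =>
    dh_hm ((hDc j).mono (by have := hle j; omega))
  have hd' : ∀ j, dh (hm (T + wt j) (c' j)) = c' j := fun j =>
    dh_hm ((hDc' j).mono (by have := hle j; omega))
  refine ⟨T, ![fun j => hm (T + wt j) (c j), fun j => hm (T + wt j) (c' j)], ?_, ?_⟩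
  · intro i
    fin_cases i
    · rw [← mem_scrollForms]
      change (fun j => hm (T + wt j) (c j)) ∈ scrollForms φ W wt T
      rw [mem_scroll_iff φ hφC h0 W wt T bW (fun j => hm_homogeneous _ _)]
      simp only [hd]
      exact hc
    · rw [← mem_scrollForms]
      change (fun j => hm (T + wt j) (c' j)) ∈ scrollForms φ W wt T
      rw [mem_scroll_iff φ hφC h0 W wt T bW (fun j => hm_homogeneous _ _)]
      simp only [hd']
      exact hc'
  · intro s t hst
    apply hind
    funext j
    have h1 : s * φ (hm (T + wt j) (c j)) + t * φ (hm (T + wt j) (c' j)) = 0 := hst j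
    rw [phi_eq φ hφC h0 (hm_homogeneous _ _), phi_eq φ hφC h0 (hm_homogeneous _ _), hd, hd'] at h1
    simp only [Pi.add_apply, Pi.smul_apply, smul_eq_mul, Pi.zero_apply]
    have h2 : φ (MvPolynomial.X 0) ^ (T + wt j) *
        (s * ev x y (c j) + t * ev x y (c' j)) = 0 := by
      rw [← h1]; ring
    exact (mul_eq_zero.1 h2).resolve_left (pow_ne_zero _ h0)

lemma choose_two_int (n : ℕ) : (2 : ℤ) * ((n + 2).choose 2 : ℤ) = (n + 2) * (n + 1) := by
  induction n with
  | zero => simp
  | succ n ih =>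
    rw [show n + 1 + 2 = (n + 2) + 1 from rfl, Nat.choose_succ_succ' (n + 2) 1,
      Nat.choose_one_right]
    push_cast
    linear_combination ih

lemma sum_choose (D : ℕ) : ∑ j, ((D + wt j + 2).choose 2 : ℤ) = 2 * (D : ℤ) ^ 2 + 7 * D + 6 := by
  have hwt4 : wt 0 = 0 ∧ wt 1 = 0 ∧ wt 2 = 0 ∧ wt 3 = 1 := ⟨rfl, rfl, rfl, rfl⟩
  obtain ⟨hw0, hw1, hw2, hw3⟩ := hwt4
  rw [Fin.sum_univ_four, hw0, hw1, hw2, hw3]
  have h1 := choose_two_int D
  have h2 := choose_two_int (D + 1)
  push_cast at h2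
  simp only [Nat.add_zero]
  have h3 : (D + 1 + 2).choose 2 = (D + 1 + 2).choose 2 := rfl
  linarith

/-- **The numerical criterion, even degree** (in coordinates where `g` is monic). -/
theorem Mon.even_numeric [IsAlgClosed k] (H : Mon φ g r W M)
    (hnum : ∀ N : ℕ, ∃ d ≥ N,
      Module.finrank k (scrollForms φ W wt (r + d)) = 2 * d ^ 2 + 7 * d + 5) :
    5 ≤ Module.finrank k (scrollForms φ W wt r) ∧ ∀ s, ScrollForm φ W (r - 1) s → s = 0 := by
  classical
  have hr := H.hr
  set C0 : ℤ := 7 * r - 2 * r ^ 2 + 1 with hC0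
  have hfreq : ∀ N : ℕ, ∃ D ≥ N,
      (∑ j, ((D + wt j + 2).choose 2 : ℤ)) - 2 * (2 * r : ℕ) * D - C0 ≤
        Module.finrank k (scrollForms φ W wt D) := by
    intro N
    obtain ⟨d, hd, hle⟩ := hnum N
    refine ⟨r + d, by omega, ?_⟩
    rw [sum_choose, hle, hC0]
    push_cast
    nlinarith
  have hrat := H.rat C0 hfreq
  have hB1 : ∀ e : ℕ, (2 * (e : ℤ) ^ 2 + 7 * e + 5 : ℤ) ≤
      Module.finrank k (scrollForms φ W wt (r + e)) := by
    intro e
    have h1 := main_monic φ (2 * r) g H.hgn H.hg1 H.hφ wt W H.hW M H.hM H.hiso H.haniso (r + e)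
      (by omega) C0 hfreq
    rw [sum_choose, hC0] at h1
    push_cast at h1
    nlinarith
  have h5 : 5 ≤ Module.finrank k (scrollForms φ W wt r) := by
    have := hB1 0
    simp only [Nat.cast_zero] at this
    rw [Nat.add_zero] at this
    have h2 : (5 : ℤ) ≤ Module.finrank k (scrollForms φ W wt r) := by linarith
    exact_mod_cast h2
  have h14 : 14 ≤ Module.finrank k (scrollForms φ W wt (r + 1)) := by
    have := hB1 1
    have h2 : (14 : ℤ) ≤ Module.finrank k (scrollForms φ W wt (r + 1)) := by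
      push_cast at this
      linarith
    exact_mod_cast h2
  refine ⟨h5, fun s hs => H.phi_minus_one hrat h5 h14 ?_ hs⟩
  intro N
  obtain ⟨d, hd, hle⟩ := hnum N
  refine ⟨d, hd, ?_⟩
  rw [hle]
  have h1 := choose_two_int d
  have h2 := choose_two_int (d + 1)
  push_cast at h2
  have h3 : ((2 * d ^ 2 + 7 * d + 5 + 1 : ℕ) : ℤ) ≤
      (((d + 3).choose 2 + 3 * (d + 2).choose 2 : ℕ) : ℤ) := by
    push_cast
    have h4 : ((d + 3).choose 2 : ℤ) = ((d + 1 + 2).choose 2 : ℤ) := rfl
    rw [h4]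
    nlinarith
  exact_mod_cast h3

/-- **The numerical criterion, even degree.** -/
theorem even_numeric [IsAlgClosed k] (φ : MvPolynomial (Fin 3) k →+* κ)
    (g : MvPolynomial (Fin 3) k) (hg0 : g ≠ 0) (r : ℕ) (hr : 1 ≤ r)
    (hgn : g.IsHomogeneous (2 * r)) (hφ : ∀ p, φ p = 0 ↔ g ∣ p)
    (W : Submodule κ (Fin 4 → κ)) (hW : Module.finrank κ W = 2)
    (M : Matrix (Fin 4) (Fin 4) (MvPolynomial (Fin 3) k))
    (hM : ∀ i j, (M i j).IsHomogeneous (1 + wt i + wt j))
    (hiso : ∀ w ∈ W, w ⬝ᵥ (M.map φ *ᵥ w) = 0)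
    (haniso : ∀ v : Fin 4 → MvPolynomial (Fin 3) k, v ⬝ᵥ (M *ᵥ v) = 0 → v = 0)
    (hnum : ∀ N : ℕ, ∃ d ≥ N,
      Module.finrank k (scrollForms φ W wt (r + d)) = 2 * d ^ 2 + 7 * d + 5) :
    5 ≤ Module.finrank k (scrollForms φ W wt r) ∧ ∀ s, ScrollForm φ W (r - 1) s → s = 0 := by
  have : Infinite k := IsAlgClosed.instInfinite
  obtain ⟨α, β, hαβ⟩ := exists_shear hgn hg0
  set c := MvPolynomial.eval ![α, β, 1] g with hc
  let S : MvPolynomial (Fin 3) k →ₐ[k] MvPolynomial (Fin 3) k := shear α β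
  let S' : MvPolynomial (Fin 3) k →ₐ[k] MvPolynomial (Fin 3) k := shear (-α) (-β)
  have hSS' : ∀ p, S' (S p) = p := shear_shear α β
  have hS'S : ∀ p, S (S' p) = p := by
    intro p
    have := shear_shear (-α) (-β) p
    rwa [neg_neg, neg_neg] at this
  set φ' : MvPolynomial (Fin 3) k →+* κ := φ.comp (S' : MvPolynomial (Fin 3) k →+* _) with hφ'
  have hφ'S : ∀ p, φ' (S p) = φ p := fun p => by
    rw [hφ', RingHom.comp_apply]
    exact congrArg φ (hSS' p)
  have hmem : ∀ (D : ℕ) (f : Fin 4 → MvPolynomial (Fin 3) k), f ∈ scrollForms φ W wt D →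
      (fun j => S (f j)) ∈ scrollForms φ' W wt D := by
    rintro D f ⟨h1, h2⟩
    refine ⟨fun i => shear_homogeneous α β (h1 i), fun w hw => ?_⟩
    simp only [hφ'S]
    exact h2 w hw
  have hmem' : ∀ (D : ℕ) (f : Fin 4 → MvPolynomial (Fin 3) k), f ∈ scrollForms φ' W wt D →
      (fun j => S' (f j)) ∈ scrollForms φ W wt D := by
    rintro D f ⟨h1, h2⟩
    exact ⟨fun i => shear_homogeneous (-α) (-β) (h1 i), fun w hw => h2 w hw⟩
  have hfr : ∀ D, Module.finrank k (scrollForms φ' W wt D) =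
      Module.finrank k (scrollForms φ W wt D) := by
    intro D
    let e : scrollForms φ W wt D ≃ₗ[k] scrollForms φ' W wt D :=
      { toFun := fun f => ⟨fun j => S (f.1 j), hmem D f.1 f.2⟩
        map_add' := fun f f' => by
          apply Subtype.ext
          funext j
          exact map_add S _ _
        map_smul' := fun c f => by
          apply Subtype.ext
          funext j
          exact map_smul S c _
        invFun := fun f => ⟨fun j => S' (f.1 j), hmem' D f.1 f.2⟩
        left_inv := fun f => by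
          apply Subtype.ext
          funext j
          exact hSS' _
        right_inv := fun f => by
          apply Subtype.ext
          funext j
          exact hS'S _ }
    exact e.finrank_eq.symm
  have H : Mon φ' (MvPolynomial.C c⁻¹ * S g) r W (M.map S) := by
    refine ⟨hr, (shear_homogeneous α β hgn).C_mul _, ?_, ?_, hW,
      fun i j => shear_homogeneous α β (hM i j), ?_, ?_⟩
    · rw [coeff_dh_top ((shear_homogeneous α β hgn).C_mul _), map_mul, MvPolynomial.eval_C]
      rw [eval_shear, ← hc, inv_mul_cancel₀ hαβ]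
    · intro p
      rw [hφ', RingHom.comp_apply]
      change φ (S' p) = 0 ↔ _
      rw [hφ]
      constructor
      · rintro ⟨q, hq⟩
        refine ⟨MvPolynomial.C c * S q, ?_⟩
        rw [← hS'S p, hq, map_mul]
        have : MvPolynomial.C c⁻¹ * MvPolynomial.C c = (1 : MvPolynomial (Fin 3) k) := by
          rw [← map_mul, inv_mul_cancel₀ hαβ, map_one]
        linear_combination (-(S g * S q)) * this
      · rintro ⟨q, rfl⟩
        rw [map_mul, map_mul, hSS']
        exact Dvd.dvd.mul_right (Dvd.dvd.mul_left dvd_rfl _) _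
    · intro w hw
      have h1 : (M.map S).map φ' = M.map φ := by
        ext i j
        exact hφ'S _
      rw [h1]
      exact hiso w hw
    · intro v hv
      have h1 : (fun j => S' (v j)) = 0 := by
        apply haniso
        rw [hdot] at hv ⊢
        have h2 := congrArg S' hv
        rw [map_zero, map_sum] at h2
        rw [← h2]
        refine Finset.sum_congr rfl fun i _ => ?_
        rw [map_sum]
        refine Finset.sum_congr rfl fun j _ => ?_
        rw [map_mul, map_mul, Matrix.map_apply, hSS']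
      funext j
      have h2 := congrFun h1 j
      change S' (v j) = 0 at h2
      rw [← hS'S (v j), h2, map_zero, Pi.zero_apply]
  obtain ⟨h5, h0⟩ := H.even_numeric (fun N => by
    obtain ⟨d, hd, h⟩ := hnum N
    exact ⟨d, hd, by rw [hfr, h]⟩)
  refine ⟨by rwa [hfr] at h5, fun s hs => ?_⟩
  have h1 := h0 _ (mem_scrollForms.1 (hmem _ s (mem_scrollForms.2 hs)))
  funext j
  have h2 := congrFun h1 j
  change S (s j) = 0 at h2
  rw [← hSS' (s j), h2, map_zero, Pi.zero_apply]

end Vale.Agent.P287.H270
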