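import Vale.Agent.P287.H270.B2e
import Vale.Agent.P287.H925.RankIso

/-!
The even scroll theorem with a purely numerical hypothesis: a smooth cubic fourfold containing a
plane and a line scroll, over an irreducible plane curve of degree `2 r`, with the Hilbert
polynomial `2 d² + 7 d + 5`, is rational.
-/

set_option linter.unusedSectionVars false

open MvPolynomial Matrix

namespace Vale.Agent.P287.H270

open Vale.Agent.P287 Vale.Agent.P287.H925 Vale.Agent.P287.H925.NetResult

/-- The isotropic case: the generic fibre has a rational point. -/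
theorem rational_of_isotropic (M : Matrix (Fin 4) (Fin 4) (MvPolynomial (Fin 3) ℂ))
    (hdeg : ∀ i j, (M i j).IsHomogeneous (1 + wt i + wt j)) (hs : SmoothForm (cubicOf M))
    (v : Fin 4 → MvPolynomial (Fin 3) ℂ) (hv : v ⬝ᵥ (M *ᵥ v) = 0) (hv0 : v ≠ 0) :
    RationalHypersurface (cubicOf M) := by
  obtain ⟨N, u, hu0, huh, huq⟩ := exists_hom_isotropic M hdeg v hv0 hv
  obtain ⟨i, hi⟩ : ∃ i, u i ≠ 0 := by
    by_contra h
    push Not at h
    exact hu0 (funext h)
  set u' : Fin 4 → RatK := fun i => aeval tvec (u i) with hu'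
  have h1 : u' i ≠ 0 := aeval_tvec_ne_zero (huh i) hi
  refine isotropic_result (cubicOf M) (cubicOf_homogeneous M hdeg) hs (qM M) (fun v => ?_)
    (u' ∘ perm4.symm) ?_ ?_
  · rw [qM_apply, aeval_wvec_cubicOf M hdeg]
  · intro h2
    apply h1
    have h3 := congrFun h2 (perm4 i)
    simpa using h3
  · rw [qM_apply]
    have h2 : (u' ∘ perm4.symm) ∘ perm4 = u' := by
      funext j
      simp
    rw [h2]
    have h3 := congrArg (aeval tvec : MvPolynomial (Fin 3) ℂ →ₐ[ℂ] RatK) huq
    rw [map_zero] at h3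
    rw [← h3]
    simp [dotProduct, mulVec, hu']

/-- **Even scroll theorem**, numerical form. -/
theorem even_scroll_theorem (M : Matrix (Fin 4) (Fin 4) (MvPolynomial (Fin 3) ℂ)) (hM : M.IsSymm)
    (hdeg : ∀ i j, (M i j).IsHomogeneous (1 + wt i + wt j)) (hs : SmoothForm (cubicOf M))
    {κ : Type*} [Field κ] (φ : MvPolynomial (Fin 3) ℂ →+* κ)
    (g : MvPolynomial (Fin 3) ℂ) (hg : Irreducible g) (hφ : ∀ p, φ p = 0 ↔ g ∣ p)
    (r : ℕ) (hgr : g.IsHomogeneous (2 * r))
    (W : Submodule κ (Fin 4 → κ)) (hW : Module.finrank κ W = 2)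
    (hiso : ∀ w ∈ W, w ⬝ᵥ (M.map φ *ᵥ w) = 0)
    (hnum : ∀ N : ℕ, ∃ d, N ≤ d ∧
      Module.finrank ℂ (scrollForms φ W wt (r + d)) = 2 * d ^ 2 + 7 * d + 5) :
    RationalHypersurface (cubicOf M) := by
  by_cases haniso : ∀ v : Fin 4 → MvPolynomial (Fin 3) ℂ, v ⬝ᵥ (M *ᵥ v) = 0 → v = 0
  · have hr : 1 ≤ r := by
      rcases Nat.eq_zero_or_pos r with h | h
      · subst h
        exfalso
        obtain ⟨c, hc⟩ := const_of_hom (p := g) hgr
        have hc0 : c ≠ 0 := by
          rintro rfl
          rw [map_zero] at hc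
          exact hg.ne_zero hc
        apply hg.not_isUnit
        rw [hc]
        exact (IsUnit.mk0 c hc0).map C
      · exact h
    obtain ⟨h5, h0⟩ := even_numeric φ g hg.ne_zero r hr hgr hφ W hW M hdeg hiso haniso hnum
    obtain ⟨f, hf⟩ := exists_linearIndependent_of_le_finrank h5
    refine scroll_theorem M hM hdeg hs φ g hg hφ r hgr W hW hiso
      (fun j => (f j : Fin 4 → MvPolynomial (Fin 3) ℂ)) (fun j => ⟨(f j).2.1, (f j).2.2⟩) ?_ ?_
    · intro c hc
      rw [Fintype.linearIndependent_iff] at hf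
      have h1 := hf c (by
        apply Subtype.ext
        funext i
        rw [Submodule.coe_sum, Submodule.coe_zero, Pi.zero_apply, ← hc i]
        simp [Finset.sum_apply, smul_eq_C_mul])
      exact funext h1
    · intro s hs
      exact h0 s hs
  · push Not at haniso
    obtain ⟨v, hv, hv0⟩ := haniso
    exact rational_of_isotropic M hdeg hs v hv hv0

end Vale.Agent.P287.H270
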