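import Vale.Agent.P287.H270.Horner

/-!
Growth of the filtered module generated by finitely many vectors over the coordinate ring of an
affine plane curve.
-/

namespace Vale.Agent.P287.H270

open Polynomial

set_option linter.unusedSectionVars false

section Ev

variable {k : Type*} [Field k] {κ : Type*} [Field κ] [Algebra k κ]

/-- evaluation of a polynomial in two variables -/
noncomputable def ev (x y : κ) : k[X][X] →+* κ :=
  eval₂RingHom (aeval x : k[X] →ₐ[k] κ).toRingHom y

variable (x y : κ)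

@[simp] lemma ev_C (c : k[X]) : ev x y (C c) = aeval x c := by simp [ev]
@[simp] lemma ev_X : ev (k := k) x y X = y := by simp [ev]
lemma ev_CC (c : k) : ev x y (C (C c)) = algebraMap k κ c := by simp
lemma ev_mon (a b : ℕ) : ev (k := k) x y (mon a b) = x ^ a * y ^ b := by simp [mon]

lemma ev_Xd (d : ℕ) : ev (k := k) x y (C (X ^ d)) = x ^ d := by simp

end Ev

section Rep

variable {k : Type*} [Field k]

lemma TD.rep {D : ℕ} {p : k[X][X]} (hp : TD D p) :
    p = ∑ b ∈ Finset.range (D + 1), ∑ a ∈ Finset.range (D + 1),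
      C (C ((p.coeff b).coeff a)) * mon a b := by
  ext b a
  simp only [finsetSum_coeff, coeff_C_mul, mon, coeff_X_pow, mul_ite, mul_one, mul_zero]
  by_cases h : D < a + b
  · rw [hp a b h]
    symm
    refine Finset.sum_eq_zero fun b' _ => Finset.sum_eq_zero fun a' _ => ?_
    split_ifs with h1
    · subst h1
      rw [coeff_C_mul, coeff_X_pow]
      split_ifs with h2
      · subst h2
        rw [hp _ _ h, mul_one]
      · simp
    · simp
  · rw [Finset.sum_eq_single b, Finset.sum_eq_single a]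
    · simp
    · intro a' _ ha'
      rw [if_pos rfl, coeff_C_mul, coeff_X_pow, if_neg (Ne.symm ha'), mul_zero]
    · intro h'; exact absurd (Finset.mem_range.2 (by omega)) h'
    · intro b' _ hb'
      refine Finset.sum_eq_zero fun a' _ => ?_
      rw [if_neg (Ne.symm hb')]; simp
    · intro h'; exact absurd (Finset.mem_range.2 (by omega)) h'

end Rep

section Growth

variable (k : Type*) [Field k] {κ : Type*} [Field κ] [Algebra k κ] (x y : κ)
variable {U : Type*} [AddCommGroup U] [Module κ U] [Module k U] [IsScalarTower k κ U]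
variable {ι : Type*} (wt : ι → ℕ) (a : ι → U)

omit [IsScalarTower k κ U] in
/-- the filtered pieces -/
def Vm (m : ℕ) : Submodule k U :=
  Submodule.span k {u | ∃ (j : ι) (p : k[X][X]), TD (m + wt j) p ∧ u = ev x y p • a j}

omit [IsScalarTower k κ U] in
lemma mem_Vm {m : ℕ} {j : ι} {p : k[X][X]} (hp : TD (m + wt j) p) :
    ev x y p • a j ∈ Vm k x y wt a m := Submodule.subset_span ⟨j, p, hp, rfl⟩

lemma Vm_le_span (m : ℕ) : Vm k x y wt a m ≤ Submodule.span k
    {u | ∃ (j : ι) (α β : ℕ), α + β ≤ m + wt j ∧ u = ev (k := k) x y (mon α β) • a j} := by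
  rw [Vm, Submodule.span_le]
  rintro u ⟨j, p, hp, rfl⟩
  rw [hp.rep, map_sum, Finset.sum_smul]
  refine Submodule.sum_mem _ fun b _ => ?_
  rw [map_sum, Finset.sum_smul]
  refine Submodule.sum_mem _ fun a' _ => ?_
  rw [map_mul, ev_CC, mul_smul, algebraMap_smul]
  by_cases h : m + wt j < a' + b
  · rw [hp _ _ h, zero_smul]
    exact Submodule.zero_mem _
  · exact Submodule.smul_mem _ _ (Submodule.subset_span ⟨j, a', b, by omega, rfl⟩)

instance Vm_finite [Finite ι] (m : ℕ) : Module.Finite k (Vm k x y wt a m) := by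
  classical
  have hfin : Set.Finite
      {u | ∃ (j : ι) (α β : ℕ), α + β ≤ m + wt j ∧ u = ev (k := k) x y (mon α β) • a j} := by
    have h1 : {u | ∃ (j : ι) (α β : ℕ), α + β ≤ m + wt j ∧
        u = ev (k := k) x y (mon α β) • a j} =
        ⋃ j : ι, (fun s : ℕ × ℕ => ev (k := k) x y (mon s.1 s.2) • a j) ''
          {s : ℕ × ℕ | s.1 + s.2 ≤ m + wt j} := by
      ext u
      simp only [Set.mem_ofPred_eq, Set.mem_iUnion, Set.mem_image, Prod.exists]
      constructor
      · rintro ⟨j, α, β, h, rfl⟩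
        exact ⟨j, α, β, h, rfl⟩
      · rintro ⟨j, α, β, h, rfl⟩
        exact ⟨j, α, β, h, rfl⟩
    rw [h1]
    refine Set.finite_iUnion fun j => Set.Finite.image _ ?_
    refine Set.Finite.subset ((Set.finite_Iic (m + wt j)).prod (Set.finite_Iic (m + wt j))) ?_
    rintro ⟨s1, s2⟩ hs
    simp only [Set.mem_ofPred_eq] at hs
    simp only [Set.mem_prod, Set.mem_Iic]
    omega
  have : Module.Finite k (Submodule.span k
    {u | ∃ (j : ι) (α β : ℕ), α + β ≤ m + wt j ∧ u = ev (k := k) x y (mon α β) • a j}) :=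
    Module.Finite.span_of_finite k hfin
  exact Submodule.finiteDimensional_of_le (Vm_le_span k x y wt a m)

/-- multiplication by an element of the field, as a linear map over the ground field -/
noncomputable def mulK (c : κ) : U →ₗ[k] U where
  toFun u := c • u
  map_add' := smul_add c
  map_smul' r u := by
    simp only [RingHom.id_apply]
    rw [← algebraMap_smul κ r u, ← algebraMap_smul κ r (c • u), smul_smul, smul_smul, mul_comm]

lemma mulK_apply (c : κ) (u : U) : mulK k c u = c • u := rfl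

lemma Vm_smul {D m : ℕ} {q : k[X][X]} (hq : TD D q) {u : U} (hu : u ∈ Vm k x y wt a m) :
    ev x y q • u ∈ Vm k x y wt a (m + D) := by
  have h1 : Vm k x y wt a m ≤ (Vm k x y wt a (m + D)).comap (mulK k (ev x y q)) := by
    rw [Vm, Submodule.span_le]
    rintro u ⟨j, p, hp, rfl⟩
    change ev x y q • (ev x y p • a j) ∈ Vm k x y wt a (m + D)
    rw [smul_smul, ← map_mul]
    exact mem_Vm k x y wt a ((hq.mul hp).mono (by omega))
  exact h1 hu

lemma Vm_Xd (d m : ℕ) {u : U} (hu : u ∈ Vm k x y wt a m) :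
    x ^ d • u ∈ Vm k x y wt a (m + d) := by
  rw [← ev_Xd (k := k) x y d]
  refine Vm_smul k x y wt a (TD_C fun i hi => ?_) hu
  rw [coeff_X_pow, if_neg (by omega)]

/-! ### The module over `k[X]` -/

variable [Module k[X] U] [IsScalarTower k k[X] U]

omit [Module k U] [IsScalarTower k κ U] [IsScalarTower k k[X] U] in
/-- the module generated over `k[X]` -/
noncomputable def Nm (n : ℕ) : Submodule k[X] U :=
  Submodule.span k[X] (Set.range fun s : ι × Fin n => y ^ (s.2 : ℕ) • a s.1)

/-- the coordinates modulo `X ^ d` -/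
noncomputable def coords (n : ℕ) {ρ : ℕ} (b : Module.Basis (Fin ρ) k[X] (Nm k y a n)) (d : ℕ) :
    (Nm k y a n) →ₗ[k] (Fin ρ → Fin d → k) where
  toFun v := fun j i => (b.repr v j).coeff i
  map_add' u v := by ext j i; simp
  map_smul' c v := by
    ext j i
    have h1 : c • v = (C c : k[X]) • v := by
      rw [← Polynomial.algebraMap_eq, algebraMap_smul]
    rw [h1]
    simp

lemma coords_surj (n : ℕ) {ρ : ℕ} (b : Module.Basis (Fin ρ) k[X] (Nm k y a n)) (d : ℕ) :
    Function.Surjective (coords k y a n b d) := by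
  intro f
  refine ⟨∑ j, (∑ i : Fin d, C (f j i) * X ^ (i : ℕ)) • b j, ?_⟩
  ext j i
  change (b.repr (∑ j, (∑ i : Fin d, C (f j i) * X ^ (i : ℕ)) • b j) j).coeff i = f j i
  rw [b.repr_sum_self, finsetSum_coeff, Finset.sum_eq_single i]
  · simp
  · intro i' _ hi'
    rw [coeff_C_mul, coeff_X_pow, if_neg, mul_zero]
    intro h; exact hi' (Fin.ext h.symm)
  · intro h; exact absurd (Finset.mem_univ i) h

lemma coords_Xd (n : ℕ) {ρ : ℕ} (b : Module.Basis (Fin ρ) k[X] (Nm k y a n)) (d : ℕ)
    (v : Nm k y a n) : coords k y a n b d ((X ^ d : k[X]) • v) = 0 := by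
  ext j i
  change (b.repr ((X ^ d : k[X]) • v) j).coeff i = 0
  rw [map_smul, Finsupp.smul_apply, smul_eq_mul, coeff_X_pow_mul', if_neg]
  have := i.2
  omega

variable (hX : ∀ (p : k[X]) (u : U), p • u = aeval x p • u)
variable (G : k[X][X]) (n : ℕ) (hG : G.Monic) (hn : G.natDegree = n)
  (hGev : ev x y G = 0)

include hX hG hn hGev

omit [Module k U] [IsScalarTower k κ U] [IsScalarTower k k[X] U] in
lemma mem_Nm (p : k[X][X]) (j : ι) : ev x y p • a j ∈ Nm k y a n := by
  have h3 : ev x y p = ev x y (p %ₘ G) := by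
    conv_lhs => rw [← modByMonic_add_div p G]
    rw [map_add, map_mul, hGev, zero_mul, add_zero]
  rw [h3, (p %ₘ G).as_sum_range_C_mul_X_pow, map_sum, Finset.sum_smul]
  refine Submodule.sum_mem _ fun b _ => ?_
  by_cases hb : b < n
  · rw [map_mul, map_pow, ev_C, ev_X, mul_smul, ← hX]
    exact Submodule.smul_mem _ _ (Submodule.subset_span ⟨(j, ⟨b, hb⟩), rfl⟩)
  · have h4 : (p %ₘ G).coeff b = 0 := by
      apply coeff_eq_zero_of_degree_lt
      refine lt_of_lt_of_le (degree_modByMonic_lt p hG) ?_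
      rw [degree_eq_natDegree hG.ne_zero, hn]
      exact_mod_cast not_lt.1 hb
    rw [h4]; simp

omit [IsScalarTower k κ U] in
lemma Vm_le_Nm (m : ℕ) : Vm k x y wt a m ≤ (Nm k y a n).restrictScalars k := by
  rw [Vm, Submodule.span_le]
  rintro u ⟨j, p, hp, rfl⟩
  exact mem_Nm k x y a hX G n hG hn hGev p j

/-- **Growth.** -/
theorem growth [Finite ι] (hx : Function.Injective (aeval x : k[X] → κ)) {ρ : ℕ}
    (b : Module.Basis (Fin ρ) k[X] (Nm k y a n)) (d r : ℕ)
    (hsurj : ∀ u ∈ Nm k y a n, ∃ v ∈ Vm k x y wt a (r + d), ∃ u' ∈ Nm k y a n,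
      u = v + x ^ d • u') :
    ρ * d + Module.finrank k (Vm k x y wt a r) ≤ Module.finrank k (Vm k x y wt a (r + d)) := by
  let inc : Vm k x y wt a (r + d) →ₗ[k] Nm k y a n :=
    { toFun := fun v => ⟨v.1, Vm_le_Nm k x y wt a hX G n hG hn hGev _ v.2⟩
      map_add' := fun u v => rfl
      map_smul' := fun c v => rfl }
  let f : Vm k x y wt a (r + d) →ₗ[k] (Fin ρ → Fin d → k) :=
    (coords k y a n b d).comp inc
  have hf : LinearMap.range f = ⊤ := by
    rw [LinearMap.range_eq_top]
    intro c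
    obtain ⟨u, hu⟩ := coords_surj k y a n b d c
    obtain ⟨v, hv, u', hu', huv⟩ := hsurj u.1 u.2
    refine ⟨⟨v, hv⟩, ?_⟩
    have h1 : u = inc ⟨v, hv⟩ + (X ^ d : k[X]) • (⟨u', hu'⟩ : Nm k y a n) := by
      apply Subtype.ext
      rw [Submodule.coe_add, Submodule.coe_smul, hX, map_pow, aeval_X]
      exact huv
    change coords k y a n b d (inc ⟨v, hv⟩) = c
    rw [← hu, h1, map_add, coords_Xd, add_zero]
  have h1 := LinearMap.finrank_range_add_finrank_ker f
  rw [hf, finrank_top, Module.finrank_pi_fintype] at h1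
  simp only [Module.finrank_fin_fun, Finset.sum_const, Finset.card_univ, Fintype.card_fin,
    smul_eq_mul] at h1
  rw [← h1]
  apply Nat.add_le_add_left
  -- the kernel contains `X ^ d V_r`
  let e : Vm k x y wt a r →ₗ[k] LinearMap.ker f :=
    { toFun := fun v => ⟨⟨x ^ d • v.1, Vm_Xd k x y wt a d r v.2⟩, by
        rw [LinearMap.mem_ker]
        have h2 : inc ⟨x ^ d • v.1, Vm_Xd k x y wt a d r v.2⟩ = (X ^ d : k[X]) •
            (⟨v.1, Vm_le_Nm k x y wt a hX G n hG hn hGev _ v.2⟩ : Nm k y a n) := by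
          apply Subtype.ext
          rw [Submodule.coe_smul, hX, map_pow, aeval_X]
          rfl
        change coords k y a n b d (inc ⟨x ^ d • v.1, _⟩) = 0
        rw [h2, coords_Xd]⟩
      map_add' := fun u v => by
        apply Subtype.ext; apply Subtype.ext
        exact smul_add _ _ _
      map_smul' := fun c v => by
        apply Subtype.ext; apply Subtype.ext
        exact (mulK k (x ^ d)).map_smul c v.1 }
  apply LinearMap.finrank_le_finrank_of_injective (f := e)
  intro u v huv
  apply Subtype.ext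
  have h2 : x ^ d • u.1 = x ^ d • v.1 := congrArg (fun w => w.1.1) huv
  have hx0 : x ^ d ≠ 0 := by
    intro h
    have h3 : aeval x (X ^ d : k[X]) = aeval x (0 : k[X]) := by
      rw [map_pow, aeval_X, h, map_zero]
    exact pow_ne_zero d X_ne_zero (hx h3)
  have h4 := congrArg (fun w => (x ^ d)⁻¹ • w) h2
  simpa only [inv_smul_smul₀ hx0] using h4

end Growth

end Vale.Agent.P287.H270
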