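import Vale.Agent.P287.H270.AffineMain

/-!
Translation between homogeneous polynomials in three variables and polynomials of bounded total
degree in two variables.
-/

namespace Vale.Agent.P287.H270

open Polynomial Matrix

set_option linter.unusedSectionVars false

/-- Exponents. -/
noncomputable def expF (a b c : ℕ) : Fin 3 →₀ ℕ := Finsupp.equivFunOnFinite.symm ![a, b, c]

@[simp] lemma expF_0 (a b c : ℕ) : expF a b c 0 = a := rfl
@[simp] lemma expF_1 (a b c : ℕ) : expF a b c 1 = b := rfl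
@[simp] lemma expF_2 (a b c : ℕ) : expF a b c 2 = c := rfl

lemma degree_fin3 (s : Fin 3 →₀ ℕ) : s.degree = s 0 + s 1 + s 2 := by
  rw [Finsupp.degree_eq_sum, Fin.sum_univ_three]

section

variable {k : Type*} [Field k]

/-- dehomogenisation -/
noncomputable def dh : MvPolynomial (Fin 3) k →ₐ[k] k[X][X] :=
  MvPolynomial.aeval ![1, C X, X]

lemma algebraMap_kXX (c : k) : algebraMap k k[X][X] c = C (C c) := rfl

lemma dh_monomial (s : Fin 3 →₀ ℕ) (c : k) :
    dh (MvPolynomial.monomial s c) = C (C c) * mon (s 1) (s 2) := by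
  rw [dh, MvPolynomial.aeval_monomial, algebraMap_kXX, Finsupp.prod_fintype _ _ (by simp),
    Fin.prod_univ_three]
  simp [mon]

lemma dh_eq_sum (P : MvPolynomial (Fin 3) k) :
    dh P = ∑ s ∈ P.support, C (C (P.coeff s)) * mon (s 1) (s 2) := by
  conv_lhs => rw [P.as_sum]
  rw [map_sum]
  exact Finset.sum_congr rfl fun s _ => dh_monomial s _

lemma coeff_dh (P : MvPolynomial (Fin 3) k) (i j : ℕ) : ((dh P).coeff j).coeff i =
    ∑ s ∈ P.support, if i = s 1 ∧ j = s 2 then P.coeff s else 0 := by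
  rw [dh_eq_sum, finsetSum_coeff, finsetSum_coeff]
  exact Finset.sum_congr rfl fun s _ => coeff_coeff_CC_mon k _ _ _ _ _

variable {m : ℕ} {P : MvPolynomial (Fin 3) k}

lemma sum_of_mem_support (hP : P.IsHomogeneous m) {s : Fin 3 →₀ ℕ} (hs : s ∈ P.support) :
    s 0 + s 1 + s 2 = m := by
  rw [← degree_fin3]
  have := hP (MvPolynomial.mem_support_iff.1 hs)
  rw [← this, Finsupp.degree_eq_weight_one]
  rfl

lemma coeff_dh_eq (hP : P.IsHomogeneous m) {s : Fin 3 →₀ ℕ} (hs : s 0 + s 1 + s 2 = m) :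
    ((dh P).coeff (s 2)).coeff (s 1) = P.coeff s := by
  rw [coeff_dh]
  by_cases h : s ∈ P.support
  · rw [Finset.sum_eq_single s]
    · rw [if_pos ⟨rfl, rfl⟩]
    · intro s' hs' hne
      rw [if_neg]
      rintro ⟨h1, h2⟩
      apply hne
      have h3 := sum_of_mem_support hP hs'
      ext i
      fin_cases i
      · change s' 0 = s 0; omega
      · exact h1.symm
      · exact h2.symm
    · intro h'; exact absurd h h'
  · rw [MvPolynomial.notMem_support_iff.1 h]
    refine Finset.sum_eq_zero fun s' hs' => ?_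
    rw [if_neg]
    rintro ⟨h1, h2⟩
    have h3 := sum_of_mem_support hP hs'
    apply h
    have : s = s' := by
      ext i
      fin_cases i
      · change s 0 = s' 0; omega
      · exact h1
      · exact h2
    rwa [this]

lemma TD_dh (hP : P.IsHomogeneous m) : TD m (dh P) := by
  intro i j hij
  rw [coeff_dh]
  refine Finset.sum_eq_zero fun s hs => ?_
  rw [if_neg]
  rintro ⟨h1, h2⟩
  have := sum_of_mem_support hP hs
  omega

lemma dh_inj (hP : P.IsHomogeneous m) (h : dh P = 0) : P = 0 := by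
  ext s
  rw [MvPolynomial.coeff_zero]
  by_contra hne
  have hs := MvPolynomial.mem_support_iff.2 hne
  apply hne
  rw [← coeff_dh_eq hP (sum_of_mem_support hP hs), h]
  simp

/-- homogenisation -/
noncomputable def hm (m : ℕ) (p : k[X][X]) : MvPolynomial (Fin 3) k :=
  ∑ s ∈ expo m, MvPolynomial.monomial (expF (m - s.2 - s.1) s.2 s.1) ((p.coeff s.1).coeff s.2)

lemma hm_homogeneous (m : ℕ) (p : k[X][X]) : (hm m p).IsHomogeneous m := by
  refine MvPolynomial.IsHomogeneous.sum _ _ _ fun s hs => ?_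
  apply MvPolynomial.isHomogeneous_monomial
  rw [degree_fin3, expF_0, expF_1, expF_2]
  have := mem_expo.1 hs
  omega

lemma dh_hm {p : k[X][X]} (hp : TD m p) : dh (hm m p) = p := by
  rw [hm, map_sum]
  simp only [dh_monomial, expF_1, expF_2]
  have h1 := congrArg Subtype.val ((tdEquiv k m).left_inv ⟨p, hp⟩)
  change (∑ s : expo m, C (C ((p.coeff s.1.1).coeff s.1.2)) * mon s.1.2 s.1.1) = p at h1
  rw [← Finset.sum_coe_sort (expo m)]
  exact h1

/-! ### Evaluation -/

variable {κ : Type*} [Field κ] [Algebra k κ] (φ : MvPolynomial (Fin 3) k →+* κ)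

lemma phi_eq (hφC : ∀ c, φ (MvPolynomial.C c) = algebraMap k κ c)
    (h0 : φ (MvPolynomial.X 0) ≠ 0) (hP : P.IsHomogeneous m) :
    φ P = φ (MvPolynomial.X 0) ^ m * ev (φ (MvPolynomial.X 1) / φ (MvPolynomial.X 0))
      (φ (MvPolynomial.X 2) / φ (MvPolynomial.X 0)) (dh P) := by
  conv_lhs => rw [P.as_sum]
  rw [dh_eq_sum, map_sum, map_sum, Finset.mul_sum]
  refine Finset.sum_congr rfl fun s hs => ?_
  have h1 := sum_of_mem_support hP hs
  rw [MvPolynomial.monomial_eq, map_mul, hφC, map_mul, ev_CC, ev_mon,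
    Finsupp.prod_fintype _ _ (by simp), Fin.prod_univ_three, map_mul, map_mul, map_pow, map_pow,
    map_pow, ← h1, pow_add, pow_add, div_pow, div_pow]
  have := pow_ne_zero (s 1) h0
  have := pow_ne_zero (s 2) h0
  field_simp

end

end Vale.Agent.P287.H270
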