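import Mathlib

/-!
Duality for `k[X][Y] / (G)`, `G` monic in `Y`: total degrees, the residue functional and its
dual basis of Horner polynomials.
-/

namespace Vale.Agent.P287.H270

open Polynomial

variable {k : Type*} [Field k]

/-- `p` has total degree at most `m`. -/
def TD (m : ℕ) (p : k[X][X]) : Prop := ∀ i j, m < i + j → (p.coeff j).coeff i = 0

lemma TD.mono {m m' : ℕ} (h : m ≤ m') {p : k[X][X]} (hp : TD m p) : TD m' p :=
  fun i j hij => hp i j (by omega)

lemma TD.zero (m : ℕ) : TD m (0 : k[X][X]) := fun i j _ => by simp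

lemma TD.add {m : ℕ} {p q : k[X][X]} (hp : TD m p) (hq : TD m q) : TD m (p + q) :=
  fun i j hij => by simp [hp i j hij, hq i j hij]

lemma TD.neg {m : ℕ} {p : k[X][X]} (hp : TD m p) : TD m (-p) :=
  fun i j hij => by simp [hp i j hij]

lemma TD.sub {m : ℕ} {p q : k[X][X]} (hp : TD m p) (hq : TD m q) : TD m (p - q) :=
  fun i j hij => by simp [hp i j hij, hq i j hij]

lemma TD.sum {m : ℕ} {ι : Type*} {s : Finset ι} {f : ι → k[X][X]} (h : ∀ i ∈ s, TD m (f i)) :
    TD m (∑ i ∈ s, f i) := by
  classical
  induction s using Finset.induction_on with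
  | empty => simpa using TD.zero m
  | insert a s ha ih =>
    rw [Finset.sum_insert ha]
    exact (h a (Finset.mem_insert_self a s)).add
      (ih fun i hi => h i (Finset.mem_insert_of_mem hi))

lemma TD.mul {m m' : ℕ} {p q : k[X][X]} (hp : TD m p) (hq : TD m' q) : TD (m + m') (p * q) := by
  intro i j hij
  rw [coeff_mul, finsetSum_coeff]
  refine Finset.sum_eq_zero fun x hx => ?_
  rw [coeff_mul]
  refine Finset.sum_eq_zero fun z hz => ?_
  rw [Finset.HasAntidiagonal.mem_antidiagonal] at hx hz
  by_cases h1 : m < z.1 + x.1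
  · rw [hp _ _ h1, zero_mul]
  · rw [hq z.2 x.2 (by omega), mul_zero]

lemma TD.smul {m : ℕ} {p : k[X][X]} (c : k) (hp : TD m p) : TD m (c • p) :=
  fun i j hij => by simp [hp i j hij]

lemma TD.CC {m : ℕ} (c : k) : TD m (C (C c) : k[X][X]) := by
  intro i j hij
  rw [coeff_C]
  split_ifs with h
  · rw [coeff_C, if_neg (by omega)]
  · simp

/-- the monomial `X ^ a * Y ^ b` -/
noncomputable def mon (a b : ℕ) : k[X][X] := C (X ^ a) * X ^ b

lemma TD_mon {m a b : ℕ} (h : a + b ≤ m) : TD m (mon a b : k[X][X]) := by
  intro i j hij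
  rw [mon, coeff_C_mul, coeff_X_pow]
  split_ifs with h1
  · rw [mul_one, coeff_X_pow, if_neg (by omega)]
  · simp

lemma TD_C {m : ℕ} {c : k[X]} (hc : ∀ i, m < i → c.coeff i = 0) : TD m (C c : k[X][X]) := by
  intro i j hij
  rw [coeff_C]
  split_ifs with h
  · exact hc i (by omega)
  · simp

lemma TD.modByMonic {n : ℕ} {G : k[X][X]} (hG : G.Monic) (hn : G.natDegree = n) (hGt : TD n G)
    {m : ℕ} : ∀ (D : ℕ) (p : k[X][X]), p.natDegree ≤ D → TD m p → TD m (p %ₘ G) := by
  intro D
  induction D with
  | zero =>
    intro p hpD hp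
    by_cases h0 : p.degree < G.degree
    · rwa [(modByMonic_eq_self_iff hG).2 h0]
    · -- then G = 1
      have h1 : G.natDegree = 0 := by
        by_contra h1
        apply h0
        rw [degree_eq_natDegree hG.ne_zero]
        refine lt_of_le_of_lt (degree_le_natDegree) ?_
        exact_mod_cast lt_of_le_of_lt hpD (Nat.pos_of_ne_zero h1)
      have h2 : G = 1 := hG.natDegree_eq_zero.1 h1
      subst h2
      simpa using TD.zero m
  | succ D ih =>
    intro p hpD hp
    by_cases h0 : p.natDegree < n
    · rwa [(modByMonic_eq_self_iff hG).2]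
      rw [degree_eq_natDegree hG.ne_zero, hn]
      exact lt_of_le_of_lt degree_le_natDegree (by exact_mod_cast h0)
    · push Not at h0
      by_cases hp0 : p = 0
      · subst hp0; simpa using TD.zero m
      set E := p.natDegree with hE
      have hEm : E ≤ m := by
        by_contra hcon
        apply (leadingCoeff_ne_zero.2 hp0)
        rw [leadingCoeff]
        ext i
        rw [coeff_zero]
        exact hp i _ (by omega)
      set c := p.leadingCoeff with hc
      have h1 : TD m (C c * X ^ (E - n) * G) := by
        have e1 : TD (m - E) (C c : k[X][X]) := by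
          apply TD_C
          intro i hi
          rw [hc, leadingCoeff]
          exact hp i _ (by omega)
        have e2 : TD (E - n) (X ^ (E - n) : k[X][X]) := by
          have := TD_mon (k := k) (m := E - n) (a := 0) (b := E - n) (by omega)
          simpa only [mon, pow_zero, C_1, one_mul] using this
        refine TD.mono ?_ ((e1.mul e2).mul hGt)
        omega
      have h2 : (p - C c * X ^ (E - n) * G) %ₘ G = p %ₘ G := by
        rw [sub_modByMonic, mul_self_modByMonic hG, sub_zero]
      rw [← h2]
      apply ih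
      · by_cases hlt : (p - C c * X ^ (E - n) * G) = 0
        · rw [hlt]; simp
        have hdeg : (p - C c * X ^ (E - n) * G).degree < p.degree := by
          apply degree_sub_lt_left
          · rw [hG.degree_mul, degree_C_mul_X_pow _ (leadingCoeff_ne_zero.2 hp0),
              degree_eq_natDegree hG.ne_zero, hn, degree_eq_natDegree hp0, ← hE]
            norm_cast
            omega
          · exact hp0
          · rw [leadingCoeff_mul_monic hG, leadingCoeff_C_mul_X_pow]
        have := natDegree_lt_natDegree hlt hdeg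
        omega
      · exact hp.sub h1

/-! ### The residue functional -/

/-- the coefficient of `X ^ (d - 1) Y ^ (n - 1)` of the remainder modulo `G` -/
noncomputable def res (G : k[X][X]) (n d : ℕ) (p : k[X][X]) : k :=
  ((p %ₘ G).coeff (n - 1)).coeff (d - 1)

section Res

variable (G : k[X][X]) (n d : ℕ)

lemma res_add (p q : k[X][X]) : res G n d (p + q) = res G n d p + res G n d q := by
  simp [res, add_modByMonic]

lemma res_zero : res G n d 0 = 0 := by simp [res]

lemma res_sum {ι : Type*} (s : Finset ι) (f : ι → k[X][X]) :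
    res G n d (∑ i ∈ s, f i) = ∑ i ∈ s, res G n d (f i) := by
  classical
  induction s using Finset.induction_on with
  | empty => simp [res_zero]
  | insert a s ha ih => rw [Finset.sum_insert ha, Finset.sum_insert ha, res_add, ih]

lemma smul_modByMonic' (c : k[X]) (p : k[X][X]) : (C c * p) %ₘ G = C c * (p %ₘ G) := by
  rw [← smul_eq_C_mul, ← smul_eq_C_mul, smul_modByMonic]

lemma res_CC_mul (c : k) (p : k[X][X]) : res G n d (C (C c) * p) = c * res G n d p := by
  rw [res, smul_modByMonic', coeff_C_mul, coeff_C_mul, res]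

lemma res_mul_G (hG : G.Monic) (p : k[X][X]) : res G n d (p * G) = 0 := by
  rw [res, mul_self_modByMonic hG]; simp

lemma res_congr (hG : G.Monic) {p q : k[X][X]} (h : G ∣ p - q) : res G n d p = res G n d q := by
  rw [res, res, modByMonic_eq_of_dvd_sub hG h]

lemma res_Xd_mul (hd : 0 < d) (p : k[X][X]) : res G n d (C (X ^ d) * p) = 0 := by
  rw [res, smul_modByMonic', coeff_C_mul, coeff_X_pow_mul', if_neg (by omega)]

/-- the Horner polynomials -/
noncomputable def horner (j : ℕ) : k[X][X] :=
  ∑ l ∈ Finset.range (n - j), C (G.coeff (l + j + 1)) * X ^ l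

lemma coeff_horner (j b : ℕ) : (horner G n j).coeff b = if b < n - j then G.coeff (b + j + 1)
    else 0 := by
  rw [horner, finsetSum_coeff]
  simp only [coeff_C_mul, coeff_X_pow, mul_ite, mul_one, mul_zero]
  rw [Finset.sum_ite_eq]
  simp

lemma TD_horner (hGt : TD n G) (j : ℕ) (hj : j < n) : TD (n - 1 - j) (horner G n j) := by
  intro a b hab
  rw [coeff_horner]
  split_ifs with h
  · exact hGt _ _ (by omega)
  · simp

/-- the dual basis property -/
lemma res_horner (hG : G.Monic) (hn : G.natDegree = n) {i j : ℕ} (hi : i < n) (hj : j < n) :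
    ((X ^ i * horner G n j) %ₘ G).coeff (n - 1) = if i = j then 1 else 0 := by
  have hGn : G.coeff n = 1 := by rw [← hn]; exact hG
  by_cases hij : i ≤ j
  · have h1 : (X ^ i * horner G n j) %ₘ G = X ^ i * horner G n j := by
      rw [modByMonic_eq_self_iff hG, degree_eq_natDegree hG.ne_zero, hn]
      rw [degree_lt_iff_coeff_zero]
      intro b hb
      rw [coeff_X_pow_mul', coeff_horner]
      split_ifs with h2 h3
      · omega
      · rfl
      · rfl
    rw [h1, coeff_X_pow_mul', coeff_horner, if_pos (by omega)]
    by_cases h : i = j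
    · subst h
      rw [if_pos (by omega), if_pos rfl]
      have : n - 1 - i + i + 1 = n := by omega
      rw [this, hGn]
    · rw [if_neg (by omega), if_neg h]
  · push Not at hij
    rw [if_neg (by omega)]
    -- Y^(j+1) h_j = G - (lower part)
    set L : k[X][X] := ∑ l ∈ Finset.range (j + 1), C (G.coeff l) * X ^ l with hL
    have h1 : X ^ (j + 1) * horner G n j = G - L := by
      have e1 : G = ∑ l ∈ Finset.range (n + 1), C (G.coeff l) * X ^ l := by
        conv_lhs => rw [G.as_sum_range_C_mul_X_pow, hn]
      have e2 : ∑ l ∈ Finset.range (n + 1), C (G.coeff l) * X ^ l =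
          L + ∑ l ∈ Finset.range (n - j), C (G.coeff (j + 1 + l)) * X ^ (j + 1 + l) := by
        have : n + 1 = (j + 1) + (n - j) := by omega
        rw [this, Finset.sum_range_add]
      have e3 : X ^ (j + 1) * horner G n j =
          ∑ l ∈ Finset.range (n - j), C (G.coeff (j + 1 + l)) * X ^ (j + 1 + l) := by
        rw [horner, Finset.mul_sum]
        refine Finset.sum_congr rfl fun l _ => ?_
        rw [pow_add]
        have : l + j + 1 = j + 1 + l := by ring
        rw [this]; ring
      rw [e3]
      rw [← e1] at e2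
      exact eq_sub_of_add_eq' e2.symm
    have h2 : X ^ i * horner G n j = X ^ (i - j - 1) * G - X ^ (i - j - 1) * L := by
      have : X ^ i = (X ^ (i - j - 1) * X ^ (j + 1) : k[X][X]) := by
        rw [← pow_add]; congr 1; omega
      rw [this, mul_assoc, h1, mul_sub]
    have h3 : (X ^ i * horner G n j) %ₘ G = - (X ^ (i - j - 1) * L) := by
      rw [h2, sub_modByMonic, mul_self_modByMonic hG, zero_sub, neg_inj,
        modByMonic_eq_self_iff hG, degree_eq_natDegree hG.ne_zero, hn, degree_lt_iff_coeff_zero]
      intro b hb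
      rw [coeff_X_pow_mul', hL, finsetSum_coeff]
      split_ifs with h
      · refine Finset.sum_eq_zero fun l hl => ?_
        rw [Finset.mem_range] at hl
        rw [coeff_C_mul, coeff_X_pow, if_neg (by omega), mul_zero]
      · rfl
    rw [h3, coeff_neg, coeff_X_pow_mul', neg_eq_zero]
    split_ifs with h
    · rw [hL, finsetSum_coeff]
      refine Finset.sum_eq_zero fun l hl => ?_
      rw [Finset.mem_range] at hl
      rw [coeff_C_mul, coeff_X_pow, if_neg (by omega), mul_zero]
    · rfl

/-- the residue pairing of a monomial and a shifted Horner polynomial -/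
lemma res_dual (hG : G.Monic) (hn : G.natDegree = n) {a i b l : ℕ} (ha : a < d) (hi : i < d)
    (hb : b < n) (hl : l < n) :
    res G n d ((C (X ^ (d - 1 - i)) * horner G n l) * mon a b) =
      if i = a ∧ l = b then 1 else 0 := by
  have h1 : (C (X ^ (d - 1 - i)) * horner G n l) * mon a b =
      C (X ^ (d - 1 - i + a)) * (X ^ b * horner G n l) := by
    rw [mon, pow_add, C_mul]; ring
  rw [h1, res, smul_modByMonic', coeff_C_mul, res_horner G n hG hn hb hl]
  by_cases hbl : b = l
  · subst hbl
    rw [if_pos rfl, mul_one, coeff_X_pow]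
    by_cases hia : i = a
    · subst hia
      rw [if_pos (by omega), if_pos ⟨rfl, rfl⟩]
    · rw [if_neg (by omega), if_neg (by tauto)]
  · rw [if_neg hbl, mul_zero, coeff_zero, if_neg (by tauto)]

/-- a linear functional which kills the multiples of `G` and of `X ^ d` is determined by the
monomials `X ^ a Y ^ b` with `a < d` and `b < n` -/
lemma functional_ext (hG : G.Monic) (hn : G.natDegree = n) (lam : k[X][X] → k)
    (hadd : ∀ p q, lam (p + q) = lam p + lam q) (hsmul : ∀ c p, lam (C (C c) * p) = c * lam p)
    (hlG : ∀ p, lam (p * G) = 0) (hlX : ∀ p, lam (C (X ^ d) * p) = 0)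
    (h0 : ∀ a b, a < d → b < n → lam (mon a b) = 0) : ∀ p, lam p = 0 := by
  have hz : lam 0 = 0 := by simpa using hlG 0
  have hsum : ∀ (s : Finset ℕ) (f : ℕ → k[X][X]), lam (∑ i ∈ s, f i) = ∑ i ∈ s, lam (f i) := by
    intro s f
    classical
    induction s using Finset.induction_on with
    | empty => simp [hz]
    | insert a s ha ih => rw [Finset.sum_insert ha, Finset.sum_insert ha, hadd, ih]
  have h1 : ∀ a b, b < n → lam (mon a b) = 0 := by
    intro a b hb
    by_cases ha : a < d
    · exact h0 a b ha hb
    · have : (mon a b : k[X][X]) = C (X ^ d) * mon (a - d) b := by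
        rw [mon, mon, ← mul_assoc, ← C_mul, ← pow_add]
        congr 3; omega
      rw [this, hlX]
  have h2 : ∀ (c : k[X]) b, b < n → lam (C c * X ^ b) = 0 := by
    intro c b hb
    have : (C c * X ^ b : k[X][X]) =
        ∑ i ∈ Finset.range (c.natDegree + 1), C (C (c.coeff i)) * mon i b := by
      conv_lhs => rw [c.as_sum_range_C_mul_X_pow]
      rw [map_sum, Finset.sum_mul]
      refine Finset.sum_congr rfl fun i _ => ?_
      rw [mon, C_mul, mul_assoc]
    rw [this, hsum]
    refine Finset.sum_eq_zero fun i _ => ?_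
    rw [hsmul, h1 _ _ hb, mul_zero]
  intro p
  have h3 : p = p %ₘ G + (p /ₘ G) * G := by
    conv_lhs => rw [← modByMonic_add_div p G]
    rw [mul_comm G]
  rw [h3, hadd, hlG, add_zero, (p %ₘ G).as_sum_range_C_mul_X_pow, hsum]
  refine Finset.sum_eq_zero fun b _ => ?_
  by_cases hb : b < n
  · exact h2 _ _ hb
  · have h4 : (p %ₘ G).coeff b = 0 := by
      apply coeff_eq_zero_of_degree_lt
      refine lt_of_lt_of_le (degree_modByMonic_lt p hG) ?_
      rw [degree_eq_natDegree hG.ne_zero, hn]
      exact_mod_cast not_lt.1 hb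
    rw [h4, C_0, zero_mul, hz]

/-- **Duality.** -/
theorem exists_dual (hG : G.Monic) (hn : G.natDegree = n) (hGt : TD n G) (hd : 0 < d)
    (lam : k[X][X] → k)
    (hadd : ∀ p q, lam (p + q) = lam p + lam q) (hsmul : ∀ c p, lam (C (C c) * p) = c * lam p)
    (hlG : ∀ p, lam (p * G) = 0) (hlX : ∀ p, lam (C (X ^ d) * p) = 0)
    (μ : ℕ) (hμ : ∀ a b, a + b ≤ μ → lam (mon a b) = 0) :
    ∃ w : k[X][X], (∀ a b, (w.coeff b).coeff a ≠ 0 → a + b + μ + 3 ≤ n + d) ∧
      ∀ p, lam p = res G n d (w * p) := by
  classical
  set w : k[X][X] := ∑ i ∈ Finset.range d, ∑ l ∈ Finset.range n,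
    C (C (lam (mon i l))) * (C (X ^ (d - 1 - i)) * horner G n l) with hw
  refine ⟨w, ?_, ?_⟩
  · intro a b hab
    by_contra hcon
    apply hab
    rw [hw, finsetSum_coeff, finsetSum_coeff]
    refine Finset.sum_eq_zero fun i hi => ?_
    rw [finsetSum_coeff, finsetSum_coeff]
    refine Finset.sum_eq_zero fun l hl => ?_
    rw [Finset.mem_range] at hi hl
    rw [coeff_C_mul, coeff_C_mul]
    by_cases hil : i + l ≤ μ
    · rw [hμ _ _ hil, zero_mul]
    · have h1 : TD (d - 1 - i + (n - 1 - l)) (C (X ^ (d - 1 - i)) * horner G n l) := by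
        refine TD.mul (TD_C fun b hb => ?_) (TD_horner G n hGt l hl)
        rw [coeff_X_pow, if_neg (by omega)]
      rw [h1 _ _ (by omega), mul_zero]
  · intro p
    have key := functional_ext G n d hG hn (fun p => lam p - res G n d (w * p))
      (fun p q => by simp only [hadd, mul_add, res_add]; ring)
      (fun c p => by
        have : w * (C (C c) * p) = C (C c) * (w * p) := by ring
        simp only [hsmul, this, res_CC_mul]; ring)
      (fun p => by simp only [hlG, ← mul_assoc, res_mul_G G n d hG]; ring)
      (fun p => by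
        have : w * (C (X ^ d) * p) = C (X ^ d) * (w * p) := by ring
        simp only [hlX, this, res_Xd_mul G n d hd]; ring)
      (fun a b ha hb => by
        have h1 : w * mon a b = ∑ i ∈ Finset.range d, ∑ l ∈ Finset.range n,
            C (C (lam (mon i l))) * ((C (X ^ (d - 1 - i)) * horner G n l) * mon a b) := by
          rw [hw, Finset.sum_mul]
          refine Finset.sum_congr rfl fun i _ => ?_
          rw [Finset.sum_mul]
          exact Finset.sum_congr rfl fun l _ => by ring
        simp only [h1, res_sum, res_CC_mul]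
        rw [Finset.sum_eq_single a, Finset.sum_eq_single b,
          res_dual G n d hG hn ha ha hb hb, if_pos ⟨rfl, rfl⟩]
        · ring
        · intro l hl hlb
          rw [Finset.mem_range] at hl
          rw [res_dual G n d hG hn ha ha hb hl, if_neg (by tauto), mul_zero]
        · intro h; exact absurd (Finset.mem_range.2 hb) h
        · intro i hi hia
          rw [Finset.mem_range] at hi
          refine Finset.sum_eq_zero fun l hl => ?_
          rw [Finset.mem_range] at hl
          rw [res_dual G n d hG hn ha hi hb hl, if_neg (by tauto), mul_zero]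
        · intro h; exact absurd (Finset.mem_range.2 ha) h) p
    linear_combination key

/-- the residue pairing is nondegenerate -/
theorem eq_zero_of_res (hG : G.Monic) (hn : G.natDegree = n) (hGt : TD n G)
    {D : ℕ} (hD : D < d) {z : k[X][X]} (hz : TD D z) (h : ∀ p, res G n d (p * z) = 0) :
    G ∣ z := by
  rw [← modByMonic_eq_zero_iff_dvd hG]
  have hz' : TD D (z %ₘ G) := TD.modByMonic hG hn hGt z.natDegree z le_rfl hz
  have hlt : ∀ b, n ≤ b → (z %ₘ G).coeff b = 0 := by
    intro b hb
    apply coeff_eq_zero_of_degree_lt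
    refine lt_of_lt_of_le (degree_modByMonic_lt z hG) ?_
    rw [degree_eq_natDegree hG.ne_zero, hn]
    exact_mod_cast hb
  have hrep : z %ₘ G = ∑ b ∈ Finset.range n, C ((z %ₘ G).coeff b) * X ^ b := by
    ext1 c
    rw [finsetSum_coeff]
    simp only [coeff_C_mul, coeff_X_pow, mul_ite, mul_one, mul_zero]
    rw [Finset.sum_ite_eq]
    split_ifs with h1
    · rfl
    · rw [Finset.mem_range, not_lt] at h1
      exact hlt _ h1
  ext b a
  rw [coeff_zero, coeff_zero]
  by_cases hb : b < n
  swap
  · rw [hlt b (by omega), coeff_zero]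
  by_cases ha : D < a + b
  · exact hz' _ _ ha
  have h1 := h (C (X ^ (d - 1 - a)) * horner G n b)
  rw [res_congr G n d hG (q := (C (X ^ (d - 1 - a)) * horner G n b) * (z %ₘ G))] at h1
  swap
  · rw [← mul_sub]
    apply Dvd.dvd.mul_left
    have := dvd_modByMonic_sub z G
    rw [← neg_sub]
    exact (dvd_neg.2 this)
  have h2 : (C (X ^ (d - 1 - a)) * horner G n b) * (z %ₘ G) =
      ∑ c ∈ Finset.range n, C (X ^ (d - 1 - a) * (z %ₘ G).coeff c) * (X ^ c * horner G n b) := by
    conv_lhs => rw [hrep]
    rw [Finset.mul_sum]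
    refine Finset.sum_congr rfl fun c _ => ?_
    rw [C_mul]; ring
  rw [h2, res_sum, Finset.sum_eq_single b] at h1
  · rw [res, smul_modByMonic', coeff_C_mul, res_horner G n hG hn hb hb, if_pos rfl, mul_one,
      coeff_X_pow_mul', if_pos (by omega)] at h1
    have : d - 1 - (d - 1 - a) = a := by omega
    rwa [this] at h1
  · intro c hc hcb
    rw [Finset.mem_range] at hc
    rw [res, smul_modByMonic', coeff_C_mul, res_horner G n hG hn hc hb, if_neg hcb, mul_zero,
      coeff_zero]
  · intro h3; exact absurd (Finset.mem_range.2 hb) h3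

end Res

end Vale.Agent.P287.H270
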