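import Vale.Agent.P287.H270.Homog

/-!
The dimension of the space of forms which vanish on a scroll is at least the value of the Hilbert
polynomial.
-/

namespace Vale.Agent.P287.H270

open Polynomial Matrix

set_option linter.unusedSectionVars false

variable {k : Type*} [Field k]

/-- The vectors of forms of degrees `D + wt j` orthogonal to the plane `W`. -/
def scrollForms {κ : Type*} [Field κ] (φ : MvPolynomial (Fin 3) k →+* κ)
    (W : Submodule κ (Fin 4 → κ)) (wt : Fin 4 → ℕ) (D : ℕ) :
    Submodule k (Fin 4 → MvPolynomial (Fin 3) k) where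
  carrier := {f | (∀ i, (f i).IsHomogeneous (D + wt i)) ∧ ∀ w ∈ W, ∑ i, φ (f i) * w i = 0}
  add_mem' := by
    rintro f f' ⟨h1, h2⟩ ⟨h1', h2'⟩
    refine ⟨fun i => (h1 i).add (h1' i), fun w hw => ?_⟩
    simp only [Pi.add_apply, map_add, add_mul, Finset.sum_add_distrib, h2 w hw, h2' w hw, add_zero]
  zero_mem' := ⟨fun i => MvPolynomial.isHomogeneous_zero _ _ _, fun w _ => by simp⟩
  smul_mem' := by
    rintro c f ⟨h1, h2⟩
    refine ⟨fun i => ?_, fun w hw => ?_⟩
    · rw [Pi.smul_apply, MvPolynomial.smul_eq_C_mul]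
      exact (h1 i).C_mul c
    · have h3 := h2 w hw
      simp only [Pi.smul_apply, MvPolynomial.smul_eq_C_mul, map_mul]
      calc ∑ i, φ (MvPolynomial.C c) * φ (f i) * w i
          = φ (MvPolynomial.C c) * ∑ i, φ (f i) * w i := by
            rw [Finset.mul_sum]
            exact Finset.sum_congr rfl fun i _ => by ring
        _ = 0 := by rw [h3, mul_zero]

section Transport

variable {κ : Type*} [Field κ] [Algebra k κ] (φ : MvPolynomial (Fin 3) k →+* κ)
  (hφC : ∀ c, φ (MvPolynomial.C c) = algebraMap k κ c) (h0 : φ (MvPolynomial.X 0) ≠ 0)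
  (W : Submodule κ (Fin 4 → κ)) (wt : Fin 4 → ℕ)

/-- scaling of the coordinates -/
noncomputable def scaleE (t : κ) (ht : t ≠ 0) (wt : Fin 4 → ℕ) : (Fin 4 → κ) ≃ₗ[κ] (Fin 4 → κ) :=
  LinearEquiv.piCongrRight fun i => LinearEquiv.smulOfNeZero κ κ (t ^ wt i) (pow_ne_zero _ ht)

lemma scaleE_apply (t : κ) (ht : t ≠ 0) (w : Fin 4 → κ) (i : Fin 4) :
    scaleE t ht wt w i = t ^ wt i * w i := rfl

include hφC

lemma mem_scroll_iff (D : ℕ) (bW : Module.Basis (Fin 2) κ (W.map (scaleE _ h0 wt).toLinearMap))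
    {f : Fin 4 → MvPolynomial (Fin 3) k} (hf : ∀ i, (f i).IsHomogeneous (D + wt i)) :
    f ∈ scrollForms φ W wt D ↔
      ∑ j, ev (φ (MvPolynomial.X 1) / φ (MvPolynomial.X 0))
        (φ (MvPolynomial.X 2) / φ (MvPolynomial.X 0)) (dh (f j)) • aW bW j = 0 := by
  rw [rel_iff bW]
  have key : ∀ w : Fin 4 → κ, ∑ i, φ (f i) * w i = φ (MvPolynomial.X 0) ^ D *
      ((fun j => ev (φ (MvPolynomial.X 1) / φ (MvPolynomial.X 0))
        (φ (MvPolynomial.X 2) / φ (MvPolynomial.X 0)) (dh (f j))) ⬝ᵥ (scaleE _ h0 wt w)) := by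
    intro w
    rw [dotProduct, Finset.mul_sum]
    refine Finset.sum_congr rfl fun i _ => ?_
    rw [phi_eq φ hφC h0 (hf i), scaleE_apply, pow_add]
    ring
  constructor
  · rintro ⟨_, h2⟩ w' hw'
    obtain ⟨w, hw, rfl⟩ := hw'
    have h3 := h2 w hw
    rw [key] at h3
    exact (mul_eq_zero.1 h3).resolve_left (pow_ne_zero _ h0)
  · intro h
    refine ⟨hf, fun w hw => ?_⟩
    have h1 := h (scaleE _ h0 wt w) ⟨w, hw, rfl⟩
    rw [key, h1, mul_zero]

lemma finrank_scroll (D : ℕ)
    (bW : Module.Basis (Fin 2) κ (W.map (scaleE _ h0 wt).toLinearMap)) :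
    Module.finrank k (scrollForms φ W wt D) = Module.finrank k (LinearMap.ker
      (evalMap k (φ (MvPolynomial.X 1) / φ (MvPolynomial.X 0))
        (φ (MvPolynomial.X 2) / φ (MvPolynomial.X 0)) wt (aW bW) D)) := by
  let F : scrollForms φ W wt D →ₗ[k] LinearMap.ker
      (evalMap k (φ (MvPolynomial.X 1) / φ (MvPolynomial.X 0))
        (φ (MvPolynomial.X 2) / φ (MvPolynomial.X 0)) wt (aW bW) D) :=
    { toFun := fun f => ⟨fun j => ⟨dh (f.1 j), TD_dh (f.2.1 j)⟩,
        (mem_scroll_iff φ hφC h0 W wt D bW f.2.1).1 f.2⟩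
      map_add' := fun f f' => by
        apply Subtype.ext
        funext j
        apply Subtype.ext
        exact map_add dh _ _
      map_smul' := fun c f => by
        apply Subtype.ext
        funext j
        apply Subtype.ext
        exact map_smul dh c _ }
  refine (LinearEquiv.ofBijective F ⟨?_, ?_⟩).finrank_eq
  · rw [injective_iff_map_eq_zero F]
    intro f hf
    apply Subtype.ext
    funext j
    have h1 : dh (f.1 j) = 0 := congrArg (fun p => (p.1 j).1) hf
    exact dh_inj (f.2.1 j) h1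
  · intro p
    have hd : ∀ j, dh (hm (D + wt j) (p.1 j).1) = (p.1 j).1 := fun j => dh_hm (p.1 j).2
    refine ⟨⟨fun j => hm (D + wt j) (p.1 j).1,
      (mem_scroll_iff φ hφC h0 W wt D bW fun j => hm_homogeneous _ _).2 ?_⟩, ?_⟩
    · simp only [hd]
      exact p.2
    · apply Subtype.ext
      funext j
      apply Subtype.ext
      exact hd j

end Transport

section Monic

lemma hdot {A : Type*} [CommRing A] (N : Matrix (Fin 4) (Fin 4) A) (v : Fin 4 → A) :
    v ⬝ᵥ (N *ᵥ v) = ∑ i, ∑ j, N i j * v i * v j := by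
  simp only [dotProduct, mulVec, Finset.mul_sum]
  refine Finset.sum_congr rfl fun i _ => Finset.sum_congr rfl fun j _ => by ring

variable {κ : Type*} [Field κ]

theorem main_monic (φ : MvPolynomial (Fin 3) k →+* κ) (n : ℕ) (g : MvPolynomial (Fin 3) k)
    (hgn : g.IsHomogeneous n) (hg1 : ((dh g).coeff n).coeff 0 = 1)
    (hφ : ∀ p, φ p = 0 ↔ g ∣ p) (wt : Fin 4 → ℕ) (W : Submodule κ (Fin 4 → κ))
    (hW : Module.finrank κ W = 2) (M : Matrix (Fin 4) (Fin 4) (MvPolynomial (Fin 3) k))
    (hM : ∀ i j, (M i j).IsHomogeneous (1 + wt i + wt j))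
    (hiso : ∀ w ∈ W, w ⬝ᵥ (M.map φ *ᵥ w) = 0)
    (haniso : ∀ v : Fin 4 → MvPolynomial (Fin 3) k, v ⬝ᵥ (M *ᵥ v) = 0 → v = 0)
    (r : ℕ) (hnr : n ≤ 2 * r + 4) (C0 : ℤ)
    (hfreq : ∀ N : ℕ, ∃ D ≥ N, (∑ j, ((D + wt j + 2).choose 2 : ℤ)) - 2 * n * D - C0 ≤
      Module.finrank k (scrollForms φ W wt D)) :
    (∑ j, ((r + wt j + 2).choose 2 : ℤ)) - 2 * n * r - C0 ≤
      Module.finrank k (scrollForms φ W wt r) := by
  classical
  let _ : Algebra k κ := (φ.comp MvPolynomial.C).toAlgebra
  have hφC : ∀ c, φ (MvPolynomial.C c) = algebraMap k κ c := fun c => rfl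
  have hg0 : g ≠ 0 := by
    intro h
    rw [h, map_zero, coeff_zero, coeff_zero] at hg1
    exact one_ne_zero hg1.symm
  set G := dh g with hG
  have hGt : TD n G := TD_dh hgn
  have hGn : G.coeff n = 1 := by
    ext i
    by_cases hi : i = 0
    · rw [hi, hg1, coeff_one_zero]
    · rw [hGt _ _ (by omega), coeff_one, if_neg hi]
  have hGdeg : G.natDegree = n := by
    apply le_antisymm
    · rw [natDegree_le_iff_coeff_eq_zero]
      intro j hj
      ext i
      rw [hGt _ _ (by omega), coeff_zero]
    · apply le_natDegree_of_ne_zero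
      rw [hGn]; exact one_ne_zero
  have hGm : G.Monic := by rw [Monic, leadingCoeff, hGdeg, hGn]
  have h0 : φ (MvPolynomial.X 0) ≠ 0 := by
    intro h
    rw [hφ] at h
    have h1 := map_dvd dh h
    have h2 : dh (MvPolynomial.X 0 : MvPolynomial (Fin 3) k) = 1 := by simp [dh]
    rw [h2] at h1
    have h3 : G = 1 := hGm.eq_one_of_isUnit (isUnit_of_dvd_one h1)
    have h4 : n = 0 := by rw [← hGdeg, h3, natDegree_one]
    have h5 : g - 1 = 0 := by
      apply dh_inj (m := 0)
      · rw [h4] at hgn
        exact hgn.sub (MvPolynomial.isHomogeneous_one _ _)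
      · rw [map_sub, map_one, ← hG, h3, sub_self]
    have h6 := (hφ 1).2 (by rw [sub_eq_zero.1 h5])
    rw [map_one] at h6
    exact one_ne_zero h6
  set x := φ (MvPolynomial.X 1) / φ (MvPolynomial.X 0) with hx
  set y := φ (MvPolynomial.X 2) / φ (MvPolynomial.X 0) with hy
  have hGev : ∀ p : k[X][X], ev x y p = 0 ↔ G ∣ p := by
    intro p
    constructor
    · intro hp
      obtain ⟨m, hmp⟩ := exists_TD p
      have h1 : φ (hm m p) = 0 := by
        rw [phi_eq φ hφC h0 (hm_homogeneous m p), dh_hm hmp, hp, mul_zero]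
      rw [hφ] at h1
      have h2 := map_dvd dh h1
      rwa [dh_hm hmp] at h2
    · intro h
      have h1 : ev x y G = 0 := by
        have h2 := phi_eq φ hφC h0 hgn
        rw [(hφ g).2 dvd_rfl] at h2
        exact (mul_eq_zero.1 h2.symm).resolve_left (pow_ne_zero _ h0)
      obtain ⟨q, rfl⟩ := h
      rw [map_mul, h1, zero_mul]
  set E := scaleE _ h0 wt with hE
  set W' := W.map E.toLinearMap with hW'
  have hfin : Module.finrank κ W' = 2 := by
    rw [hW', ← hW]
    exact LinearEquiv.finrank_map_eq E W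
  let bW : Module.Basis (Fin 2) κ W' := Module.finBasisOfFinrankEq κ W' hfin
  have hfr : ∀ D, (Module.finrank k (Vm k x y wt (aW bW) D) : ℤ) +
      Module.finrank k (scrollForms φ W wt D) = ∑ j, ((D + wt j + 2).choose 2 : ℤ) := by
    intro D
    rw [finrank_scroll φ hφC h0 W wt D bW]
    exact_mod_cast finrank_ker_evalMap k x y wt (aW bW) D
  have main := affine_main x y G n hGm hGdeg hGt hGev wt r hnr bW (M.map dh)
    (fun i j => TD_dh (hM i j)) (by
      rintro w' ⟨w, hw, rfl⟩
      have h1 := hiso w hw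
      rw [hdot] at h1
      have h2 : ∀ i j, (M.map φ) i j * w i * w j = φ (MvPolynomial.X 0) *
          (ev x y ((M.map dh) i j) * E w i * E w j) := by
        intro i j
        rw [Matrix.map_apply, Matrix.map_apply, phi_eq φ hφC h0 (hM i j), hE, scaleE_apply,
          scaleE_apply, pow_add, pow_add, pow_one]
        ring
      simp only [h2, ← Finset.mul_sum] at h1
      exact (mul_eq_zero.1 h1).resolve_left h0) (by
      intro w hw
      choose Dw hDw using fun j => exists_TD (w j)
      set T := ∑ j, (Dw j + wt j) with hT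
      have hle : ∀ j, Dw j + wt j ≤ T := fun j =>
        Finset.single_le_sum (f := fun j => Dw j + wt j) (fun _ _ => Nat.zero_le _)
          (Finset.mem_univ j)
      set v : Fin 4 → MvPolynomial (Fin 3) k := fun j => hm (T - wt j) (w j) with hv
      have hvd : ∀ j, dh (v j) = w j := fun j =>
        dh_hm ((hDw j).mono (by have := hle j; omega))
      have hz : v ⬝ᵥ (M *ᵥ v) = 0 := by
        rw [hdot]
        apply dh_inj (m := 1 + 2 * T)
        · refine MvPolynomial.IsHomogeneous.sum _ _ _ fun i _ =>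
            MvPolynomial.IsHomogeneous.sum _ _ _ fun j _ => ?_
          have h1 := ((hM i j).mul (hm_homogeneous (T - wt i) (w i))).mul
            (hm_homogeneous (T - wt j) (w j))
          have h2 : 1 + wt i + wt j + (T - wt i) + (T - wt j) = 1 + 2 * T := by
            have := hle i
            have := hle j
            omega
          rwa [h2] at h1
        · rw [map_sum]
          simp only [map_sum, map_mul, hvd]
          exact hw
      have h3 := haniso v hz
      intro i
      rw [← hvd i, h3, Pi.zero_apply, map_zero]) C0 (by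
      intro N
      obtain ⟨D, hD, hle⟩ := hfreq N
      refine ⟨D, hD, ?_⟩
      have := hfr D
      linarith)
  have := hfr r
  linarith

end Monic

/-! ### General coordinates -/

section General

/-- a linear change of coordinates -/
noncomputable def shear (α β : k) : MvPolynomial (Fin 3) k →ₐ[k] MvPolynomial (Fin 3) k :=
  MvPolynomial.aeval ![MvPolynomial.X 0 + MvPolynomial.C α * MvPolynomial.X 2,
    MvPolynomial.X 1 + MvPolynomial.C β * MvPolynomial.X 2, MvPolynomial.X 2]

lemma shear_shear (α β : k) (p : MvPolynomial (Fin 3) k) : shear (-α) (-β) (shear α β p) = p := by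
  have h : (shear (-α) (-β)).comp (shear α β) = AlgHom.id k _ := by
    apply MvPolynomial.algHom_ext
    intro i
    rw [AlgHom.comp_apply, AlgHom.id_apply]
    fin_cases i <;> simp [shear, MvPolynomial.algebraMap_eq]
  exact DFunLike.congr_fun h p

lemma shear_homogeneous (α β : k) {p : MvPolynomial (Fin 3) k} {n : ℕ} (hp : p.IsHomogeneous n) :
    (shear α β p).IsHomogeneous n := by
  have h := hp.aeval (τ := Fin 3) (S := k) ![MvPolynomial.X 0 + MvPolynomial.C α * MvPolynomial.X 2,
    MvPolynomial.X 1 + MvPolynomial.C β * MvPolynomial.X 2, MvPolynomial.X 2] (n := 1) (by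
      intro i
      fin_cases i
      · exact (MvPolynomial.isHomogeneous_X _ _).add ((MvPolynomial.isHomogeneous_X _ _).C_mul _)
      · exact (MvPolynomial.isHomogeneous_X _ _).add ((MvPolynomial.isHomogeneous_X _ _).C_mul _)
      · exact MvPolynomial.isHomogeneous_X _ _)
  rw [one_mul] at h
  exact h

lemma eval_shear (α β : k) (p : MvPolynomial (Fin 3) k) :
    MvPolynomial.eval ![0, 0, 1] (shear α β p) = MvPolynomial.eval ![α, β, 1] p := by
  have h : (MvPolynomial.aeval ![0, 0, 1] : MvPolynomial (Fin 3) k →ₐ[k] k).comp (shear α β) =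
      MvPolynomial.aeval ![α, β, 1] := by
    apply MvPolynomial.algHom_ext
    intro i
    rw [AlgHom.comp_apply]
    fin_cases i <;> simp [shear]
  have h1 := DFunLike.congr_fun h p
  rw [AlgHom.comp_apply] at h1
  exact h1

lemma coeff_dh_top {n : ℕ} {g : MvPolynomial (Fin 3) k} (hg : g.IsHomogeneous n) :
    ((dh g).coeff n).coeff 0 = MvPolynomial.eval ![0, 0, 1] g := by
  rw [coeff_dh, MvPolynomial.eval_eq']
  refine Finset.sum_congr rfl fun s hs => ?_
  have h1 := sum_of_mem_support hg hs
  rw [Fin.prod_univ_three]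
  by_cases h : 0 = s 1 ∧ n = s 2
  · have h2 : s 0 = 0 := by omega
    rw [if_pos h, h2, ← h.1]
    simp
  · rw [if_neg h]
    by_cases h2 : s 1 = 0
    · have h3 : s 0 ≠ 0 := by
        intro h3
        apply h
        omega
      simp [h3]
    · simp [h2]

lemma eval_scale {n : ℕ} {g : MvPolynomial (Fin 3) k} (hg : g.IsHomogeneous n) (c : k)
    (z : Fin 3 → k) : MvPolynomial.eval (c • z) g = c ^ n * MvPolynomial.eval z g := by
  rw [MvPolynomial.eval_eq', MvPolynomial.eval_eq', Finset.mul_sum]
  refine Finset.sum_congr rfl fun s hs => ?_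
  have h1 := sum_of_mem_support hg hs
  rw [Fin.prod_univ_three, Fin.prod_univ_three, ← h1]
  simp only [Pi.smul_apply, smul_eq_mul, mul_pow, pow_add]
  ring

lemma exists_shear [Infinite k] {n : ℕ} {g : MvPolynomial (Fin 3) k} (hg : g.IsHomogeneous n)
    (hg0 : g ≠ 0) : ∃ α β : k, MvPolynomial.eval ![α, β, 1] g ≠ 0 := by
  have h1 : g * MvPolynomial.X 2 ≠ 0 := mul_ne_zero hg0 (MvPolynomial.X_ne_zero _)
  have h2 : ∃ z, MvPolynomial.eval z (g * MvPolynomial.X 2) ≠ 0 := by
    by_contra hcon
    push Not at hcon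
    apply h1
    apply MvPolynomial.funext
    intro z
    rw [hcon z, map_zero]
  obtain ⟨z, hz⟩ := h2
  rw [map_mul, MvPolynomial.eval_X] at hz
  have hz2 := right_ne_zero_of_mul hz
  refine ⟨z 0 / z 2, z 1 / z 2, fun h => ?_⟩
  apply left_ne_zero_of_mul hz
  have h3 : z = z 2 • ![z 0 / z 2, z 1 / z 2, 1] := by
    ext i
    fin_cases i
    · simp only [Fin.zero_eta, Pi.smul_apply, smul_eq_mul]
      change z 0 = z 2 * (z 0 / z 2)
      field_simp
    · simp only [Pi.smul_apply, smul_eq_mul]
      change z 1 = z 2 * (z 1 / z 2)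
      field_simp
    · simp only [Pi.smul_apply, smul_eq_mul]
      change z 2 = z 2 * 1
      ring
  rw [h3, eval_scale hg, h, mul_zero]

variable {κ : Type*} [Field κ]

/-- **The Riemann-Roch inequality for scroll forms.** -/
theorem main_general [Infinite k] (φ : MvPolynomial (Fin 3) k →+* κ) (n : ℕ)
    (g : MvPolynomial (Fin 3) k) (hg0 : g ≠ 0) (hgn : g.IsHomogeneous n)
    (hφ : ∀ p, φ p = 0 ↔ g ∣ p) (wt : Fin 4 → ℕ) (W : Submodule κ (Fin 4 → κ))
    (hW : Module.finrank κ W = 2) (M : Matrix (Fin 4) (Fin 4) (MvPolynomial (Fin 3) k))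
    (hM : ∀ i j, (M i j).IsHomogeneous (1 + wt i + wt j))
    (hiso : ∀ w ∈ W, w ⬝ᵥ (M.map φ *ᵥ w) = 0)
    (haniso : ∀ v : Fin 4 → MvPolynomial (Fin 3) k, v ⬝ᵥ (M *ᵥ v) = 0 → v = 0)
    (r : ℕ) (hnr : n ≤ 2 * r + 4) (C0 : ℤ)
    (hfreq : ∀ N : ℕ, ∃ D ≥ N, (∑ j, ((D + wt j + 2).choose 2 : ℤ)) - 2 * n * D - C0 ≤
      Module.finrank k (scrollForms φ W wt D)) :
    (∑ j, ((r + wt j + 2).choose 2 : ℤ)) - 2 * n * r - C0 ≤
      Module.finrank k (scrollForms φ W wt r) := by
  obtain ⟨α, β, hαβ⟩ := exists_shear hgn hg0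
  set c := MvPolynomial.eval ![α, β, 1] g with hc
  let S : MvPolynomial (Fin 3) k →ₐ[k] MvPolynomial (Fin 3) k := shear α β
  let S' : MvPolynomial (Fin 3) k →ₐ[k] MvPolynomial (Fin 3) k := shear (-α) (-β)
  have hSS' : ∀ p, S' (S p) = p := shear_shear α β
  have hS'S : ∀ p, S (S' p) = p := by
    intro p
    have := shear_shear (-α) (-β) p
    rwa [neg_neg, neg_neg] at this
  set φ' : MvPolynomial (Fin 3) k →+* κ := φ.comp (S' : MvPolynomial (Fin 3) k →+* _) with hφ'
  have hφ'S : ∀ p, φ' (S p) = φ p := fun p => by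
    rw [hφ', RingHom.comp_apply]
    exact congrArg φ (hSS' p)
  have hfr : ∀ D, Module.finrank k (scrollForms φ' W wt D) =
      Module.finrank k (scrollForms φ W wt D) := by
    intro D
    have hmem : ∀ f : Fin 4 → MvPolynomial (Fin 3) k, f ∈ scrollForms φ W wt D →
        (fun j => S (f j)) ∈ scrollForms φ' W wt D := by
      rintro f ⟨h1, h2⟩
      refine ⟨fun i => shear_homogeneous α β (h1 i), fun w hw => ?_⟩
      simp only [hφ'S]
      exact h2 w hw
    have hmem' : ∀ f : Fin 4 → MvPolynomial (Fin 3) k, f ∈ scrollForms φ' W wt D →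
        (fun j => S' (f j)) ∈ scrollForms φ W wt D := by
      rintro f ⟨h1, h2⟩
      refine ⟨fun i => shear_homogeneous (-α) (-β) (h1 i), fun w hw => ?_⟩
      exact h2 w hw
    let e : scrollForms φ W wt D ≃ₗ[k] scrollForms φ' W wt D :=
      { toFun := fun f => ⟨fun j => S (f.1 j), hmem f.1 f.2⟩
        map_add' := fun f f' => by
          apply Subtype.ext
          funext j
          exact map_add S _ _
        map_smul' := fun c f => by
          apply Subtype.ext
          funext j
          exact map_smul S c _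
        invFun := fun f => ⟨fun j => S' (f.1 j), hmem' f.1 f.2⟩
        left_inv := fun f => by
          apply Subtype.ext
          funext j
          exact hSS' _
        right_inv := fun f => by
          apply Subtype.ext
          funext j
          exact hS'S _ }
    exact e.finrank_eq.symm
  have key := main_monic φ' n (MvPolynomial.C c⁻¹ * S g) ((shear_homogeneous α β hgn).C_mul _) (by
      rw [coeff_dh_top ((shear_homogeneous α β hgn).C_mul _), map_mul, MvPolynomial.eval_C]
      rw [eval_shear, ← hc, inv_mul_cancel₀ hαβ]) (by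
      intro p
      rw [hφ', RingHom.comp_apply]
      change φ (S' p) = 0 ↔ _
      rw [hφ]
      constructor
      · rintro ⟨q, hq⟩
        refine ⟨MvPolynomial.C c * S q, ?_⟩
        rw [← hS'S p, hq, map_mul]
        have : MvPolynomial.C c⁻¹ * MvPolynomial.C c = (1 : MvPolynomial (Fin 3) k) := by
          rw [← map_mul, inv_mul_cancel₀ hαβ, map_one]
        linear_combination (-(S g * S q)) * this
      · rintro ⟨q, rfl⟩
        rw [map_mul, map_mul, hSS']
        exact Dvd.dvd.mul_right (Dvd.dvd.mul_left dvd_rfl _) _) wt W hW (M.map S)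
    (fun i j => shear_homogeneous α β (hM i j)) (by
      intro w hw
      have h1 : (M.map S).map φ' = M.map φ := by
        ext i j
        exact hφ'S _
      rw [h1]
      exact hiso w hw) (by
      intro v hv
      have h1 : (fun j => S' (v j)) = 0 := by
        apply haniso
        rw [hdot] at hv ⊢
        have h2 := congrArg S' hv
        rw [map_zero, map_sum] at h2
        rw [← h2]
        refine Finset.sum_congr rfl fun i _ => ?_
        rw [map_sum]
        refine Finset.sum_congr rfl fun j _ => ?_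
        rw [map_mul, map_mul, Matrix.map_apply]
        rw [hSS']
      funext j
      have h2 := congrFun h1 j
      change S' (v j) = 0 at h2
      rw [← hS'S (v j), h2, map_zero, Pi.zero_apply]) r hnr C0 (by
      intro N
      obtain ⟨D, hD, hle⟩ := hfreq N
      exact ⟨D, hD, by rw [hfr]; exact hle⟩)
  rw [hfr] at key
  exact key

end General

end Vale.Agent.P287.H270
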