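import Vale.Agent.P287.Theta.GoodCoords
import Vale.Agent.P287.H684.Inf
import Vale.Agent.P287.H684.BC1

/-!
Coordinates in which the line at infinity and the line `p = 0` avoid the common zeros of a plane
curve `g = 0` and a form `h`, and `g` is monic.
-/

namespace Vale.Agent.P287.H270.OddCoord

open Polynomial Vale.Agent.P287 Vale.Agent.P287.Theta Vale.Agent.P287.Odd

lemma Wd_dh {P : R3} {m : ℕ} (hP : P.IsHomogeneous m) : Wd m (dh P) := by
  rw [H684.Wd_iff_TW]
  exact (TD_iff m _).mp (TD_dh hP)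

lemma top_dh' {P : R3} {m : ℕ} (hP : P.IsHomogeneous m) :
    H684.top m (dh P) = MvPolynomial.aeval ![0, 1, X] P := by
  rw [← top_dh hP]
  ext j
  rw [H684.coeff_top]
  exact (coeff_Th (dh P) m j).symm

lemma coeff_dh_last {P : R3} {n : ℕ} (hP : P.IsHomogeneous n) :
    (dh P).coeff n = C (MvPolynomial.eval ![0, 0, 1] P) := by
  have h1 : ((dh P).coeff n).coeff 0 = MvPolynomial.eval ![0, 0, 1] P := by
    rw [coeff_dh, MvPolynomial.eval_eq']
    refine Finset.sum_congr rfl fun d hd => ?_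
    have hs := homog_sum hP hd
    rw [Fin.prod_univ_three]
    simp only [Matrix.cons_val_zero, Matrix.cons_val_one, Matrix.cons_val_two, Matrix.tail_cons,
      Matrix.head_cons, one_pow, mul_one]
    by_cases h2 : d 2 = n
    · rw [if_pos h2, if_pos (by omega), show d 0 = 0 by omega, show d 1 = 0 by omega, pow_zero,
        one_mul, mul_one]
    · rw [if_neg h2]
      by_cases h0 : d 0 = 0
      · rw [zero_pow (show d 1 ≠ 0 by omega), mul_zero, mul_zero]
      · rw [zero_pow h0, zero_mul, mul_zero]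
  have h2 := TD_dh hP
  by_cases h0 : (dh P).coeff n = 0
  · rw [h0, coeff_zero] at h1
    rw [h0, ← h1, C_0]
  · have h4 := (TD_iff n _).mp h2 n h0
    rw [eq_C_of_natDegree_eq_zero (show ((dh P).coeff n).natDegree = 0 by omega), h1]

lemma natDegree_dh_le' {P : R3} {n : ℕ} (hP : P.IsHomogeneous n) : (dh P).natDegree ≤ n := by
  rw [natDegree_le_iff_coeff_eq_zero]
  intro j hj
  by_contra h0
  have := (TD_iff n _).mp (TD_dh hP) j h0
  omega

/-- a polynomial which vanishes on the line `p = 0` -/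
lemma CX_dvd {w : ℂ[X][X]} (h : w.map (evalRingHom 0) = 0) : C X ∣ w := by
  rw [C_dvd_iff_dvd_coeff]
  intro j
  rw [X_dvd_iff, coeff_zero_eq_eval_zero]
  have h1 := congrArg (fun q => q.coeff j) h
  simpa [coeff_map] using h1

/-- a Bezout identity on the line `p = 0` -/
lemma line_of_bezout {a b : ℂ[X]} {G H : ℂ[X][X]}
    (h : a * H.map (evalRingHom 0) + b * G.map (evalRingHom 0) = 1) :
    ∃ α β γ : ℂ[X][X], α * H + β * G + γ * C X = 1 := by
  have h4 : ∀ q : ℂ[X], (q.map (C : ℂ →+* ℂ[X])).map (evalRingHom 0) = q := by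
    intro q
    rw [Polynomial.map_map]
    have : (evalRingHom (0 : ℂ)).comp C = RingHom.id ℂ := by
      ext a
      simp
    rw [this, Polynomial.map_id]
  have h3 : (a.map C * H + b.map C * G - 1).map (evalRingHom 0) = 0 := by
    rw [Polynomial.map_sub, Polynomial.map_add, Polynomial.map_mul, Polynomial.map_mul, h4, h4,
      Polynomial.map_one, h, sub_self]
  obtain ⟨γ, hγ⟩ := CX_dvd h3
  exact ⟨a.map C, b.map C, -γ, by linear_combination hγ⟩

/-- Good coordinates for the pair `g, h`. -/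
structure Coords (g h : R3) (n d : ℕ) (T S : Matrix (Fin 3) (Fin 3) ℂ) (v : ℂ) : Prop where
  inv : T * S = 1
  v_ne : v ≠ 0
  monic : (C (C v) * dh (sb T g)).Monic
  deg : (C (C v) * dh (sb T g)).natDegree = n
  inf : IsCoprime (H684.top n (C (C v) * dh (sb T g))) (H684.top d (dh (sb T h)))
  line : ∃ α β γ : ℂ[X][X], α * dh (sb T h) + β * (C (C v) * dh (sb T g)) + γ * C X = 1

theorem exists_coords_pair {g h : R3} {n d : ℕ} (hg : g.IsHomogeneous n) (hn : 2 ≤ n)
    (hgi : Irreducible g) (hh : h.IsHomogeneous d) (hgh : ¬ g ∣ h) :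
    ∃ (T S : Matrix (Fin 3) (Fin 3) ℂ) (v : ℂ), Coords g h n d T S v := by
  obtain ⟨P, hP⟩ : ∃ P : Fin 3 → ℂ, MvPolynomial.eval P g ≠ 0 := by
    by_contra hcon
    push Not at hcon
    apply hgi.ne_zero
    apply MvPolynomial.funext
    intro P
    rw [hcon, map_zero]
  have hP0 : P ≠ 0 := by
    rintro rfl
    apply hP
    have h1 : MvPolynomial.eval (0 : Fin 3 → ℂ) g = MvPolynomial.constantCoeff g := by
      rw [MvPolynomial.eval_zero]
    rw [h1, MvPolynomial.constantCoeff_eq]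
    exact hg.coeff_eq_zero (by rw [map_zero]; omega)
  obtain ⟨T1, S1, hT1, hT1P⟩ := exists_matrix hP0
  set g1 := sb T1 g with hg1
  set h1 := sb T1 h with hh1
  have hg1h : g1.IsHomogeneous n := sb_homog T1 hg
  have hg1i : Irreducible g1 := sb_irreducible hT1 hgi
  have hgh1 : ¬ g1 ∣ h1 := fun h => hgh ((sb_dvd_iff hT1).mp h)
  set c := MvPolynomial.eval ![0, 0, 1] g1 with hc
  have hc0 : c ≠ 0 := by rw [hc, hg1, eval_sb, hT1P]; exact hP
  set p := dh g1 with hp
  have hpp : Prime p := prime_dh hg1h hn hg1i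
  have hpc : p.coeff n = C c := coeff_dh_last hg1h
  have hpd : p.natDegree = n := natDegree_eq_of_le_of_coeff_ne_zero (natDegree_dh_le' hg1h)
    (by rw [hpc, Ne, C_eq_zero]; exact hc0)
  obtain ⟨u, v, b, hb, hbe⟩ := exists_bezout (q := dh h1) hpp (by omega)
    (fun h => hgh1 (dvd_of_dh_dvd' hg1h hn hg1i (sb_homog T1 hh) h))
  obtain ⟨x0, hx0⟩ : ∃ x0 : ℂ, b.eval x0 ≠ 0 := by
    by_contra hcon
    push Not at hcon
    apply hb
    apply Polynomial.funext
    intro x
    rw [hcon, eval_zero]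
  obtain ⟨x1, hx1⟩ : ∃ x1 : ℂ, (b * (X - C x0)).eval x1 ≠ 0 := by
    by_contra hcon
    push Not at hcon
    apply mul_ne_zero hb (X_sub_C_ne_zero x0)
    apply Polynomial.funext
    intro x
    rw [hcon, eval_zero]
  rw [eval_mul] at hx1
  have hbx1 : b.eval x1 ≠ 0 := left_ne_zero_of_mul hx1
  have hx01 : x0 - x1 ≠ 0 := by
    have h2 := right_ne_zero_of_mul hx1
    intro h3
    apply h2
    rw [eval_sub, eval_X, eval_C]
    linear_combination -h3
  let T2 : Matrix (Fin 3) (Fin 3) ℂ := !![1, 1, 0; x1, x0, 0; 0, 0, 1]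
  have hdet : IsUnit T2.det := by
    rw [isUnit_iff_ne_zero, Matrix.det_fin_three]
    simpa [T2] using hx01
  have hT2 : T2 * T2⁻¹ = 1 := Matrix.mul_nonsing_inv _ hdet
  have htop : ∀ P : R3, MvPolynomial.aeval ![0, 1, X] (sb T2 P) =
      (dh P).map (evalRingHom x0) := by
    intro P
    rw [map_dh, aeval_sb]
    have h2 : (fun i => ∑ j, C (T2 i j) * (![0, 1, X] : Fin 3 → ℂ[X]) j) = ![1, C x0, X] := by
      funext i
      fin_cases i <;> simp [T2, Fin.sum_univ_three]
    rw [h2]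
  have hline : ∀ P : R3, (dh (sb T2 P)).map (evalRingHom 0) = (dh P).map (evalRingHom x1) := by
    intro P
    rw [map_dh, map_dh, aeval_sb]
    have h2 : (fun i => ∑ j, C (T2 i j) * (![1, C 0, X] : Fin 3 → ℂ[X]) j) = ![1, C x1, X] := by
      funext i
      fin_cases i <;> simp [T2, Fin.sum_univ_three]
    rw [h2]
  have hg2 : (sb T2 g1).IsHomogeneous n := sb_homog T2 hg1h
  have hh2 : (sb T2 h1).IsHomogeneous d := sb_homog T2 (sb_homog T1 hh)
  have hcoef : (dh (sb T2 g1)).coeff n = C c := by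
    have h2 : T2.mulVec ![0, 0, 1] = ![0, 0, 1] := by
      funext i
      fin_cases i <;> simp [T2, Matrix.mulVec, dotProduct, Fin.sum_univ_three]
    rw [coeff_dh_last hg2, eval_sb, hc, h2]
  have hcoef' : (C (C c⁻¹) * dh (sb T2 g1)).coeff n = 1 := by
    rw [coeff_C_mul, hcoef, ← C_mul, inv_mul_cancel₀ hc0, C_1]
  have hnat : (C (C c⁻¹) * dh (sb T2 g1)).natDegree ≤ n :=
    (natDegree_C_mul_le _ _).trans (natDegree_dh_le' hg2)
  have hbez : ∀ x : ℂ, p.map (evalRingHom x) * u.map (evalRingHom x) +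
      (dh h1).map (evalRingHom x) * v.map (evalRingHom x) = C (b.eval x) := by
    intro x
    have h2 := congrArg (Polynomial.map (evalRingHom x)) hbe
    rwa [Polynomial.map_add, Polynomial.map_mul, Polynomial.map_mul, map_C,
      coe_evalRingHom] at h2
  have hCC : ∀ a : ℂ, a ≠ 0 → (C a⁻¹ * C a : ℂ[X]) = 1 := by
    intro a ha
    rw [← C_mul, inv_mul_cancel₀ ha, C_1]
  have hc0' : c⁻¹ ≠ 0 := inv_ne_zero hc0
  refine ⟨T1 * T2, T2⁻¹ * S1, c⁻¹, ?_⟩
  have e1 : sb (T1 * T2) g = sb T2 g1 := by rw [hg1, sb_sb]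
  have e2 : sb (T1 * T2) h = sb T2 h1 := by rw [hh1, sb_sb]
  refine ⟨?_, hc0', ?_, ?_, ?_, ?_⟩
  · rw [← mul_assoc, mul_assoc T1, hT2, mul_one, hT1]
  · rw [e1]
    exact monic_of_natDegree_le_of_coeff_eq_one n hnat hcoef'
  · rw [e1]
    exact natDegree_eq_of_le_of_coeff_ne_zero hnat (by rw [hcoef']; exact one_ne_zero)
  · rw [e1, e2, top_dh' hh2]
    have e3 : H684.top n (C (C c⁻¹) * dh (sb T2 g1)) =
        C c⁻¹ * MvPolynomial.aeval ![0, 1, X] (sb T2 g1) := by
      rw [← top_dh' hg2]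
      ext j
      rw [coeff_C_mul, H684.coeff_top, H684.coeff_top, coeff_C_mul, coeff_C_mul, mul_ite, mul_zero]
    rw [e3, htop, htop]
    refine ⟨u.map (evalRingHom x0) * C c * C (b.eval x0)⁻¹,
      v.map (evalRingHom x0) * C (b.eval x0)⁻¹, ?_⟩
    linear_combination (C (b.eval x0)⁻¹) * (hbez x0) + hCC _ hx0 +
      (u.map (evalRingHom x0) * C (b.eval x0)⁻¹ * p.map (evalRingHom x0)) * hCC _ hc0
  · rw [e1, e2]
    refine line_of_bezout (a := v.map (evalRingHom x1) * C (b.eval x1)⁻¹)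
      (b := u.map (evalRingHom x1) * C c * C (b.eval x1)⁻¹) ?_
    rw [Polynomial.map_mul, hline, hline, map_C, coe_evalRingHom, eval_C]
    linear_combination (C (b.eval x1)⁻¹) * (hbez x1) + hCC _ hbx1 +
      (u.map (evalRingHom x1) * C (b.eval x1)⁻¹ * p.map (evalRingHom x1)) * hCC _ hc0

end Vale.Agent.P287.H270.OddCoord
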