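import Vale.Agent.P287.Theta.Coord
import Vale.Agent.P287.H684.Dim
import Vale.Agent.P287.Theta.QuadMap

/-!
A plane curve `g = 0` of degree `n` and a symmetric matrix of quadrics `A`: there is a vector `ν` of
forms of degree `n`, not divisible by `g`, isotropic for `A` along the curve.
-/

namespace Vale.Agent.P287.H270.OddT

open MvPolynomial Module Matrix Vale.Agent.P287 Vale.Agent.P287.Theta

/-- the forms of degree `k` -/
abbrev Hk (k : ℕ) : Submodule ℂ R3 := homogeneousSubmodule (Fin 3) ℂ k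

/-- multiplication by `g` on the forms of degree `k` -/
noncomputable def mulG {g : R3} {n : ℕ} (hg : g.IsHomogeneous n) (k : ℕ) : Hk k →ₗ[ℂ] Hk (n + k) :=
  ((LinearMap.mulLeft ℂ g).comp (Hk k).subtype).codRestrict (Hk (n + k)) fun c => by
    rw [mem_homogeneousSubmodule]
    exact hg.mul ((mem_homogeneousSubmodule _ _).1 c.2)

lemma mulG_apply {g : R3} {n : ℕ} (hg : g.IsHomogeneous n) (k : ℕ) (c : Hk k) :
    ((mulG hg k c : Hk (n + k)) : R3) = g * c := rfl

lemma mulG_injective {g : R3} {n : ℕ} (hg : g.IsHomogeneous n) (h0 : g ≠ 0) (k : ℕ) :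
    Function.Injective (mulG hg k) := by
  intro c c' h
  have h1 := congrArg (fun x : Hk (n + k) => (x : R3)) h
  simp only [mulG_apply] at h1
  exact Subtype.ext (mul_left_cancel₀ h0 h1)

/-- the value `vᵀ A v'` is a form of degree `2 n + 2` -/
lemma form_mem {n : ℕ} {A : Matrix (Fin 3) (Fin 3) R3} (hA : ∀ i j, (A i j).IsHomogeneous 2)
    (v v' : Fin 3 → R3) (hv : ∀ i, (v i).IsHomogeneous n) (hv' : ∀ i, (v' i).IsHomogeneous n) :
    (v ⬝ᵥ (A *ᵥ v')) ∈ Hk (n + (n + 2)) := by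
  rw [mem_homogeneousSubmodule]
  refine IsHomogeneous.sum _ _ _ fun i _ => (hv i).mul ?_
  rw [show n + 2 = 2 + n by ring]
  exact IsHomogeneous.sum _ _ _ fun j _ => (hA i j).mul (hv' j)

/-- the vector of forms -/
def vec {n : ℕ} (u : Fin 3 → Hk n) : Fin 3 → R3 := fun i => (u i : R3)

lemma vec_add {n : ℕ} (u v : Fin 3 → Hk n) : vec (u + v) = vec u + vec v := rfl

lemma vec_smul {n : ℕ} (c : ℂ) (v : Fin 3 → Hk n) : vec (c • v) = c • vec v := rfl

/-- the bilinear form with values in the forms of degree `2 n + 2` -/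
noncomputable def formB {n : ℕ} {A : Matrix (Fin 3) (Fin 3) R3}
    (hA : ∀ i j, (A i j).IsHomogeneous 2) :
    (Fin 3 → Hk n) →ₗ[ℂ] (Fin 3 → Hk n) →ₗ[ℂ] Hk (n + (n + 2)) := LinearMap.mk₂ ℂ
  (fun u v => ⟨vec u ⬝ᵥ (A *ᵥ vec v), form_mem hA _ _ (fun i => (u i).2) (fun i => (v i).2)⟩)
  (fun u u' v => by
    apply Subtype.ext
    change vec (u + u') ⬝ᵥ (A *ᵥ vec v) = _
    rw [vec_add, add_dotProduct]
    rfl)
  (fun c u v => by
    apply Subtype.ext
    change vec (c • u) ⬝ᵥ (A *ᵥ vec v) = _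
    rw [vec_smul, smul_dotProduct]
    rfl)
  (fun u v v' => by
    apply Subtype.ext
    change vec u ⬝ᵥ (A *ᵥ vec (v + v')) = _
    rw [vec_add, mulVec_add, dotProduct_add]
    rfl)
  (fun c u v => by
    apply Subtype.ext
    change vec u ⬝ᵥ (A *ᵥ vec (c • v)) = _
    rw [vec_smul, mulVec_smul, dotProduct_smul]
    rfl)

lemma formB_apply {n : ℕ} {A : Matrix (Fin 3) (Fin 3) R3}
    (hA : ∀ i j, (A i j).IsHomogeneous 2) (u v : Fin 3 → Hk n) :
    ((formB hA u v : Hk (n + (n + 2))) : R3) = vec u ⬝ᵥ (A *ᵥ vec v) := rfl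

lemma count (n : ℕ) {a w : ℕ} (ha : a + 1 = (n + 2).choose 2)
    (hw : w + (n + 4).choose 2 = (2 * n + 4).choose 2) (hn : 1 ≤ n) : w < 3 * a := by
  have h1 := Nat.triangle_succ (n + 1)
  have key : ∀ k : ℕ, (k + 2).choose 2 * 2 = (k + 2) * (k + 1) := by
    intro k
    rw [Nat.choose_two_right]
    refine Nat.div_mul_cancel ?_
    have := (Nat.even_mul_succ_self (k + 1)).two_dvd
    rwa [mul_comm] at this
  have a1 := key n
  have a2 := key (n + 2)
  have a3 := key (2 * n + 2)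
  rw [show n + 2 + 2 = n + 4 by ring] at a2
  rw [show 2 * n + 2 + 2 = 2 * n + 4 by ring] at a3
  nlinarith

theorem exists_isotropic_homog {g : R3} {n : ℕ} (hg : g.IsHomogeneous n) (hn : 1 ≤ n) (h0 : g ≠ 0)
    {A : Matrix (Fin 3) (Fin 3) R3} (hA : ∀ i j, (A i j).IsHomogeneous 2) :
    ∃ ν : Fin 3 → R3, (∀ i, (ν i).IsHomogeneous n) ∧ (∃ i, ¬ g ∣ ν i) ∧
      g ∣ ν ⬝ᵥ (A *ᵥ ν) := by
  classical
  obtain ⟨V, hV⟩ := Submodule.exists_isCompl (Submodule.span ℂ {(⟨g, hg⟩ : Hk n)})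
  have hV1 : finrank ℂ V + 1 = (n + 2).choose 2 := by
    have h1 := Submodule.finrank_add_eq_of_isCompl hV
    rw [H684.finrank_homog, finrank_span_singleton (fun h => h0 (congrArg Subtype.val h))] at h1
    omega
  have hW1 : finrank ℂ (Hk (n + (n + 2)) ⧸ LinearMap.range (mulG hg (n + 2))) +
      (n + 4).choose 2 = (2 * n + 4).choose 2 := by
    have h1 := Submodule.finrank_quotient_add_finrank (LinearMap.range (mulG hg (n + 2)))
    rw [LinearMap.finrank_range_of_inj (mulG_injective hg h0 _), H684.finrank_homog,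
      H684.finrank_homog] at h1
    have e1 : n + (n + 2) + 2 = 2 * n + 4 := by ring
    rw [e1] at h1
    exact h1
  have hlt : finrank ℂ (Hk (n + (n + 2)) ⧸ LinearMap.range (mulG hg (n + 2))) <
      finrank ℂ (Fin 3 → V) := by
    have h1 : finrank ℂ (Fin 3 → V) = 3 * finrank ℂ V := by
      rw [finrank_pi_fintype, Fin.sum_univ_three]
      ring
    rw [h1]
    exact count n hV1 hW1 hn
  obtain ⟨u, hu, huu⟩ := exists_isotropic_of_finrank_lt (k := ℂ) (U := Fin 3 → V)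
    (T := Hk (n + (n + 2)) ⧸ LinearMap.range (mulG hg (n + 2)))
    (((formB hA).compl₁₂ (V.subtype.compLeft (Fin 3)) (V.subtype.compLeft (Fin 3))).compr₂
      (Submodule.mkQ (LinearMap.range (mulG hg (n + 2))))) hlt
  refine ⟨vec (fun i => (u i : Hk n)), fun i => (u i : Hk n).2, ?_, ?_⟩
  · obtain ⟨i, hi⟩ := Function.ne_iff.1 hu
    refine ⟨i, fun hdvd => hi ?_⟩
    obtain ⟨q, hq⟩ := hdvd
    replace hq : ((u i : Hk n) : R3) = g * q := hq
    by_cases hz : ((u i : Hk n) : R3) = 0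
    · exact Subtype.ext (Subtype.ext hz)
    have hz' : g * q ≠ 0 := hq ▸ hz
    obtain ⟨k, hk, hqk⟩ := degree_le_of_mul hg (hq ▸ (u i : Hk n).2) hz'
    have hk0 : k = 0 := by omega
    subst hk0
    have h2 : q = C (q.coeff 0) := by
      rw [← totalDegree_eq_zero_iff_eq_C]
      exact hqk.totalDegree (right_ne_zero_of_mul hz')
    have h3 : (u i : Hk n) ∈ Submodule.span ℂ {(⟨g, hg⟩ : Hk n)} := by
      rw [Submodule.mem_span_singleton]
      refine ⟨q.coeff 0, Subtype.ext ?_⟩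
      change q.coeff 0 • g = _
      rw [hq, smul_eq_C_mul, ← h2, mul_comm]
    have h4 : (u i : Hk n) ∈ (⊥ : Submodule ℂ (Hk n)) := by
      rw [← hV.inf_eq_bot]
      exact ⟨h3, (u i).2⟩
    exact Subtype.ext ((Submodule.mem_bot _).1 h4)
  · have h1 : formB hA (fun i => (u i : Hk n)) (fun i => (u i : Hk n)) ∈
        LinearMap.range (mulG hg (n + 2)) := (Submodule.Quotient.mk_eq_zero _).1 huu
    obtain ⟨c, hc⟩ := h1
    exact ⟨c, (congrArg Subtype.val hc).symm⟩

end Vale.Agent.P287.H270.OddT
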