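import Vale.Agent.P287.H270.OddCoordA
import Vale.Agent.P287.H270.OddT

/-!
Good coordinates for the odd theta theorem: the conditions at infinity over `K = ℂ(s₀, s₁)`.
-/

namespace Vale.Agent.P287.H270.OddCoord

open Polynomial Matrix Vale.Agent.P287 Vale.Agent.P287.Theta Vale.Agent.P287.Odd
open Vale.Agent.P287.H946 Vale.Agent.P287.H684

section top

variable {k F : Type} [Field k] [Field F] [Algebra k F]

lemma top_bc (m : ℕ) (P : k[X][X]) :
    H684.top m (bc k F P) = (H684.top m P).map (algebraMap k F) := by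
  ext j
  rw [H684.coeff_top, coeff_map, H684.coeff_top, coeff_bc]
  split_ifs
  · rfl
  · rw [map_zero]

lemma top_CC_mul' (m : ℕ) (c : k) (P : k[X][X]) :
    H684.top m (C (C c) * P) = C c * H684.top m P := by
  ext j
  rw [coeff_C_mul, H684.coeff_top, H684.coeff_top, coeff_C_mul, coeff_C_mul, mul_ite, mul_zero]

end top

/-- a monic complex polynomial is prime to a polynomial which is non-zero at its roots -/
lemma coprime_of_eval {F : Type} [Field F] [Algebra ℂ F] {G : ℂ[X]} (hG : G.Monic) {H : F[X]}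
    (h : ∀ z : ℂ, G.eval z = 0 → H.eval (algebraMap ℂ F z) ≠ 0) :
    IsCoprime (G.map (algebraMap ℂ F)) H := by
  have key : ∀ s : Multiset ℂ, (∀ z ∈ s, H.eval (algebraMap ℂ F z) ≠ 0) →
      IsCoprime (((s.map fun a => X - C a).prod : ℂ[X]).map (algebraMap ℂ F)) H := by
    intro s
    induction s using Multiset.induction_on with
    | empty =>
      intro _
      rw [Multiset.map_zero, Multiset.prod_zero, Polynomial.map_one]
      exact isCoprime_one_left
    | cons a s ih =>
      intro hs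
      rw [Multiset.map_cons, Multiset.prod_cons, Polynomial.map_mul]
      refine IsCoprime.mul_left ?_ (ih fun z hz => hs z (Multiset.mem_cons_of_mem hz))
      rw [Polynomial.map_sub, map_X, map_C]
      rw [(irreducible_X_sub_C (algebraMap ℂ F a)).coprime_iff_not_dvd, dvd_iff_isRoot]
      exact hs a (Multiset.mem_cons_self a s)
  have h1 : G = (G.roots.map fun a => X - C a).prod :=
    (IsAlgClosed.splits G).eq_prod_roots_of_monic hG
  rw [h1]
  refine key _ fun z hz => h z ?_
  exact (mem_roots'.1 hz).2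

/-- the coordinates `1, s₀, s₁` are independent over `ℂ` -/
lemma tvec_indep {c : Fin 3 → ℂ} (h : ∑ i, tvec i * algebraMap ℂ RatK (c i) = 0) : c = 0 := by
  set P : R3 := ∑ i, MvPolynomial.C (c i) * MvPolynomial.X i with hP
  have hPh : P.IsHomogeneous 1 :=
    MvPolynomial.IsHomogeneous.sum _ _ _ fun i _ => MvPolynomial.isHomogeneous_C_mul_X _ _
  have h1 : crMap (dh P) = 0 := by
    rw [crMap_dh, hP, map_sum, ← h]
    refine Finset.sum_congr rfl fun i _ => ?_
    rw [map_mul, MvPolynomial.aeval_X, ← MvPolynomial.algebraMap_eq, AlgHom.commutes, mul_comm]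
  have h2 : dh P = 0 := crMap_injective (by rw [h1, map_zero])
  have h3 : P = 0 := dh_eq_zero hPh h2
  funext i
  have h4 := congrArg (MvPolynomial.eval (Pi.single i 1)) h3
  rw [hP, map_sum, map_zero, Finset.sum_eq_single i] at h4
  · simpa using h4
  · intro j _ hj
    simp [Pi.single_eq_of_ne hj]
  · intro h
    exact absurd (Finset.mem_univ i) h

lemma Wd_sum_cx {x : Fin 3 → RatK} {d : ℕ} {N : Fin 3 → ℂ[X][X]} (hN : ∀ i, Wd d (N i)) :
    Wd d (cx x ⬝ᵥ fun i => bc ℂ RatK (N i)) := by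
  rw [Wd_iff_TW]
  refine TW.sum _ _ fun i _ => ?_
  exact (Wd_iff_TW.1 (Wd_bc.2 (hN i))).CC_mul _

lemma eval_top_sum (x : Fin 3 → RatK) (d : ℕ) (N : Fin 3 → ℂ[X][X]) (z : ℂ) :
    (H684.top d (cx x ⬝ᵥ fun i => bc ℂ RatK (N i))).eval (algebraMap ℂ RatK z) =
      ∑ i, x i * algebraMap ℂ RatK ((H684.top d (N i)).eval z) := by
  rw [dotProduct, H684.top_sum, eval_finsetSum]
  refine Finset.sum_congr rfl fun i _ => ?_
  rw [cx, top_CC_mul', top_bc, eval_mul, eval_C]
  congr 1
  rw [eval_map_algebraMap, aeval_algebraMap_apply]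
  rfl

/-- a generic combination is prime to `g` at infinity -/
theorem infUnit_generic {n d : ℕ} {G : ℂ[X][X]} (hG : G.Monic) (hGn : G.natDegree = n)
    (hGW : Wd n G) {N : Fin 3 → ℂ[X][X]} (hN : ∀ i, Wd d (N i))
    (h : ∀ z, (H684.top n G).eval z = 0 → ∃ i, (H684.top d (N i)).eval z ≠ 0) :
    InfUnit n (bc ℂ RatK G) d (cx tvec ⬝ᵥ fun i => bc ℂ RatK (N i)) := by
  refine infUnit_of_coprime (bc_monic hG) (by rw [natDegree_bc, hGn]) (Wd_bc.2 hGW)
    (Wd_sum_cx hN) ?_
  rw [top_bc]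
  refine coprime_of_eval (H684.monic_top hG hGn).1 fun z hz h0 => ?_
  obtain ⟨i, hi⟩ := h z hz
  rw [eval_top_sum] at h0
  exact hi (congrFun (tvec_indep h0) i)

/-- Jacobi's formula for `3 × 3` matrices. -/
lemma pderiv_det (A : Matrix (Fin 3) (Fin 3) R3) (l : Fin 3) :
    MvPolynomial.pderiv l A.det =
      ∑ i, ∑ j, A.adjugate j i * MvPolynomial.pderiv l (A i j) := by
  rw [det_fin_three, adjugate_fin_three]
  simp only [map_sub, map_add, MvPolynomial.pderiv_mul, Fin.sum_univ_three, Matrix.of_apply,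
    Matrix.cons_val', Matrix.cons_val_zero, Matrix.cons_val_one, Matrix.cons_val_two,
    Matrix.cons_val_fin_one, Matrix.head_cons, Matrix.tail_cons, Matrix.head_fin_const,
    Matrix.empty_val']
  ring

/-- the adjugate does not vanish at a point, when the curve `det A = 0` is smooth -/
lemma exists_adj_ne {A : Matrix (Fin 3) (Fin 3) R3} {f : R3} {c : ℂ} (hs : SmoothTernary f)
    (hc : c ≠ 0) (hdet : A.det = MvPolynomial.C c * f) {t : Fin 3 → ℂ} (ht : t ≠ 0) :
    ∃ i j, MvPolynomial.eval t (A.adjugate i j) ≠ 0 := by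
  by_contra hcon
  push Not at hcon
  refine ht (hs t fun l => ?_)
  have h1 := congrArg (MvPolynomial.eval t) (pderiv_det A l)
  rw [hdet, MvPolynomial.pderiv_C_mul, map_mul, MvPolynomial.eval_C, map_sum] at h1
  have h2 : ∑ i, MvPolynomial.eval t (∑ j, A.adjugate j i * MvPolynomial.pderiv l (A i j)) = 0 := by
    refine Finset.sum_eq_zero fun i _ => ?_
    rw [map_sum]
    refine Finset.sum_eq_zero fun j _ => ?_
    rw [map_mul, hcon, zero_mul]
  rw [h2] at h1
  exact (mul_eq_zero.1 h1).resolve_left hc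

/-- maximal ideals are points -/
lemma exists_point_of_maximal (M : Ideal ℂ[X][X]) (hM : M.IsMaximal) :
    ∃ x y : ℂ, ∀ p, p ∈ M ↔ evalEval x y p = 0 := by
  have h1 : (M.comap (crEquiv : MvPolynomial (Fin 2) ℂ ≃+* ℂ[X][X])).IsMaximal :=
    Ideal.comap_isMaximal_of_equiv crEquiv
  obtain ⟨x, hx⟩ := MvPolynomial.isMaximal_iff_eq_vanishingIdeal_singleton.1 h1
  refine ⟨x 0, x 1, fun p => ?_⟩
  have h2 : p ∈ M ↔ crTo p ∈ M.comap (crEquiv : MvPolynomial (Fin 2) ℂ ≃+* ℂ[X][X]) := by
    rw [Ideal.mem_comap]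
    have : (crEquiv : MvPolynomial (Fin 2) ℂ ≃+* ℂ[X][X]) (crTo p) = p :=
      crEquiv.apply_symm_apply p
    rw [this]
  rw [h2, hx, MvPolynomial.mem_vanishingIdeal_singleton_iff]
  have h3 : ((MvPolynomial.aeval x : MvPolynomial (Fin 2) ℂ →ₐ[ℂ] ℂ) :
      MvPolynomial (Fin 2) ℂ →+* ℂ).comp crTo = evalEvalRingHom (x 0) (x 1) := by
    apply Polynomial.ringHom_ext'
    · apply Polynomial.ringHom_ext'
      · ext c
        simp [crTo]
      · simp [crTo]
    · simp [crTo]
  have h4 : MvPolynomial.aeval x (crTo p) = evalEval (x 0) (x 1) p := RingHom.congr_fun h3 p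
  rw [h4]

end Vale.Agent.P287.H270.OddCoord
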