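import Vale.Agent.P287.H270.B2e

/-!
Numerical input for scrolls over plane curves of odd degree.
-/

set_option linter.unusedSectionVars false

namespace Vale.Agent.P287.H270

open Polynomial Matrix
open Vale.Agent.P287.H925 (wt ScrollForm)

variable {k : Type*} [Field k] {κ : Type*} [Field κ]

theorem rat_monic (φ : MvPolynomial (Fin 3) k →+* κ) (n : ℕ) (hn2 : 2 ≤ n)
    (g : MvPolynomial (Fin 3) k) (hgn : g.IsHomogeneous n)
    (hg1 : ((dh g).coeff n).coeff 0 = 1) (hφ : ∀ p, φ p = 0 ↔ g ∣ p)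
    (W : Submodule κ (Fin 4 → κ)) (hW : Module.finrank κ W = 2) (C0 : ℤ)
    (hfreq : ∀ N : ℕ, ∃ D ≥ N, (∑ j, ((D + wt j + 2).choose 2 : ℤ)) - 2 * n * D - C0 ≤
      Module.finrank k (scrollForms φ W wt D)) : Rat φ W := by
  classical
  let _ : Algebra k κ := (φ.comp MvPolynomial.C).toAlgebra
  have hφC : ∀ c, φ (MvPolynomial.C c) = algebraMap k κ c := fun c => rfl
  have hg0 : g ≠ 0 := by
    intro h
    rw [h, map_zero, coeff_zero, coeff_zero] at hg1
    exact one_ne_zero hg1.symm
  have hGn : (dh g).coeff n = 1 := by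
    ext i
    by_cases hi : i = 0
    · rw [hi, hg1, coeff_one_zero]
    · rw [TD_dh hgn _ _ (by omega), coeff_one, if_neg hi]
  have hGdeg : (dh g).natDegree = n := by
    apply le_antisymm
    · rw [natDegree_le_iff_coeff_eq_zero]
      intro j hj
      ext i
      rw [TD_dh hgn _ _ (by omega), coeff_zero]
    · apply le_natDegree_of_ne_zero
      rw [hGn]; exact one_ne_zero
  have hGmonic : (dh g).Monic := by
    rw [Monic, leadingCoeff, hGdeg, hGn]
  have h0 : φ (MvPolynomial.X 0) ≠ 0 := by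
    intro h
    obtain ⟨q, hq⟩ := (hφ _).1 h
    have hq0 : q ≠ 0 := by
      rintro rfl
      rw [mul_zero] at hq
      exact MvPolynomial.X_ne_zero _ hq
    have h1 := congrArg MvPolynomial.totalDegree hq
    rw [MvPolynomial.totalDegree_mul_of_isDomain hg0 hq0,
      (MvPolynomial.isHomogeneous_X k (0 : Fin 3)).totalDegree (MvPolynomial.X_ne_zero _),
      hgn.totalDegree hg0] at h1
    omega
  set x := φ (MvPolynomial.X 1) / φ (MvPolynomial.X 0) with hx
  set y := φ (MvPolynomial.X 2) / φ (MvPolynomial.X 0) with hy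
  have hGev : ∀ p : k[X][X], ev x y p = 0 ↔ dh g ∣ p := by
    intro p
    constructor
    · intro hp
      obtain ⟨m, hmp⟩ := exists_TD p
      have h1 : φ (hm m p) = 0 := by
        rw [phi_eq φ hφC h0 (hm_homogeneous m p), dh_hm hmp, hp, mul_zero]
      rw [hφ] at h1
      have h2 := map_dvd dh h1
      rwa [dh_hm hmp] at h2
    · intro h
      have h1 : ev x y (dh g) = 0 := by
        have h2 := phi_eq φ hφC h0 hgn
        rw [(hφ g).2 dvd_rfl] at h2
        exact (mul_eq_zero.1 h2.symm).resolve_left (pow_ne_zero _ h0)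
      obtain ⟨q, rfl⟩ := h
      rw [map_mul, h1, zero_mul]
  set E := scaleE _ h0 wt with hE
  set W' := W.map E.toLinearMap with hW'
  have hfin : Module.finrank κ W' = 2 := by
    rw [hW', ← hW]
    exact LinearEquiv.finrank_map_eq E W
  let bW : Module.Basis (Fin 2) κ W' := Module.finBasisOfFinrankEq κ W' hfin
  obtain ⟨c, c', hc, hc', hind⟩ := exists_rel x y (dh g) n hGmonic hGdeg hGev wt bW C0
    (by
      intro N
      obtain ⟨D, hD, hle⟩ := hfreq N
      refine ⟨D, hD, ?_⟩
      have h1 := finrank_scroll φ hφC h0 W wt D bW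
      have h2 := finrank_ker_evalMap k x y wt (aW bW) D
      have h3 : (Module.finrank k (Vm k x y wt (aW bW) D) : ℤ) +
          Module.finrank k (scrollForms φ W wt D) = ∑ j, ((D + wt j + 2).choose 2 : ℤ) := by
        rw [h1]
        exact_mod_cast h2
      linarith)
  choose Dc hDc using fun j => exists_TD (c j)
  choose Dc' hDc' using fun j => exists_TD (c' j)
  set T := ∑ j, (Dc j + Dc' j) with hT
  have hle : ∀ j, Dc j ≤ T ∧ Dc' j ≤ T := by
    intro j
    have h1 : Dc j + Dc' j ≤ T :=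
      Finset.single_le_sum (f := fun j => Dc j + Dc' j) (fun _ _ => Nat.zero_le _)
        (Finset.mem_univ j)
    omega
  have hd : ∀ j, dh (hm (T + wt j) (c j)) = c j := fun j =>
    dh_hm ((hDc j).mono (by have := hle j; omega))
  have hd' : ∀ j, dh (hm (T + wt j) (c' j)) = c' j := fun j =>
    dh_hm ((hDc' j).mono (by have := hle j; omega))
  refine ⟨T, ![fun j => hm (T + wt j) (c j), fun j => hm (T + wt j) (c' j)], ?_, ?_⟩
  · intro i
    fin_cases i
    · rw [← mem_scrollForms]
      change (fun j => hm (T + wt j) (c j)) ∈ scrollForms φ W wt T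
      rw [mem_scroll_iff φ hφC h0 W wt T bW (fun j => hm_homogeneous _ _)]
      simp only [hd]
      exact hc
    · rw [← mem_scrollForms]
      change (fun j => hm (T + wt j) (c' j)) ∈ scrollForms φ W wt T
      rw [mem_scroll_iff φ hφC h0 W wt T bW (fun j => hm_homogeneous _ _)]
      simp only [hd']
      exact hc'
  · intro s t hst
    apply hind
    funext j
    have h1 : s * φ (hm (T + wt j) (c j)) + t * φ (hm (T + wt j) (c' j)) = 0 := hst j
    rw [phi_eq φ hφC h0 (hm_homogeneous _ _), phi_eq φ hφC h0 (hm_homogeneous _ _), hd, hd'] at h1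
    simp only [Pi.add_apply, Pi.smul_apply, smul_eq_mul, Pi.zero_apply]
    have h2 : φ (MvPolynomial.X 0) ^ (T + wt j) *
        (s * ev x y (c j) + t * ev x y (c' j)) = 0 := by
      rw [← h1]; ring
    exact (mul_eq_zero.1 h2).resolve_left (pow_ne_zero _ h0)

/-- **Two independent rows** of some degree, from the growth of the dimensions. -/
theorem rat_general [Infinite k] (φ : MvPolynomial (Fin 3) k →+* κ) (n : ℕ) (hn2 : 2 ≤ n)
    (g : MvPolynomial (Fin 3) k) (hg0 : g ≠ 0) (hgn : g.IsHomogeneous n)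
    (hφ : ∀ p, φ p = 0 ↔ g ∣ p)
    (W : Submodule κ (Fin 4 → κ)) (hW : Module.finrank κ W = 2) (C0 : ℤ)
    (hfreq : ∀ N : ℕ, ∃ D ≥ N, (∑ j, ((D + wt j + 2).choose 2 : ℤ)) - 2 * n * D - C0 ≤
      Module.finrank k (scrollForms φ W wt D)) : Rat φ W := by
  obtain ⟨α, β, hαβ⟩ := exists_shear hgn hg0
  set c := MvPolynomial.eval ![α, β, 1] g with hc
  let S : MvPolynomial (Fin 3) k →ₐ[k] MvPolynomial (Fin 3) k := shear α β
  let S' : MvPolynomial (Fin 3) k →ₐ[k] MvPolynomial (Fin 3) k := shear (-α) (-β)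
  have hSS' : ∀ p, S' (S p) = p := shear_shear α β
  have hS'S : ∀ p, S (S' p) = p := by
    intro p
    have := shear_shear (-α) (-β) p
    rwa [neg_neg, neg_neg] at this
  set φ' : MvPolynomial (Fin 3) k →+* κ := φ.comp (S' : MvPolynomial (Fin 3) k →+* _) with hφ'
  have hφ'S : ∀ p, φ' (S p) = φ p := fun p => by
    rw [hφ', RingHom.comp_apply]
    exact congrArg φ (hSS' p)
  have hmem : ∀ (D : ℕ) (f : Fin 4 → MvPolynomial (Fin 3) k), f ∈ scrollForms φ W wt D →
      (fun j => S (f j)) ∈ scrollForms φ' W wt D := by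
    rintro D f ⟨h1, h2⟩
    refine ⟨fun i => shear_homogeneous α β (h1 i), fun w hw => ?_⟩
    simp only [hφ'S]
    exact h2 w hw
  have hmem' : ∀ (D : ℕ) (f : Fin 4 → MvPolynomial (Fin 3) k), f ∈ scrollForms φ' W wt D →
      (fun j => S' (f j)) ∈ scrollForms φ W wt D := by
    rintro D f ⟨h1, h2⟩
    exact ⟨fun i => shear_homogeneous (-α) (-β) (h1 i), fun w hw => h2 w hw⟩
  have hfr : ∀ D, Module.finrank k (scrollForms φ' W wt D) =
      Module.finrank k (scrollForms φ W wt D) := by
    intro D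
    let e : scrollForms φ W wt D ≃ₗ[k] scrollForms φ' W wt D :=
      { toFun := fun f => ⟨fun j => S (f.1 j), hmem D f.1 f.2⟩
        map_add' := fun f f' => by
          apply Subtype.ext
          funext j
          exact map_add S _ _
        map_smul' := fun c f => by
          apply Subtype.ext
          funext j
          exact map_smul S c _
        invFun := fun f => ⟨fun j => S' (f.1 j), hmem' D f.1 f.2⟩
        left_inv := fun f => by
          apply Subtype.ext
          funext j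
          exact hSS' _
        right_inv := fun f => by
          apply Subtype.ext
          funext j
          exact hS'S _ }
    exact e.finrank_eq.symm
  have hrat := rat_monic φ' n hn2 (MvPolynomial.C c⁻¹ * S g)
    ((shear_homogeneous α β hgn).C_mul _)
    (by
      rw [coeff_dh_top ((shear_homogeneous α β hgn).C_mul _), map_mul, MvPolynomial.eval_C]
      rw [eval_shear, ← hc, inv_mul_cancel₀ hαβ])
    (by
      intro p
      rw [hφ', RingHom.comp_apply]
      change φ (S' p) = 0 ↔ _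
      rw [hφ]
      constructor
      · rintro ⟨q, hq⟩
        refine ⟨MvPolynomial.C c * S q, ?_⟩
        rw [← hS'S p, hq, map_mul]
        have : MvPolynomial.C c⁻¹ * MvPolynomial.C c = (1 : MvPolynomial (Fin 3) k) := by
          rw [← map_mul, inv_mul_cancel₀ hαβ, map_one]
        linear_combination (-(S g * S q)) * this
      · rintro ⟨q, rfl⟩
        rw [map_mul, map_mul, hSS']
        exact Dvd.dvd.mul_right (Dvd.dvd.mul_left dvd_rfl _) _)
    W hW C0 (fun N => by
      obtain ⟨D, hD, h⟩ := hfreq N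
      exact ⟨D, hD, by rw [hfr]; exact h⟩)
  obtain ⟨T, ψ, h1, h2⟩ := hrat
  refine ⟨T, fun i j => S' (ψ i j), fun i => ?_, fun s t hst => h2 s t fun j => ?_⟩
  · have h3 := hmem' T (ψ i) ((mem_scrollForms ..).2 (h1 i))
    exact (mem_scrollForms ..).1 h3
  · have h3 := hst j
    exact h3

/-- **The numerical criterion, odd degree**: three forms of degree `m`, and two independent rows. -/
theorem odd_numeric [Infinite k] (φ : MvPolynomial (Fin 3) k →+* κ)
    (g : MvPolynomial (Fin 3) k) (hg0 : g ≠ 0) (m : ℕ) (hm : 1 ≤ m)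
    (hgn : g.IsHomogeneous (2 * m + 1)) (hφ : ∀ p, φ p = 0 ↔ g ∣ p)
    (W : Submodule κ (Fin 4 → κ)) (hW : Module.finrank κ W = 2)
    (M : Matrix (Fin 4) (Fin 4) (MvPolynomial (Fin 3) k))
    (hM : ∀ i j, (M i j).IsHomogeneous (1 + wt i + wt j))
    (hiso : ∀ w ∈ W, w ⬝ᵥ (M.map φ *ᵥ w) = 0)
    (haniso : ∀ v : Fin 4 → MvPolynomial (Fin 3) k, v ⬝ᵥ (M *ᵥ v) = 0 → v = 0)
    (hnum : ∀ N : ℕ, ∃ d, N ≤ d ∧
      2 * d ^ 2 + 5 * d + 3 ≤ Module.finrank k (scrollForms φ W wt (m + d))) :
    3 ≤ Module.finrank k (scrollForms φ W wt m) ∧ Rat φ W := by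
  have hfreq : ∀ N : ℕ, ∃ D ≥ N,
      (∑ j, ((D + wt j + 2).choose 2 : ℤ)) - 2 * (2 * m + 1 : ℕ) * D - (5 * m - 2 * m ^ 2 + 3) ≤
        Module.finrank k (scrollForms φ W wt D) := by
    intro N
    obtain ⟨d, hd, hle⟩ := hnum N
    refine ⟨m + d, by omega, ?_⟩
    rw [sum_choose]
    have h1 : ((2 * d ^ 2 + 5 * d + 3 : ℕ) : ℤ) ≤
        Module.finrank k (scrollForms φ W wt (m + d)) := by exact_mod_cast hle
    push_cast at h1 ⊢
    nlinarith
  refine ⟨?_, rat_general φ (2 * m + 1) (by omega) g hg0 hgn hφ W hW _ hfreq⟩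
  have h1 := main_general φ (2 * m + 1) g hg0 hgn hφ wt W hW M hM hiso haniso m (by omega) _ hfreq
  rw [sum_choose] at h1
  push_cast at h1
  have h2 : (3 : ℤ) ≤ Module.finrank k (scrollForms φ W wt m) := by nlinarith
  exact_mod_cast h2

end Vale.Agent.P287.H270
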