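import Vale.Agent.P287.H270.EvenScroll
import Vale.Agent.P287.H270.OddNumeric
import Vale.Agent.P287.H631.Pen.Wrap2
import Vale.Agent.P287.H69.OddForm

/-!
The odd scroll theorem with a numerical hypothesis: a smooth cubic fourfold containing a plane, with
smooth discriminant sextic, and a line scroll of even degree over an irreducible plane curve of
degree `2 m + 1`, with the Hilbert polynomial `2 d² + 5 d + 3`, is rational.
-/

set_option linter.unusedSectionVars false

open MvPolynomial Matrix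

namespace Vale.Agent.P287.H270

open Vale.Agent.P287 Vale.Agent.P287.H925 Vale.Agent.P287.H925.NetResult Vale.Agent.P287.H69
  Vale.Agent.P287.H631

/-- **Odd scroll theorem**, complex linear independence. -/
theorem odd_scroll_three (M : Matrix (Fin 4) (Fin 4) (MvPolynomial (Fin 3) ℂ)) (hM : M.IsSymm)
    (hdeg : ∀ i j, (M i j).IsHomogeneous (1 + H925.wt i + H925.wt j))
    (hs : SmoothForm (H925.cubicOf M))
    (hC : ∀ z : Fin 3 → ℂ, (∀ i, aeval z (pderiv i M.det) = 0) → z = 0)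
    {κ : Type} [Field κ] (φ : MvPolynomial (Fin 3) ℂ →+* κ) (g : MvPolynomial (Fin 3) ℂ)
    (hg : Irreducible g)
    (hφ : ∀ p, φ p = 0 ↔ g ∣ p) {m : ℕ} (hm : 2 ≤ m) (hgm : g.IsHomogeneous (2 * m + 1))
    (W : Submodule κ (Fin 4 → κ)) (hW : Module.finrank κ W = 2)
    (hiso : ∀ w ∈ W, w ⬝ᵥ (M.map φ *ᵥ w) = 0)
    (h3 : 3 ≤ Module.finrank ℂ (scrollForms φ W H925.wt m)) (hrat : Rat φ W)
    {s : ℕ} (hev : Even s) (hsd : HasDegree (scrollIdealM φ W) s) :
    RationalHypersurface (H925.cubicOf M) := by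
  obtain ⟨f, hf⟩ := exists_linearIndependent_of_le_finrank h3
  obtain ⟨D, ψ, hψ, hψI⟩ := hrat
  have hf' : ∀ j, ScrollForm φ W m (f j : Fin 4 → MvPolynomial (Fin 3) ℂ) := fun j =>
    ⟨(f j).2.1, (f j).2.2⟩
  have hI : LinearIndependent κ fun (l : Fin 2) (i : Fin 4) => φ (ψ l i) := by
    rw [Fintype.linearIndependent_iff]
    intro c hc
    have h1 := hψI (c 0) (c 1) (fun j => by
      have h2 := congrFun hc j
      simpa [Fin.sum_univ_two] using h2)
    intro i
    fin_cases i
    · exact h1.1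
    · exact h1.2
  rcases rational_or_rows M hM hdeg hs φ g hg hφ hm hgm W hW hiso
    (fun j => (f j : Fin 4 → MvPolynomial (Fin 3) ℂ)) hf'
    (by
      intro c hc
      rw [Fintype.linearIndependent_iff] at hf
      have h1 := hf c (by
        apply Subtype.ext
        funext i
        rw [Submodule.coe_sum, Submodule.coe_zero, Pi.zero_apply, ← hc i]
        simp [Finset.sum_apply, smul_eq_C_mul])
      exact funext h1) ψ hψ hI with h | h
  · exact h
  · refine odd_scroll_theorem M hM hdeg hs hC φ g hg hφ hm hgm W hW hiso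
      (fun j => (f j : Fin 4 → MvPolynomial (Fin 3) ℂ)) hf' ?_ hev hsd
    rw [Fintype.linearIndependent_iff] at h ⊢
    intro c hc
    apply h c
    funext i
    have h3 := congrFun hc 3
    have h4 : ∀ j : Fin 3, ∑ l, c l * (aeval tvec ((f l : Fin 4 → MvPolynomial (Fin 3) ℂ)
        j.castSucc) : RatK) = 0 := fun j => by
      have := congrFun hc j.castSucc
      simpa [Finset.sum_apply] using this
    refine Fin.cases ?_ (fun j => ?_) i
    · have h5 : ∑ l, c l * (aeval tvec ((f l : Fin 4 → MvPolynomial (Fin 3) ℂ) 3) : RatK) = 0 := by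
        simpa [Finset.sum_apply] using h3
      simp only [Finset.sum_apply, Pi.smul_apply, smul_eq_mul, Pi.zero_apply]
      exact h5
    · simp only [Finset.sum_apply, Pi.smul_apply, smul_eq_mul, Pi.zero_apply]
      exact h4 j

/-- **Odd scroll theorem**, numerical form. -/
theorem odd_scroll_numeric (M : Matrix (Fin 4) (Fin 4) (MvPolynomial (Fin 3) ℂ)) (hM : M.IsSymm)
    (hdeg : ∀ i j, (M i j).IsHomogeneous (1 + H925.wt i + H925.wt j))
    (hs : SmoothForm (H925.cubicOf M))
    (hC : ∀ z : Fin 3 → ℂ, (∀ i, aeval z (pderiv i M.det) = 0) → z = 0)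
    {κ : Type} [Field κ] (φ : MvPolynomial (Fin 3) ℂ →+* κ) (g : MvPolynomial (Fin 3) ℂ)
    (hg : Irreducible g)
    (hφ : ∀ p, φ p = 0 ↔ g ∣ p) {m : ℕ} (hm : 2 ≤ m) (hgm : g.IsHomogeneous (2 * m + 1))
    (W : Submodule κ (Fin 4 → κ)) (hW : Module.finrank κ W = 2)
    (hiso : ∀ w ∈ W, w ⬝ᵥ (M.map φ *ᵥ w) = 0)
    (hnum : ∀ N : ℕ, ∃ d, N ≤ d ∧
      2 * d ^ 2 + 5 * d + 3 ≤ Module.finrank ℂ (scrollForms φ W H925.wt (m + d)))
    {s : ℕ} (hev : Even s) (hsd : HasDegree (scrollIdealM φ W) s) :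
    RationalHypersurface (H925.cubicOf M) := by
  by_cases haniso : ∀ v : Fin 4 → MvPolynomial (Fin 3) ℂ, v ⬝ᵥ (M *ᵥ v) = 0 → v = 0
  · obtain ⟨h3, hrat⟩ := odd_numeric φ g hg.ne_zero m (by omega) hgm hφ W hW M hdeg hiso haniso
      hnum
    exact odd_scroll_three M hM hdeg hs hC φ g hg hφ hm hgm W hW hiso h3 hrat hev hsd
  · push Not at haniso
    obtain ⟨v, hv, hv0⟩ := haniso
    exact rational_of_isotropic M hdeg hs v hv hv0

end Vale.Agent.P287.H270
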