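import Vale.Agent.P287.H270.AffineMain

/-!
The pencil lemma: too many relations of small degree give an isotropic vector.
-/

namespace Vale.Agent.P287.H270

open Polynomial Matrix

set_option linter.unusedSectionVars false

section Field

variable {F : Type*} [Field F]

lemma res_nondeg {GF : F[X]} {n : ℕ} (hG : GF.Monic) (hn : GF.natDegree = n) {z : F[X]}
    (hz : z.degree < n)
    (h : ∀ m : ℕ, m < n → ((z * X ^ m) %ₘ GF).coeff (n - 1) = 0) : z = 0 := by
  by_contra hne
  have hdz : z.natDegree < n := (natDegree_lt_iff_degree_lt hne).2 hz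
  have h1 := h (n - 1 - z.natDegree) (by omega)
  have h2 : (z * X ^ (n - 1 - z.natDegree)) %ₘ GF = z * X ^ (n - 1 - z.natDegree) := by
    rw [modByMonic_eq_self_iff hG, degree_eq_natDegree hG.ne_zero, hn, degree_mul, degree_X_pow,
      degree_eq_natDegree hne]
    exact_mod_cast (by omega : z.natDegree + (n - 1 - z.natDegree) < n)
  rw [h2] at h1
  have h3 : n - 1 = z.natDegree + (n - 1 - z.natDegree) := by omega
  have h4 : (z * X ^ (n - 1 - z.natDegree)).coeff (n - 1) = z.coeff z.natDegree := by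
    conv_lhs => rw [h3]
    rw [Nat.add_sub_cancel_left, coeff_mul_X_pow]
  rw [h4] at h1
  exact hne (leadingCoeff_eq_zero.1 h1)

/-- the polynomial with given coefficients -/
noncomputable def pl (n : ℕ) : (Fin n → F) →ₗ[F] F[X] :=
  ∑ l : Fin n, (monomial (l : ℕ)) ∘ₗ (LinearMap.proj l : (Fin n → F) →ₗ[F] F)

lemma pl_apply (n : ℕ) (u : Fin n → F) : pl n u = ∑ l : Fin n, monomial (l : ℕ) (u l) := by
  simp [pl]

lemma coeff_pl (n : ℕ) (u : Fin n → F) (m : ℕ) :
    (pl n u).coeff m = if h : m < n then u ⟨m, h⟩ else 0 := by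
  rw [pl_apply, finsetSum_coeff]
  simp only [coeff_monomial]
  split_ifs with h
  · rw [Finset.sum_eq_single ⟨m, h⟩]
    · simp
    · intro b _ hb
      rw [if_neg]
      intro h'
      apply hb
      exact Fin.ext h'
    · intro h'; exact absurd (Finset.mem_univ _) h'
  · refine Finset.sum_eq_zero fun b _ => ?_
    rw [if_neg]
    intro h'
    apply h
    rw [← h']
    exact b.2

/-- multiplication of a vector of polynomials by a row -/
noncomputable def dotL (n : ℕ) (c : Fin 4 → F[X]) : (Fin 4 → Fin n → F) →ₗ[F] F[X] :=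
  ∑ j, (LinearMap.mulLeft F (c j)) ∘ₗ (pl n) ∘ₗ LinearMap.proj j

lemma dotL_apply (n : ℕ) (c : Fin 4 → F[X]) (v : Fin 4 → Fin n → F) :
    dotL n c v = ∑ j, c j * pl n (v j) := by
  simp [dotL]

lemma dim_count {V V1 V2 : Type*} [AddCommGroup V] [Module F V] [Module.Finite F V]
    [AddCommGroup V1] [Module F V1] [Module.Finite F V1] [AddCommGroup V2] [Module F V2]
    [Module.Finite F V2] (T : V →ₗ[F] V1) (Λ : V →ₗ[F] V2) (B : Submodule F V)
    (hrange : LinearMap.range Λ = ⊤) (hKΛ : LinearMap.ker T ≤ LinearMap.ker Λ)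
    (hBΛ : B ≤ LinearMap.ker Λ)
    (hcount : Module.finrank F V1 < Module.finrank F B + Module.finrank F V2) :
    ∃ v : V, v ≠ 0 ∧ v ∈ LinearMap.ker T ∧ v ∈ B := by
  have h1 := LinearMap.finrank_range_add_finrank_ker T
  have h2 := Submodule.finrank_le (LinearMap.range T)
  have h4 := LinearMap.finrank_range_add_finrank_ker Λ
  rw [hrange, finrank_top] at h4
  have h5 : Module.finrank F (LinearMap.ker T ⊔ B : Submodule F V) ≤
      Module.finrank F (LinearMap.ker Λ) := Submodule.finrank_mono (sup_le hKΛ hBΛ)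
  have h6 := Submodule.finrank_sup_add_finrank_inf_eq (LinearMap.ker T) B
  have h9 : 0 < Module.finrank F (LinearMap.ker T ⊓ B : Submodule F V) := by omega
  have h10 : (LinearMap.ker T ⊓ B : Submodule F V) ≠ ⊥ := by
    intro h
    rw [h, finrank_bot] at h9
    exact lt_irrefl _ h9
  obtain ⟨v, hv, hv0⟩ := Submodule.exists_mem_ne_zero_of_ne_bot h10
  exact ⟨v, hv0, hv.1, hv.2⟩

/-- vectors of polynomials of bounded degrees -/
def Bd (F : Type*) [Field F] (n : ℕ) (e : Fin 4 → ℕ) : Submodule F (Fin 4 → Fin n → F) where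
  carrier := {v | ∀ j (l : Fin n), e j ≤ l → v j l = 0}
  add_mem' := by
    intro u v hu hv j l hl
    simp [hu j l hl, hv j l hl]
  zero_mem' := fun j l _ => rfl
  smul_mem' := by
    intro c v hv j l hl
    simp [hv j l hl]

lemma finrank_Bd {n : ℕ} (e : Fin 4 → ℕ) (he : ∀ j, e j ≤ n) :
    ∑ j, e j ≤ Module.finrank F (Bd F n e) := by
  have h1 : Module.finrank F (∀ j, Fin (e j) → F) = ∑ j, e j := by
    rw [Module.finrank_pi_fintype]
    exact Finset.sum_congr rfl fun j _ => Module.finrank_fin_fun F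
  rw [← h1]
  let E : (∀ j, Fin (e j) → F) →ₗ[F] Bd F n e :=
    { toFun := fun v => ⟨fun j l => if h : (l : ℕ) < e j then v j ⟨l, h⟩ else 0, by
        intro j l hl
        exact dif_neg (by omega)⟩
      map_add' := fun u v => by
        apply Subtype.ext
        funext j l
        change (if h : (l : ℕ) < e j then (u + v) j ⟨l, h⟩ else 0) =
          (if h : (l : ℕ) < e j then u j ⟨l, h⟩ else 0) +
            (if h : (l : ℕ) < e j then v j ⟨l, h⟩ else 0)
        split_ifs <;> simp
      map_smul' := fun c v => by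
        apply Subtype.ext
        funext j l
        change (if h : (l : ℕ) < e j then (c • v) j ⟨l, h⟩ else 0) =
          c • (if h : (l : ℕ) < e j then v j ⟨l, h⟩ else 0)
        split_ifs <;> simp }
  apply LinearMap.finrank_le_finrank_of_injective (f := E)
  intro u v huv
  funext j l
  have h2 : (if h : (l : ℕ) < e j then u j ⟨l, h⟩ else 0) =
      (if h : (l : ℕ) < e j then v j ⟨l, h⟩ else 0) :=
    congrFun (congrFun (congrArg Subtype.val huv) j) ⟨l, lt_of_lt_of_le l.2 (he j)⟩
  rw [dif_pos l.2, dif_pos l.2] at h2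
  exact h2

/-- the linear algebra of the pencil lemma -/
theorem pencil_linear (GF : F[X]) (n : ℕ) (hG : GF.Monic) (hn : GF.natDegree = n)
    (c : Fin 2 → Fin 4 → F[X]) (h : Fin 2 → Fin 4 → F[X])
    (e : Fin 4 → ℕ) (he : ∀ j, e j ≤ n) (hcount : 2 * n ≤ ∑ j, e j + 1)
    (hch : ∀ v : Fin 4 → F[X], (∀ i, GF ∣ ∑ j, c i j * v j) → ∀ i, GF ∣ ∑ j, h i j * v j)
    (hdeg : ∀ i j, (h i j).degree < n)
    (hsmall : ∀ v : Fin 4 → F[X], (∀ j m, e j ≤ m → (v j).coeff m = 0) →
      ∀ i m, n - 1 ≤ m → (∑ j, h i j * v j).coeff m = 0)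
    (hind : ∀ a : Fin 2 → F, (∀ j, ∑ i, C (a i) * h i j = 0) → a = 0) :
    ∃ v : Fin 4 → F[X], v ≠ 0 ∧ (∀ j m, e j ≤ m → (v j).coeff m = 0) ∧
      ∀ i, GF ∣ ∑ j, c i j * v j := by
  classical
  let T : (Fin 4 → Fin n → F) →ₗ[F] (Fin 2 → Fin n → F) :=
    LinearMap.pi fun i => LinearMap.pi fun l =>
      (lcoeff F (l : ℕ)) ∘ₗ (modByMonicHom GF) ∘ₗ dotL n (c i)
  have hTv : ∀ (v : Fin 4 → Fin n → F) (i : Fin 2) (l : Fin n),
      T v i l = ((∑ j, c i j * pl n (v j)) %ₘ GF).coeff l := by
    intro v i l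
    rw [← dotL_apply]
    rfl
  have hT : ∀ v : Fin 4 → Fin n → F, v ∈ LinearMap.ker T ↔
      ∀ i, GF ∣ ∑ j, c i j * pl n (v j) := by
    intro v
    rw [LinearMap.mem_ker]
    constructor
    · intro h1 i
      rw [← modByMonic_eq_zero_iff_dvd hG]
      ext l
      rw [coeff_zero]
      by_cases hl : l < n
      · have h2 := congrFun (congrFun h1 i) ⟨l, hl⟩
        rw [hTv] at h2
        exact h2
      · apply coeff_eq_zero_of_degree_lt
        refine lt_of_lt_of_le (degree_modByMonic_lt _ hG) ?_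
        rw [degree_eq_natDegree hG.ne_zero, hn]
        exact_mod_cast not_lt.1 hl
    · intro h1
      funext i l
      rw [hTv, (modByMonic_eq_zero_iff_dvd hG).2 (h1 i)]
      simp
  let Λ : (Fin 4 → Fin n → F) →ₗ[F] (Fin 2 → F) := LinearMap.pi fun i =>
    (lcoeff F (n - 1)) ∘ₗ (modByMonicHom GF) ∘ₗ dotL n (h i)
  have hΛ : ∀ (v : Fin 4 → Fin n → F) (i : Fin 2),
      Λ v i = ((∑ j, h i j * pl n (v j)) %ₘ GF).coeff (n - 1) := by
    intro v i
    rw [← dotL_apply]
    rfl
  have hKΛ : LinearMap.ker T ≤ LinearMap.ker Λ := by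
    intro v hv
    rw [LinearMap.mem_ker]
    funext i
    rw [hΛ, (modByMonic_eq_zero_iff_dvd hG).2 (hch (fun j => pl n (v j)) ((hT v).1 hv) i)]
    simp
  have hBd : ∀ v ∈ Bd F n e, ∀ j m, e j ≤ m → (pl n (v j)).coeff m = 0 := by
    intro v hv j m hm
    rw [coeff_pl]
    split_ifs with h1
    · exact hv j ⟨m, h1⟩ hm
    · rfl
  have hBΛ : Bd F n e ≤ LinearMap.ker Λ := by
    intro v hv
    rw [LinearMap.mem_ker]
    funext i
    rw [hΛ, Pi.zero_apply]
    have h1 := hsmall (fun j => pl n (v j)) (hBd v hv) i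
    rw [(modByMonic_eq_self_iff hG).2]
    · exact h1 _ le_rfl
    · rw [degree_eq_natDegree hG.ne_zero, hn, degree_lt_iff_coeff_zero]
      intro m hm
      exact h1 m (by omega)
  have hrange : LinearMap.range Λ = ⊤ := by
    by_contra hne
    obtain ⟨f, hf, hf'⟩ := Submodule.exists_le_ker_of_lt_top _ (lt_top_iff_ne_top.2 hne)
    apply hf
    have h1 : ∀ v : Fin 4 → Fin n → F, ∑ i, f (Pi.single i 1) * Λ v i = 0 := by
      intro v
      have h2 : f (Λ v) = 0 := hf' (LinearMap.mem_range_self Λ v)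
      rw [← h2]
      conv_rhs => rw [← Finset.univ_sum_single (Λ v)]
      rw [map_sum]
      refine Finset.sum_congr rfl fun i _ => ?_
      have h3 : (Pi.single i (Λ v i) : Fin 2 → F) = (Λ v i) • Pi.single i (1 : F) := by
        rw [← Pi.single_smul, smul_eq_mul, mul_one]
      rw [h3, map_smul, smul_eq_mul, mul_comm]
    have h2 := hind (fun i => f (Pi.single i 1)) (by
      intro j
      apply res_nondeg hG hn
      · refine lt_of_le_of_lt (degree_sum_le _ _) ?_
        rw [Finset.sup_lt_iff (by exact WithBot.bot_lt_coe n)]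
        intro i _
        refine lt_of_le_of_lt ?_ (hdeg i j)
        by_cases h0 : f (Pi.single i 1) = 0
        · rw [h0]; simp
        · rw [degree_C_mul h0]
      · intro m hm
        have h4 := h1 (Pi.single j (Pi.single ⟨m, hm⟩ 1))
        have hpl : pl n (Pi.single (⟨m, hm⟩ : Fin n) (1 : F)) = X ^ m := by
          ext l
          rw [coeff_pl, coeff_X_pow]
          by_cases hl : l < n
          · rw [dif_pos hl]
            by_cases hlm : l = m
            · subst hlm; simp
            · rw [if_neg hlm, Pi.single_eq_of_ne]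
              intro h'; exact hlm (congrArg Fin.val h')
          · rw [dif_neg hl, if_neg (by omega)]
        have h5 : ∀ i, Λ (Pi.single j (Pi.single ⟨m, hm⟩ 1)) i =
            ((h i j * X ^ m) %ₘ GF).coeff (n - 1) := by
          intro i
          rw [hΛ, Finset.sum_eq_single j]
          · rw [Pi.single_eq_same, hpl]
          · intro b _ hb
            rw [Pi.single_eq_of_ne hb, map_zero, mul_zero]
          · intro h; exact absurd (Finset.mem_univ _) h
        simp only [h5] at h4
        rw [← h4, Finset.sum_mul]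
        have h6 : (∑ i, C (f (Pi.single i 1)) * h i j * X ^ m) =
            ∑ i, f (Pi.single i 1) • (h i j * X ^ m) := by
          refine Finset.sum_congr rfl fun i _ => ?_
          rw [smul_eq_C_mul]; ring
        rw [h6]
        have h7 := map_sum (modByMonicHom GF) (fun i => f (Pi.single i 1) • (h i j * X ^ m))
          Finset.univ
        simp only [modByMonicHom_apply] at h7
        rw [h7, finsetSum_coeff]
        refine Finset.sum_congr rfl fun i _ => ?_
        rw [smul_modByMonic, coeff_smul, smul_eq_mul])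
    apply LinearMap.pi_ext'
    intro i
    apply LinearMap.ext_ring
    exact congrFun h2 i
  obtain ⟨v, hv0, hvT, hvB⟩ := dim_count T Λ (Bd F n e) hrange hKΛ hBΛ (by
    have h7 := finrank_Bd (F := F) e he
    rw [Module.finrank_pi_fintype, Module.finrank_fin_fun]
    simp only [Module.finrank_fin_fun, Finset.sum_const, Finset.card_univ, Fintype.card_fin,
      smul_eq_mul]
    omega)
  refine ⟨fun j => pl n (v j), ?_, hBd v hvB, (hT v).1 hvT⟩
  intro h
  apply hv0
  funext j l
  have h1 := congrArg (fun p : F[X] => p.coeff l) (congrFun h j)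
  simp only [Pi.zero_apply, coeff_zero] at h1
  rw [coeff_pl, dif_pos l.2] at h1
  exact h1

end Field

section Affine

variable {k : Type*} [Field k] {κ : Type*} [Field κ] [Algebra k κ]

lemma exists_clear (P : (FractionRing k[X])[X]) : ∃ (b : k[X]) (p : k[X][X]), b ≠ 0 ∧
    p.map (algebraMap k[X] (FractionRing k[X])) = C (algebraMap _ _ b) * P := by
  obtain ⟨b, hb, hb2⟩ := IsLocalization.integerNormalization_spec (nonZeroDivisors k[X]) P
  refine ⟨b, IsLocalization.integerNormalization (nonZeroDivisors k[X]) P,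
    nonZeroDivisors.ne_zero hb, ?_⟩
  rw [hb2]
  ext m
  rw [coeff_smul, coeff_C_mul, Algebra.smul_def]

lemma exists_clear4 (v : Fin 4 → (FractionRing k[X])[X]) : ∃ (b : k[X]) (p : Fin 4 → k[X][X]),
    b ≠ 0 ∧ ∀ j, (p j).map (algebraMap k[X] (FractionRing k[X])) =
      C (algebraMap _ _ b) * v j := by
  choose b p hb hp using fun j => exists_clear (v j)
  refine ⟨∏ j, b j, fun j => C (∏ i ∈ Finset.univ.erase j, b i) * p j,
    Finset.prod_ne_zero_iff.2 fun j _ => hb j, fun j => ?_⟩
  rw [Polynomial.map_mul, hp, map_C, ← mul_assoc, ← C_mul, ← map_mul,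
    Finset.prod_erase_mul _ _ (Finset.mem_univ j)]

/-- **The pencil lemma**: two independent relations of small degree in `Y` give an isotropic
vector. -/
theorem pencil (x y : κ) (G : k[X][X]) (n : ℕ) (hG : G.Monic) (hn : G.natDegree = n)
    (hGev : ∀ p : k[X][X], ev x y p = 0 ↔ G ∣ p) (W : Submodule κ (Fin 4 → κ))
    (hW : Module.finrank κ W = 2) (wt : Fin 4 → ℕ) (r : ℕ) (hrn : 2 * r ≤ n)
    (hwt : ∀ j, r + wt j ≤ n) (hcount : 2 * n ≤ ∑ j, (r - wt j) + 1)
    (M : Matrix (Fin 4) (Fin 4) k[X][X])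
    (hM : ∀ i j m, 1 + wt i + wt j < m → (M i j).coeff m = 0)
    (hiso : ∀ w ∈ W, ∑ i, ∑ j, ev x y (M i j) * w i * w j = 0)
    (haniso : ∀ w : Fin 4 → k[X][X], ∑ i, ∑ j, M i j * w i * w j = 0 → ∀ i, w i = 0)
    (c : Fin 2 → Fin 4 → k[X][X]) (hc : ∀ i, ∀ w ∈ W, (fun j => ev x y (c i j)) ⬝ᵥ w = 0)
    (hcind : ∀ s t : κ, s • (fun j => ev x y (c 0 j)) + t • (fun j => ev x y (c 1 j)) = 0 →
      s = 0 ∧ t = 0)
    (h : Fin 2 → Fin 4 → k[X][X]) (hh : ∀ i, ∀ w ∈ W, (fun j => ev x y (h i j)) ⬝ᵥ w = 0)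
    (hdeg : ∀ i j m, r + wt j ≤ m → (h i j).coeff m = 0)
    (hind : ∀ a : Fin 2 → k[X], (∀ j, ∑ i, C (a i) * h i j = 0) → a = 0) : False := by
  classical
  have hn0 := n_pos k x y G n hG hn hGev
  have hxinj : Function.Injective (aeval x : k[X] →ₐ[k] κ).toRingHom := by
    rw [injective_iff_map_eq_zero]
    exact fun c hc => inj_x k x y G n hG hn hGev c hc
  set F := FractionRing k[X] with hF
  set ι : k[X] →+* F := algebraMap k[X] F with hι
  have hιinj : Function.Injective ι := IsFractionRing.injective k[X] F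
  let lft : F →+* κ := IsFractionRing.lift hxinj
  have hlft : ∀ p : k[X], lft (ι p) = aeval x p := fun p => IsFractionRing.lift_algebraMap hxinj p
  let evF : F[X] →+* κ := eval₂RingHom lft y
  have hevF : ∀ p : k[X][X], evF (p.map ι) = ev x y p := by
    intro p
    change eval₂ lft y (p.map ι) = eval₂ _ y p
    rw [eval₂_map]
    congr 1
    ext q
    · exact hlft (C q)
    · exact hlft X
  set GF := G.map ι with hGF
  have hGFm : GF.Monic := hG.map ι
  have hGFn : GF.natDegree = n := by rw [hGF, hG.natDegree_map, hn]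
  have hkey : ∀ P : F[X], evF P = 0 → GF ∣ P := by
    intro P hP
    obtain ⟨b, p, hb, hp⟩ := exists_clear P
    have h1 : ev x y p = 0 := by
      rw [← hevF, hp, map_mul, hP, mul_zero]
    have h2 := Polynomial.map_dvd ι ((hGev p).1 h1)
    rw [hp] at h2
    have hu : IsUnit (C (ι b) : F[X]) := by
      rw [isUnit_C]
      exact IsUnit.mk0 _ fun h => hb (hιinj (by rw [h, map_zero]))
    exact (hu.dvd_mul_left).1 h2
  have hevG : evF GF = 0 := by rw [hGF, hevF, (hGev G).2 dvd_rfl]
  have hkey' : ∀ P : F[X], GF ∣ P → evF P = 0 := by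
    rintro P ⟨q, rfl⟩
    rw [map_mul, hevG, zero_mul]
  have hmem : ∀ v : Fin 4 → F[X], (∀ i, GF ∣ ∑ j, (c i j).map ι * v j) →
      (fun j => evF (v j)) ∈ W := by
    intro v hv
    have h1 : ∀ i, (fun j => ev x y (c i j)) ⬝ᵥ (fun j => evF (v j)) = 0 := by
      intro i
      have h2 := hkey' _ (hv i)
      rw [map_sum] at h2
      rw [← h2, dotProduct]
      refine Finset.sum_congr rfl fun j _ => ?_
      rw [map_mul, hevF]
    exact mem_of_orth W hW _ _ hcind (hc 0) (hc 1) _ (h1 0) (h1 1)
  have hdeg' : ∀ i j m, r + wt j ≤ m → ((h i j).map ι).coeff m = 0 := by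
    intro i j m hm
    rw [coeff_map, hdeg i j m hm, map_zero]
  obtain ⟨v, hv0, hvd, hvc⟩ := pencil_linear GF n hGFm hGFn (fun i j => (c i j).map ι)
    (fun i j => (h i j).map ι) (fun j => r - wt j) (fun j => by omega) hcount (by
      intro v hv i
      apply hkey
      have h1 := hh i _ (hmem v hv)
      rw [map_sum, ← h1, dotProduct]
      refine Finset.sum_congr rfl fun j _ => ?_
      rw [map_mul, hevF]) (by
      intro i j
      rw [degree_lt_iff_coeff_zero]
      intro m hm
      have := hwt j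
      exact hdeg' i j m (by omega)) (by
      intro v hv i m hm
      rw [finsetSum_coeff]
      refine Finset.sum_eq_zero fun j _ => ?_
      rw [coeff_mul]
      refine Finset.sum_eq_zero fun s hs => ?_
      rw [Finset.HasAntidiagonal.mem_antidiagonal] at hs
      by_cases h1 : r + wt j ≤ s.1
      · rw [hdeg' i j _ h1, zero_mul]
      · by_cases h2 : r - wt j ≤ s.2
        · rw [hv j _ h2, mul_zero]
        · omega) (by
      intro a ha
      -- clear denominators
      obtain ⟨b, hb⟩ := IsLocalization.exist_integer_multiples_of_finset (nonZeroDivisors k[X])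
        (Finset.univ.image a)
      have hb0 : (b : k[X]) ≠ 0 := nonZeroDivisors.ne_zero b.2
      have h1 : ∀ i, ∃ q : k[X], ι q = ι b * a i := by
        intro i
        obtain ⟨q, hq⟩ := hb (a i) (Finset.mem_image_of_mem a (Finset.mem_univ i))
        exact ⟨q, by rw [hq, Algebra.smul_def]⟩
      choose q hq using h1
      have h2 : q = 0 := by
        apply hind
        intro j
        apply Polynomial.map_injective ι hιinj
        rw [Polynomial.map_sum, Polynomial.map_zero]
        have h3 : ∑ i, (C (q i) * h i j).map ι = C (ι b) * ∑ i, C (a i) * (h i j).map ι := by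
          rw [Finset.mul_sum]
          refine Finset.sum_congr rfl fun i _ => ?_
          rw [Polynomial.map_mul, map_C, hq, C_mul]; ring
        rw [h3, ha j, mul_zero]
      funext i
      have h4 := hq i
      rw [h2, Pi.zero_apply, map_zero] at h4
      have h5 : ι b ≠ 0 := fun h => hb0 (hιinj (by rw [h, map_zero]))
      exact (mul_eq_zero.1 h4.symm).resolve_left h5)
  -- the isotropic vector
  apply hv0
  obtain ⟨b, p, hb, hp⟩ := exists_clear4 v
  have hιb : ι b ≠ 0 := fun h => hb (hιinj (by rw [h, map_zero]))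
  have hz : ∑ i, ∑ j, (M i j).map ι * v i * v j = 0 := by
    have h1 := hiso _ (hmem v hvc)
    have h2 : evF (∑ i, ∑ j, (M i j).map ι * v i * v j) = 0 := by
      rw [← h1, map_sum]
      refine Finset.sum_congr rfl fun i _ => ?_
      rw [map_sum]
      refine Finset.sum_congr rfl fun j _ => ?_
      rw [map_mul, map_mul, hevF]
    have h3 := hkey _ h2
    rw [← modByMonic_eq_zero_iff_dvd hGFm] at h3
    rw [← h3]
    symm
    rw [modByMonic_eq_self_iff hGFm, degree_eq_natDegree hGFm.ne_zero, hGFn,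
      degree_lt_iff_coeff_zero]
    intro m hm
    rw [finsetSum_coeff]
    refine Finset.sum_eq_zero fun i _ => ?_
    rw [finsetSum_coeff]
    refine Finset.sum_eq_zero fun j _ => ?_
    rw [coeff_mul]
    refine Finset.sum_eq_zero fun s hs => ?_
    rw [Finset.HasAntidiagonal.mem_antidiagonal] at hs
    by_cases h2 : r - wt j ≤ s.2
    · rw [hvd j _ h2, mul_zero]
    · rw [coeff_mul]
      have h4 : ∑ t ∈ Finset.HasAntidiagonal.antidiagonal s.1,
          ((M i j).map ι).coeff t.1 * (v i).coeff t.2 = 0 := by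
        refine Finset.sum_eq_zero fun t ht => ?_
        rw [Finset.HasAntidiagonal.mem_antidiagonal] at ht
        by_cases h5 : r - wt i ≤ t.2
        · rw [hvd i _ h5, mul_zero]
        · rw [coeff_map, hM i j t.1 (by omega), map_zero, zero_mul]
      rw [h4, zero_mul]
  have hp0 := haniso p (by
    apply Polynomial.map_injective ι hιinj
    rw [Polynomial.map_sum, Polynomial.map_zero]
    have h3 : ∑ i, (∑ j, M i j * p i * p j).map ι =
        C (ι b) ^ 2 * ∑ i, ∑ j, (M i j).map ι * v i * v j := by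
      rw [Finset.mul_sum]
      refine Finset.sum_congr rfl fun i _ => ?_
      rw [Polynomial.map_sum, Finset.mul_sum]
      refine Finset.sum_congr rfl fun j _ => ?_
      rw [Polynomial.map_mul, Polynomial.map_mul, hp, hp]; ring
    rw [h3, hz, mul_zero])
  funext j
  have h6 := hp j
  rw [hp0 j, Polynomial.map_zero] at h6
  exact (mul_eq_zero.1 h6.symm).resolve_left (C_ne_zero.2 hιb)

end Affine

end Vale.Agent.P287.H270
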