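import Vale.Agent.P287.H270.Pencil
import Vale.Agent.P287.H270.Main
import Vale.Agent.P287.H925.RankCore

/-!
The pencil lemma for homogeneous forms through a scroll.
-/

namespace Vale.Agent.P287.H270

open Polynomial Matrix
open Vale.Agent.P287.H925 (wt ScrollForm Primitive exists_prim homog_factor hom_quot)

set_option linter.unusedSectionVars false

variable {k : Type*} [Field k] {κ : Type*} [Field κ]


lemma wt_le1 (i : Fin 4) : wt i ≤ 1 := by
  fin_cases i <;> decide

/-- The data: `g` is monic in the last variable. -/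
structure Mon (φ : MvPolynomial (Fin 3) k →+* κ) (g : MvPolynomial (Fin 3) k) (r : ℕ)
    (W : Submodule κ (Fin 4 → κ)) (M : Matrix (Fin 4) (Fin 4) (MvPolynomial (Fin 3) k)) :
    Prop where
  hr : 1 ≤ r
  hgn : g.IsHomogeneous (2 * r)
  hg1 : ((dh g).coeff (2 * r)).coeff 0 = 1
  hφ : ∀ p, φ p = 0 ↔ g ∣ p
  hW : Module.finrank κ W = 2
  hM : ∀ i j, (M i j).IsHomogeneous (1 + wt i + wt j)
  hiso : ∀ w ∈ W, w ⬝ᵥ (M.map φ *ᵥ w) = 0
  haniso : ∀ v : Fin 4 → MvPolynomial (Fin 3) k, v ⬝ᵥ (M *ᵥ v) = 0 → v = 0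

variable {φ : MvPolynomial (Fin 3) k →+* κ} {g : MvPolynomial (Fin 3) k} {r : ℕ}
  {W : Submodule κ (Fin 4 → κ)} {M : Matrix (Fin 4) (Fin 4) (MvPolynomial (Fin 3) k)}

lemma Mon.G_coeff (H : Mon φ g r W M) : (dh g).coeff (2 * r) = 1 := by
  ext i
  by_cases hi : i = 0
  · rw [hi, H.hg1, coeff_one_zero]
  · rw [TD_dh H.hgn _ _ (by omega), coeff_one, if_neg hi]

lemma Mon.G_deg (H : Mon φ g r W M) : (dh g).natDegree = 2 * r := by
  apply le_antisymm
  · rw [natDegree_le_iff_coeff_eq_zero]
    intro j hj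
    ext i
    rw [TD_dh H.hgn _ _ (by omega), coeff_zero]
  · apply le_natDegree_of_ne_zero
    rw [H.G_coeff]; exact one_ne_zero

lemma Mon.G_monic (H : Mon φ g r W M) : (dh g).Monic := by
  rw [Monic, leadingCoeff, H.G_deg, H.G_coeff]

lemma Mon.g_ne (H : Mon φ g r W M) : g ≠ 0 := by
  intro h
  have := H.hg1
  rw [h, map_zero, coeff_zero, coeff_zero] at this
  exact one_ne_zero this.symm

/-- a nonzero form of degree less than `2 r` does not vanish on the curve -/
lemma Mon.phi_ne (H : Mon φ g r W M) {p : MvPolynomial (Fin 3) k} {d : ℕ}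
    (hp : p.IsHomogeneous d) (hd : d < 2 * r) (hp0 : p ≠ 0) : φ p ≠ 0 := by
  intro h
  obtain ⟨q, hq⟩ := (H.hφ p).1 h
  have hq0 : q ≠ 0 := by
    rintro rfl
    rw [mul_zero] at hq
    exact hp0 hq
  have h1 := congrArg MvPolynomial.totalDegree hq
  rw [MvPolynomial.totalDegree_mul_of_isDomain H.g_ne hq0, hp.totalDegree hp0,
    H.hgn.totalDegree H.g_ne] at h1
  omega

lemma Mon.phi_X (H : Mon φ g r W M) (i : Fin 3) : φ (MvPolynomial.X i) ≠ 0 :=
  H.phi_ne (MvPolynomial.isHomogeneous_X _ _) (by have := H.hr; omega) (MvPolynomial.X_ne_zero _)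

/-- There are enough relations. -/
def Rat (φ : MvPolynomial (Fin 3) k →+* κ) (W : Submodule κ (Fin 4 → κ)) : Prop :=
  ∃ (T : ℕ) (c : Fin 2 → Fin 4 → MvPolynomial (Fin 3) k), (∀ i, ScrollForm φ W T (c i)) ∧
    ∀ s t : κ, (∀ j, s * φ (c 0 j) + t * φ (c 1 j) = 0) → s = 0 ∧ t = 0

theorem Mon.pencil (H : Mon φ g r W M) (hrat : Rat φ W)
    (h : Fin 2 → Fin 4 → MvPolynomial (Fin 3) k) (D : Fin 2 → ℕ)
    (hh : ∀ i, ScrollForm φ W (D i) (h i))
    (hdeg : ∀ i j m, r + wt j ≤ m → (dh (h i j)).coeff m = 0)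
    (hind : ∀ a : Fin 2 → k[X], (∀ j, ∑ i, C (a i) * dh (h i j) = 0) → a = 0) : False := by
  classical
  let _ : Algebra k κ := (φ.comp MvPolynomial.C).toAlgebra
  have hφC : ∀ c, φ (MvPolynomial.C c) = algebraMap k κ c := fun c => rfl
  have h0 := H.phi_X 0
  set x := φ (MvPolynomial.X 1) / φ (MvPolynomial.X 0) with hx
  set y := φ (MvPolynomial.X 2) / φ (MvPolynomial.X 0) with hy
  have hGev : ∀ p : k[X][X], ev x y p = 0 ↔ dh g ∣ p := by
    intro p
    constructor
    · intro hp
      obtain ⟨m, hmp⟩ := exists_TD p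
      have h1 : φ (hm m p) = 0 := by
        rw [phi_eq φ hφC h0 (hm_homogeneous m p), dh_hm hmp, hp, mul_zero]
      rw [H.hφ] at h1
      have h2 := map_dvd dh h1
      rwa [dh_hm hmp] at h2
    · intro h
      have h1 : ev x y (dh g) = 0 := by
        have h2 := phi_eq φ hφC h0 H.hgn
        rw [(H.hφ g).2 dvd_rfl] at h2
        exact (mul_eq_zero.1 h2.symm).resolve_left (pow_ne_zero _ h0)
      obtain ⟨q, rfl⟩ := h
      rw [map_mul, h1, zero_mul]
  set E := scaleE _ h0 wt with hE
  set W' := W.map E.toLinearMap with hW'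
  have hfin : Module.finrank κ W' = 2 := by
    rw [hW', ← H.hW]
    exact LinearEquiv.finrank_map_eq E W
  have hrel : ∀ (T : ℕ) (f : Fin 4 → MvPolynomial (Fin 3) k), ScrollForm φ W T f →
      ∀ w ∈ W', (fun j => ev x y (dh (f j))) ⬝ᵥ w = 0 := by
    rintro T f hf w' ⟨w, hw, rfl⟩
    have h1 := hf.van w hw
    have key : ∑ i, φ (f i) * w i = φ (MvPolynomial.X 0) ^ T *
        ((fun j => ev x y (dh (f j))) ⬝ᵥ (E w)) := by
      rw [dotProduct, Finset.mul_sum]
      refine Finset.sum_congr rfl fun i _ => ?_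
      rw [phi_eq φ hφC h0 (hf.hom i), hE, scaleE_apply, pow_add]
      ring
    rw [key] at h1
    exact (mul_eq_zero.1 h1).resolve_left (pow_ne_zero _ h0)
  obtain ⟨T, c, hc, hcind⟩ := hrat
  have hwt4 : wt 0 = 0 ∧ wt 1 = 0 ∧ wt 2 = 0 ∧ wt 3 = 1 := ⟨rfl, rfl, rfl, rfl⟩
  obtain ⟨hw0, hw1, hw2, hw3⟩ := hwt4
  have hr := H.hr
  refine Vale.Agent.P287.H270.pencil x y (dh g) (2 * r) H.G_monic H.G_deg hGev W' hfin wt r le_rfl
    (fun j => by
      have := wt_le1 j
      omega)
    (by rw [Fin.sum_univ_four, hw0, hw1, hw2, hw3]; omega) (M.map dh)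
    (fun i j m hm => by
      ext a
      rw [Matrix.map_apply, TD_dh (H.hM i j) _ _ (by omega), coeff_zero])
    (by
      rintro w' ⟨w, hw, rfl⟩
      have h1 := H.hiso w hw
      rw [hdot] at h1
      have h2 : ∀ i j, (M.map φ) i j * w i * w j = φ (MvPolynomial.X 0) *
          (ev x y ((M.map dh) i j) * E w i * E w j) := by
        intro i j
        rw [Matrix.map_apply, Matrix.map_apply, phi_eq φ hφC h0 (H.hM i j), hE, scaleE_apply,
          scaleE_apply, pow_add, pow_add, pow_one]
        ring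
      simp only [h2, ← Finset.mul_sum] at h1
      exact (mul_eq_zero.1 h1).resolve_left h0)
    (by
      intro w hw
      choose Dw hDw using fun j => exists_TD (w j)
      set T := ∑ j, (Dw j + wt j) with hT
      have hle : ∀ j, Dw j + wt j ≤ T := fun j =>
        Finset.single_le_sum (f := fun j => Dw j + wt j) (fun _ _ => Nat.zero_le _)
          (Finset.mem_univ j)
      set v : Fin 4 → MvPolynomial (Fin 3) k := fun j => hm (T - wt j) (w j) with hv
      have hvd : ∀ j, dh (v j) = w j := fun j =>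
        dh_hm ((hDw j).mono (by have := hle j; omega))
      have hz : v ⬝ᵥ (M *ᵥ v) = 0 := by
        rw [hdot]
        apply dh_inj (m := 1 + 2 * T)
        · refine MvPolynomial.IsHomogeneous.sum _ _ _ fun i _ =>
            MvPolynomial.IsHomogeneous.sum _ _ _ fun j _ => ?_
          have h1 := ((H.hM i j).mul (hm_homogeneous (T - wt i) (w i))).mul
            (hm_homogeneous (T - wt j) (w j))
          have h2 : 1 + wt i + wt j + (T - wt i) + (T - wt j) = 1 + 2 * T := by
            have := hle i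
            have := hle j
            omega
          rwa [h2] at h1
        · rw [map_sum]
          simp only [map_sum, map_mul, hvd]
          exact hw
      have h3 := H.haniso v hz
      intro i
      rw [← hvd i, h3, Pi.zero_apply, map_zero])
    (fun i j => dh (c i j)) (fun i => hrel T (c i) (hc i)) (by
      intro s t hst
      apply hcind
      intro j
      have h1 := congrFun hst j
      simp only [Pi.add_apply, Pi.smul_apply, smul_eq_mul, Pi.zero_apply] at h1
      rw [phi_eq φ hφC h0 ((hc 0).hom j), phi_eq φ hφC h0 ((hc 1).hom j)]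
      linear_combination φ (MvPolynomial.X 0) ^ (T + wt j) * h1)
    (fun i j => dh (h i j)) (fun i => hrel (D i) (h i) (hh i)) hdeg hind

lemma dh_X0 : dh (MvPolynomial.X 0 : MvPolynomial (Fin 3) k) = 1 := by simp [dh]
lemma dh_X2 : dh (MvPolynomial.X 2 : MvPolynomial (Fin 3) k) = X := by simp [dh]

lemma ScrollForm_mul {D d : ℕ} {f : Fin 4 → MvPolynomial (Fin 3) k} (hf : ScrollForm φ W D f)
    {p : MvPolynomial (Fin 3) k} (hp : p.IsHomogeneous d) :
    ScrollForm φ W (d + D) (fun j => p * f j) := by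
  refine ⟨fun i => ?_, fun w hw => ?_⟩
  · have h := hp.mul (hf.hom i)
    rwa [← add_assoc] at h
  · have h1 := hf.van w hw
    calc ∑ i, φ (p * f i) * w i = φ p * ∑ i, φ (f i) * w i := by
          rw [Finset.mul_sum]
          refine Finset.sum_congr rfl fun i _ => ?_
          rw [map_mul]; ring
      _ = 0 := by rw [h1, mul_zero]

lemma ScrollForm_add {D : ℕ} {f f' : Fin 4 → MvPolynomial (Fin 3) k} (hf : ScrollForm φ W D f)
    (hf' : ScrollForm φ W D f') : ScrollForm φ W D (f + f') := by
  refine ⟨fun i => (hf.hom i).add (hf'.hom i), fun w hw => ?_⟩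
  have h1 := hf.van w hw
  have h2 := hf'.van w hw
  simp only [Pi.add_apply, map_add, add_mul, Finset.sum_add_distrib, h1, h2, add_zero]

/-- a nonzero form through the scroll of degree `r - 1` is primitive -/
theorem Mon.primitive (H : Mon φ g r W M) (hrat : Rat φ W) {s : Fin 4 → MvPolynomial (Fin 3) k}
    (hs : ScrollForm φ W (r - 1) s) (hs0 : s ≠ 0) : Primitive s := by
  obtain ⟨τ, e, hτ, he, hprim⟩ := exists_prim s hs0
  obtain ⟨i0, hi0⟩ := hprim.ne_zero
  have hr := H.hr
  obtain ⟨d, l, hd, hl, hdl⟩ := homog_factor (n := r - 1 + wt i0) (by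
    rw [← he i0]; exact hs.hom i0) (mul_ne_zero hτ hi0)
  have hw := wt_le1 i0
  have hφτ := H.phi_ne hd (by omega) hτ
  rcases Nat.eq_zero_or_pos d with h | hd1
  · subst h
    obtain ⟨c, rfl⟩ := Vale.Agent.P287.H925.const_of_hom hd
    have hc : c ≠ 0 := by
      rintro rfl
      exact hτ (map_zero _)
    have hu : IsUnit (MvPolynomial.C c : MvPolynomial (Fin 3) k) := (IsUnit.mk0 c hc).map MvPolynomial.C
    intro a b hab
    refine hprim a b fun i => ?_
    have h1 := hab i
    rw [he i] at h1
    have h2 : a * (MvPolynomial.C c * e i) = MvPolynomial.C c * (a * e i) := by ring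
    rw [h2] at h1
    exact (hu.dvd_mul_left).1 h1
  · exfalso
    have hehom : ∀ i, (e i).IsHomogeneous (r - 1 + wt i - d) ∧ (e i ≠ 0 → d ≤ r - 1 + wt i) := by
      intro i
      by_cases hei : e i = 0
      · rw [hei]; exact ⟨MvPolynomial.isHomogeneous_zero _ _ _, fun h => absurd rfl h⟩
      · obtain ⟨d', l', hd', hl', hdl'⟩ := homog_factor (n := r - 1 + wt i) (by
          rw [← he i]; exact hs.hom i) (mul_ne_zero hτ hei)
        have : d' = d := by
          rw [← hd'.totalDegree hτ, ← hd.totalDegree hτ]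
        subst this
        have h3 : r - 1 + wt i - d' = l' := by omega
        rw [h3]
        exact ⟨hl', fun _ => by omega⟩
    have hevan : ∀ w ∈ W, ∑ i, φ (e i) * w i = 0 := by
      intro w hw
      have h1 := hs.van w hw
      have h2 : φ τ * ∑ i, φ (e i) * w i = 0 := by
        rw [← h1, Finset.mul_sum]
        refine Finset.sum_congr rfl fun i _ => ?_
        rw [he i, map_mul]; ring
      exact (mul_eq_zero.1 h2).resolve_left hφτ
    have hmul : ∀ p : MvPolynomial (Fin 3) k, p.IsHomogeneous d →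
        ScrollForm φ W (r - 1) (fun j => p * e j) := by
      intro p hp
      refine ⟨fun i => ?_, fun w hw => ?_⟩
      · by_cases hei : e i = 0
        · rw [hei, mul_zero]; exact MvPolynomial.isHomogeneous_zero _ _ _
        · have h1 := hp.mul (hehom i).1
          have h2 := (hehom i).2 hei
          have h3 : d + (r - 1 + wt i - d) = r - 1 + wt i := by omega
          rwa [h3] at h1
      · have h1 := hevan w hw
        calc ∑ i, φ (p * e i) * w i = φ p * ∑ i, φ (e i) * w i := by
              rw [Finset.mul_sum]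
              refine Finset.sum_congr rfl fun i _ => ?_
              rw [map_mul]; ring
          _ = 0 := by rw [h1, mul_zero]
    have hTDe : ∀ i m, r - 1 + wt i - d < m → (dh (e i)).coeff m = 0 := by
      intro i m hm
      ext a
      rw [TD_dh (hehom i).1 _ _ (by omega), coeff_zero]
    have hX0 : (MvPolynomial.X 0 ^ d : MvPolynomial (Fin 3) k).IsHomogeneous d := by
      have := (MvPolynomial.isHomogeneous_X k (0 : Fin 3)).pow d
      rwa [one_mul] at this
    have hX2 : (MvPolynomial.X 2 * MvPolynomial.X 0 ^ (d - 1) :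
        MvPolynomial (Fin 3) k).IsHomogeneous d := by
      have := (MvPolynomial.isHomogeneous_X k (2 : Fin 3)).mul
        ((MvPolynomial.isHomogeneous_X k (0 : Fin 3)).pow (d - 1))
      have h3 : 1 + 1 * (d - 1) = d := by omega
      rwa [h3] at this
    refine H.pencil hrat ![fun j => MvPolynomial.X 0 ^ d * e j,
      fun j => MvPolynomial.X 2 * MvPolynomial.X 0 ^ (d - 1) * e j] (fun _ => r - 1) ?_ ?_ ?_
    · intro i
      fin_cases i
      · exact hmul _ hX0
      · exact hmul _ hX2
    · intro i j m hm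
      have hwj := wt_le1 j
      fin_cases i
      · change (dh (MvPolynomial.X 0 ^ d * e j)).coeff m = 0
        rw [map_mul, map_pow, dh_X0, one_pow, one_mul]
        by_cases hej : e j = 0
        · rw [hej, map_zero, coeff_zero]
        · have := (hehom j).2 hej
          exact hTDe j m (by omega)
      · change (dh (MvPolynomial.X 2 * MvPolynomial.X 0 ^ (d - 1) * e j)).coeff m = 0
        rw [map_mul, map_mul, map_pow, dh_X0, one_pow, mul_one, dh_X2]
        obtain ⟨m', rfl⟩ : ∃ m', m = m' + 1 := ⟨m - 1, by omega⟩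
        rw [coeff_X_mul]
        by_cases hej : e j = 0
        · rw [hej, map_zero, coeff_zero]
        · have := (hehom j).2 hej
          exact hTDe j m' (by omega)
    · intro a ha
      have h1 := ha i0
      rw [Fin.sum_univ_two] at h1
      have h2 : (C (a 0) + C (a 1) * X) * dh (e i0) = 0 := by
        rw [← h1]
        change _ = C (a 0) * dh (MvPolynomial.X 0 ^ d * e i0) +
          C (a 1) * dh (MvPolynomial.X 2 * MvPolynomial.X 0 ^ (d - 1) * e i0)
        rw [map_mul, map_mul, map_mul, map_pow, map_pow, dh_X0, one_pow, one_pow, one_mul, mul_one,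
          dh_X2]
        ring
      have h3 : dh (e i0) ≠ 0 := fun h => hi0 (dh_inj (hehom i0).1 h)
      have h4 := (mul_eq_zero.1 h2).resolve_right h3
      have h5 := congrArg (fun p : k[X][X] => p.coeff 0) h4
      have h6 := congrArg (fun p : k[X][X] => p.coeff 1) h4
      simp only [coeff_add, coeff_C_zero, coeff_zero, mul_coeff_zero, coeff_X_zero, mul_zero,
        add_zero] at h5
      simp only [coeff_add, coeff_zero, coeff_C_mul, coeff_X_one, mul_one] at h6
      rw [coeff_C_succ, zero_add] at h6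
      funext i
      fin_cases i
      · exact h5
      · exact h6

/-- the value at the point `(0, 0, 1)` -/
noncomputable def val (D : ℕ) (f : Fin 4 → MvPolynomial (Fin 3) k) (j : Fin 4) : k :=
  ((dh (f j)).coeff (D + wt j)).coeff 0

lemma coeff_of_val {D : ℕ} {f : Fin 4 → MvPolynomial (Fin 3) k} (hf : ScrollForm φ W D f)
    (hv : val D f = 0) (j : Fin 4) (m : ℕ) (hm : D + wt j ≤ m) : (dh (f j)).coeff m = 0 := by
  ext a
  rw [coeff_zero]
  by_cases h : a = 0 ∧ m = D + wt j
  · rw [h.1, h.2]
    exact congrFun hv j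
  · exact TD_dh (hf.hom j) a m (by omega)

/-- a nonzero form through the scroll of degree `r - 1` does not vanish at `(0, 0, 1)` -/
theorem Mon.val_ne (H : Mon φ g r W M) (hrat : Rat φ W) {s : Fin 4 → MvPolynomial (Fin 3) k}
    (hs : ScrollForm φ W (r - 1) s) (hs0 : s ≠ 0) : val (r - 1) s ≠ 0 := by
  intro hv
  have hr := H.hr
  obtain ⟨i0, hi0⟩ : ∃ i, s i ≠ 0 := by
    by_contra hcon
    push Not at hcon
    exact hs0 (funext hcon)
  have hc := coeff_of_val hs hv
  have hs1 : ScrollForm φ W r (fun j => MvPolynomial.X 2 * s j) := by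
    have := ScrollForm_mul hs (MvPolynomial.isHomogeneous_X k (2 : Fin 3))
    have h3 : 1 + (r - 1) = r := by omega
    rwa [h3] at this
  refine H.pencil hrat ![s, fun j => MvPolynomial.X 2 * s j] ![r - 1, r] ?_ ?_ ?_
  · intro i
    fin_cases i
    · exact hs
    · exact hs1
  · intro i j m hm
    fin_cases i
    · exact hc j m (by omega)
    · change (dh (MvPolynomial.X 2 * s j)).coeff m = 0
      rw [map_mul, dh_X2]
      obtain ⟨m', rfl⟩ : ∃ m', m = m' + 1 := ⟨m - 1, by omega⟩
      rw [coeff_X_mul]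
      exact hc j m' (by omega)
  · intro a ha
    have h1 := ha i0
    rw [Fin.sum_univ_two] at h1
    have h2 : (C (a 0) + C (a 1) * X) * dh (s i0) = 0 := by
      rw [← h1]
      change _ = C (a 0) * dh (s i0) + C (a 1) * dh (MvPolynomial.X 2 * s i0)
      rw [map_mul, dh_X2]
      ring
    have h3 : dh (s i0) ≠ 0 := fun h => hi0 (dh_inj (hs.hom i0) h)
    have h4 := (mul_eq_zero.1 h2).resolve_right h3
    have h5 := congrArg (fun p : k[X][X] => p.coeff 0) h4
    have h6 := congrArg (fun p : k[X][X] => p.coeff 1) h4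
    simp only [coeff_add, coeff_C_zero, coeff_zero, mul_coeff_zero, coeff_X_zero, mul_zero,
      add_zero] at h5
    simp only [coeff_add, coeff_zero, coeff_C_mul, coeff_X_one, mul_one] at h6
    rw [coeff_C_succ, zero_add] at h6
    funext i
    fin_cases i
    · exact h5
    · exact h6

/-- a form of degree `r` which vanishes at `(0, 0, 1)` is a multiple of `s` -/
theorem Mon.mult_of_val (H : Mon φ g r W M) (hrat : Rat φ W)
    {s : Fin 4 → MvPolynomial (Fin 3) k} (hs : ScrollForm φ W (r - 1) s) (hs0 : s ≠ 0)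
    {h : Fin 4 → MvPolynomial (Fin 3) k} (hh : ScrollForm φ W r h) (hv : val r h = 0) :
    ∃ l : MvPolynomial (Fin 3) k, l.IsHomogeneous 1 ∧ ∀ j, h j = l * s j := by
  classical
  have hr := H.hr
  obtain ⟨i0, hi0⟩ : ∃ i, s i ≠ 0 := by
    by_contra hcon
    push Not at hcon
    exact hs0 (funext hcon)
  have hc := coeff_of_val hh hv
  have hdep : ∃ a : Fin 2 → k[X], a ≠ 0 ∧ ∀ j, C (a 0) * dh (h j) + C (a 1) * dh (s j) = 0 := by
    by_contra hcon
    push Not at hcon
    refine H.pencil hrat ![h, s] ![r, r - 1] ?_ ?_ ?_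
    · intro i
      fin_cases i
      · exact hh
      · exact hs
    · intro i j m hm
      fin_cases i
      · exact hc j m hm
      · change (dh (s j)).coeff m = 0
        ext a
        rw [coeff_zero]
        exact TD_dh (hs.hom j) a m (by omega)
    · intro a ha
      by_contra hne
      obtain ⟨j, hj⟩ := hcon a hne
      apply hj
      have h1 := ha j
      rw [Fin.sum_univ_two] at h1
      exact h1
  obtain ⟨a, ha0, ha⟩ := hdep
  obtain ⟨N0, hN0⟩ := exists_TD (C (a 0) : k[X][X])
  obtain ⟨N1, hN1⟩ := exists_TD (C (a 1) : k[X][X])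
  set A := hm (N0 + N1) (C (a 0)) with hA
  set B := hm (N0 + N1 + 1) (C (a 1)) with hB
  have hdA : dh A = C (a 0) := dh_hm (hN0.mono (by omega))
  have hdB : dh B = C (a 1) := dh_hm (hN1.mono (by omega))
  have hrel : ∀ j, A * h j + B * s j = 0 := by
    intro j
    apply dh_inj (m := N0 + N1 + (r + wt j))
    · refine ((hm_homogeneous _ _).mul (hh.hom j)).add ?_
      have h1 := (hm_homogeneous (N0 + N1 + 1) (C (a 1) : k[X][X])).mul (hs.hom j)
      have h3 : N0 + N1 + 1 + (r - 1 + wt j) = N0 + N1 + (r + wt j) := by omega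
      rwa [h3] at h1
    · rw [map_add, map_mul, map_mul, hdA, hdB]
      exact ha j
  have hA0 : A ≠ 0 := by
    intro h1
    have h2 : a 0 = 0 := by
      rw [h1, map_zero] at hdA
      exact (C_eq_zero.1 hdA.symm)
    have h3 := ha i0
    rw [h2, C_0, zero_mul, zero_add] at h3
    have h4 : dh (s i0) ≠ 0 := fun h => hi0 (dh_inj (hs.hom i0) h)
    have h5 : a 1 = 0 := C_eq_zero.1 ((mul_eq_zero.1 h3).resolve_right h4)
    apply ha0
    funext i
    fin_cases i
    · exact h2
    · exact h5
  obtain ⟨l, hl⟩ := H.primitive hrat hs hs0 B A (fun j => ⟨-(h j), by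
    linear_combination hrel j⟩)
  have hhl : ∀ j, h j = (-l) * s j := by
    intro j
    apply mul_left_cancel₀ hA0
    have := hrel j
    rw [hl] at this
    linear_combination this
  refine ⟨-l, ?_, hhl⟩
  refine hom_quot (m := r - 1 + wt i0) (hs.hom i0) hi0 ?_
  have h1 := hh.hom i0
  rw [hhl i0, mul_comm] at h1
  have h3 : r - 1 + wt i0 + 1 = r + wt i0 := by omega
  rwa [h3]

end Vale.Agent.P287.H270
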