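import Vale.Agent.P287.H270.EvenScroll
import Vale.Agent.P287.H69.OddForm

/-!
Scrolls of lines given by two vectors of forms `w 0, w 1` which are independent on the curve
`g = 0`: the plane they span over a field which contains the one of fractions of
`ℂ[x₀, x₁, x₂] / (g)`, and the ideal of the surface.
-/

open MvPolynomial Matrix

namespace Vale.Agent.P287.H270

open Vale.Agent.P287 Vale.Agent.P287.H69

/-- The polynomials which vanish on the surface swept out by the lines spanned by `w 0, w 1`: on the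
points `(u₃ x₀ : u₃ x₁ : u₃ x₂ : u₀ : u₁ : u₂)` where `x` is a point of the curve `g = 0` and `u` is
a combination of the vectors `w 0, w 1` at `x`. -/
def surfaceIdeal (g : MvPolynomial (Fin 3) ℂ) (w : Fin 2 → Fin 4 → MvPolynomial (Fin 3) ℂ) :
    Set (MvPolynomial (Fin 6) ℂ) :=
  {p | ∀ (x : Fin 3 → ℂ) (c : Fin 2 → ℂ) (u : Fin 4 → ℂ), eval x g = 0 →
    (∀ i, u i = ∑ a, c a * eval x (w a i)) →
    eval ![u 3 * x 0, u 3 * x 1, u 3 * x 2, u 0, u 1, u 2] p = 0}

lemma dvd_iff_eval {g : MvPolynomial (Fin 3) ℂ} (hg : Irreducible g) (p : MvPolynomial (Fin 3) ℂ) :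
    g ∣ p ↔ ∀ x : Fin 3 → ℂ, eval x g = 0 → eval x p = 0 := by
  constructor
  · rintro ⟨q, rfl⟩ x hx
    rw [map_mul, hx, zero_mul]
  · intro h
    have h1 : p ∈ vanishingIdeal ℂ (zeroLocus ℂ (Ideal.span {g})) := by
      rw [mem_vanishingIdeal_iff]
      intro x hx
      have h2 := (mem_zeroLocus_iff.mp hx) g (Ideal.subset_span rfl)
      rw [aeval_eq_eval] at h2 ⊢
      exact h x h2
    rw [vanishingIdeal_zeroLocus_eq_radical] at h1
    obtain ⟨n, hn⟩ := h1
    rw [Ideal.mem_span_singleton] at hn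
    exact hg.prime.dvd_of_dvd_pow hn

/-- The plane spanned by `w 0, w 1`. -/
theorem exists_plane {g : MvPolynomial (Fin 3) ℂ} (hg : Irreducible g)
    {M : Matrix (Fin 4) (Fin 4) (MvPolynomial (Fin 3) ℂ)}
    {w : Fin 2 → Fin 4 → MvPolynomial (Fin 3) ℂ}
    (hiso : ∀ a b, g ∣ w a ⬝ᵥ (M *ᵥ w b)) {i j : Fin 4}
    (hij : ¬ g ∣ w 0 i * w 1 j - w 0 j * w 1 i) :
    ∃ (κ : Type) (_ : Field κ) (φ : MvPolynomial (Fin 3) ℂ →+* κ)
      (W : Submodule κ (Fin 4 → κ)), (∀ p, φ p = 0 ↔ g ∣ p) ∧ Module.finrank κ W = 2 ∧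
      (∀ v ∈ W, v ⬝ᵥ (M.map φ *ᵥ v) = 0) ∧
      (∀ v, v ∈ W ↔ ∃ c : Fin 2 → κ, v = fun i => ∑ a, c a * φ (w a i)) := by
  have : (Ideal.span {g}).IsPrime :=
    (Ideal.span_singleton_prime hg.ne_zero).2 hg.prime
  have : IsDomain (MvPolynomial (Fin 3) ℂ ⧸ Ideal.span {g}) := Ideal.Quotient.isDomain _
  let κ := FractionRing (MvPolynomial (Fin 3) ℂ ⧸ Ideal.span {g})
  let φ : MvPolynomial (Fin 3) ℂ →+* κ :=
    (algebraMap (MvPolynomial (Fin 3) ℂ ⧸ Ideal.span {g}) κ).comp (Ideal.Quotient.mk _)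
  have hφ : ∀ p, φ p = 0 ↔ g ∣ p := by
    intro p
    rw [← Ideal.mem_span_singleton, ← Ideal.Quotient.eq_zero_iff_mem]
    exact map_eq_zero_iff _
      (IsFractionRing.injective (MvPolynomial (Fin 3) ℂ ⧸ Ideal.span {g}) κ)
  let b : Fin 2 → Fin 4 → κ := fun a i => φ (w a i)
  have hb : LinearIndependent κ b := by
    rw [Fintype.linearIndependent_iff]
    intro c hc
    have h1 : ∀ l, c 0 * φ (w 0 l) + c 1 * φ (w 1 l) = 0 := by
      intro l
      have := congrFun hc l
      simpa [Fin.sum_univ_two, b] using this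
    have h2 : φ (w 0 i * w 1 j - w 0 j * w 1 i) ≠ 0 := fun h => hij ((hφ _).1 h)
    rw [map_sub, map_mul, map_mul] at h2
    intro a
    fin_cases a
    · have : c 0 * (φ (w 0 i) * φ (w 1 j) - φ (w 0 j) * φ (w 1 i)) = 0 := by
        linear_combination φ (w 1 j) * h1 i - φ (w 1 i) * h1 j
      exact (mul_eq_zero.1 this).resolve_right h2
    · have : c 1 * (φ (w 0 i) * φ (w 1 j) - φ (w 0 j) * φ (w 1 i)) = 0 := by
        linear_combination φ (w 0 i) * h1 j - φ (w 0 j) * h1 i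
      exact (mul_eq_zero.1 this).resolve_right h2
  have hmem : ∀ v, v ∈ Submodule.span κ (Set.range b) ↔
      ∃ c : Fin 2 → κ, v = fun i => ∑ a, c a * φ (w a i) := by
    intro v
    rw [Submodule.mem_span_range_iff_exists_fun]
    constructor
    · rintro ⟨c, hc⟩
      refine ⟨c, ?_⟩
      rw [← hc]
      funext i
      simp [b]
    · rintro ⟨c, hc⟩
      refine ⟨c, ?_⟩
      rw [hc]
      funext i
      simp [b]
  refine ⟨κ, inferInstance, φ, Submodule.span κ (Set.range b), hφ, ?_, ?_, hmem⟩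
  · rw [finrank_span_eq_card hb, Fintype.card_fin]
  · intro v hv
    obtain ⟨c, hc⟩ := (hmem v).1 hv
    have h0 : ∀ a a', (fun i => φ (w a i)) ⬝ᵥ (M.map φ *ᵥ fun i => φ (w a' i)) = 0 := by
      intro a a'
      have h1 := (hφ _).2 (hiso a a')
      rw [← h1]
      simp [dotProduct, mulVec]
    have hv' : v = ∑ a, c a • fun i => φ (w a i) := by
      rw [hc]
      funext i
      simp
    rw [hv', mulVec_sum, sum_dotProduct]
    refine Finset.sum_eq_zero fun a _ => ?_
    rw [dotProduct_sum]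
    refine Finset.sum_eq_zero fun a' _ => ?_
    rw [mulVec_smul, smul_dotProduct, dotProduct_smul, h0, smul_zero, smul_zero]

variable {g : MvPolynomial (Fin 3) ℂ} {w : Fin 2 → Fin 4 → MvPolynomial (Fin 3) ℂ} {κ : Type}
  [Field κ] {φ : MvPolynomial (Fin 3) ℂ →+* κ} {W : Submodule κ (Fin 4 → κ)}

lemma orth_iff (hφ : ∀ p, φ p = 0 ↔ g ∣ p)
    (hW : ∀ v, v ∈ W ↔ ∃ c : Fin 2 → κ, v = fun i => ∑ a, c a * φ (w a i))
    (f : Fin 4 → MvPolynomial (Fin 3) ℂ) :
    (∀ v ∈ W, ∑ i, φ (f i) * v i = 0) ↔ ∀ a, g ∣ ∑ i, f i * w a i := by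
  constructor
  · intro h a
    have h1 := h (fun i => ∑ a', (Pi.single a 1 : Fin 2 → κ) a' * φ (w a' i))
      ((hW _).2 ⟨Pi.single a 1, rfl⟩)
    rw [← hφ, map_sum, ← h1]
    refine Finset.sum_congr rfl fun i _ => ?_
    rw [map_mul]
    congr 1
    rw [Finset.sum_eq_single a]
    · simp
    · intro b _ hb
      simp [hb]
    · simp
  · intro h v hv
    obtain ⟨c, rfl⟩ := (hW v).1 hv
    have h1 : ∀ a, ∑ i, φ (f i) * φ (w a i) = 0 := by
      intro a
      rw [← (hφ _).2 (h a), map_sum]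
      exact Finset.sum_congr rfl fun i _ => (map_mul _ _ _).symm
    calc ∑ i, φ (f i) * ∑ a, c a * φ (w a i)
        = ∑ a, c a * ∑ i, φ (f i) * φ (w a i) := by
          simp only [Finset.mul_sum]
          rw [Finset.sum_comm]
          refine Finset.sum_congr rfl fun a _ => Finset.sum_congr rfl fun i _ => ?_
          ring
      _ = 0 := Finset.sum_eq_zero fun a _ => by rw [h1, mul_zero]

/-- The value of `p` on the surface, with indeterminate coefficients. -/
noncomputable def surfQ (w : Fin 2 → Fin 4 → MvPolynomial (Fin 3) ℂ) (p : MvPolynomial (Fin 6) ℂ) :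
    MvPolynomial (Fin 2) (MvPolynomial (Fin 3) ℂ) :=
  eval₂ (C.comp C) ![(∑ a, X a * C (w a 3)) * C (X 0), (∑ a, X a * C (w a 3)) * C (X 1),
    (∑ a, X a * C (w a 3)) * C (X 2), ∑ a, X a * C (w a 0), ∑ a, X a * C (w a 1),
    ∑ a, X a * C (w a 2)] p

lemma eval_surfQ (w : Fin 2 → Fin 4 → MvPolynomial (Fin 3) ℂ) (p : MvPolynomial (Fin 6) ℂ)
    {S : Type} [CommRing S] (ψ : MvPolynomial (Fin 3) ℂ →+* S) (c : Fin 2 → S)
    (u : Fin 4 → S) (hu : ∀ i, u i = ∑ a, c a * ψ (w a i)) :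
    eval c (MvPolynomial.map ψ (surfQ w p)) = eval₂ (ψ.comp C)
      ![u 3 * ψ (X 0), u 3 * ψ (X 1), u 3 * ψ (X 2), u 0, u 1, u 2] p := by
  have h1 : eval c (MvPolynomial.map ψ (surfQ w p)) = eval₂Hom ψ c (surfQ w p) := by
    rw [eval_map]; rfl
  rw [h1, surfQ, hom_eval₂]
  have h3 : (eval₂Hom ψ c).comp (C.comp C) = ψ.comp C := by
    ext t
    · simp
  rw [h3]
  congr 1
  funext i
  fin_cases i <;> simp [hu]

lemma eval_surfQ' (w : Fin 2 → Fin 4 → MvPolynomial (Fin 3) ℂ) (p : MvPolynomial (Fin 6) ℂ)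
    (x : Fin 3 → ℂ) (c : Fin 2 → ℂ) (u : Fin 4 → ℂ)
    (hu : ∀ i, u i = ∑ a, c a * eval x (w a i)) :
    eval c (MvPolynomial.map (eval x) (surfQ w p)) =
      eval ![u 3 * x 0, u 3 * x 1, u 3 * x 2, u 0, u 1, u 2] p := by
  have h := eval_surfQ w p (eval x) c u hu
  rw [h, eval_X, eval_X, eval_X]
  have h4 : (eval x).comp C = RingHom.id ℂ := by
    ext t
    exact eval_C t
  rw [h4]
  rfl

/-- The two descriptions of the ideal of the surface agree. -/
theorem surfaceIdeal_eq (hg : Irreducible g) (hφ : ∀ p, φ p = 0 ↔ g ∣ p)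
    (hW : ∀ v, v ∈ W ↔ ∃ c : Fin 2 → κ, v = fun i => ∑ a, c a * φ (w a i)) :
    scrollIdealM φ W = surfaceIdeal g w := by
  have : Infinite κ := Infinite.of_injective (φ.comp C) (φ.comp C).injective
  ext p
  have h1 : p ∈ scrollIdealM φ W ↔ ∀ m, g ∣ coeff m (surfQ w p) := by
    constructor
    · intro h
      have h2 : MvPolynomial.map φ (surfQ w p) = 0 := by
        apply MvPolynomial.funext
        intro c
        rw [map_zero, eval_surfQ w p φ c (fun i => ∑ a, c a * φ (w a i)) fun i => rfl]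
        exact h (fun i => ∑ a, c a * φ (w a i)) ((hW _).2 ⟨c, rfl⟩)
      intro m
      rw [← hφ, ← coeff_map, h2, coeff_zero]
    · intro h v hv
      obtain ⟨c, hc⟩ := (hW v).1 hv
      have h2 : MvPolynomial.map φ (surfQ w p) = 0 := by
        ext m
        rw [coeff_map, coeff_zero, hφ]
        exact h m
      have h3 := eval_surfQ w p φ c v (fun i => congrFun hc i)
      rw [h2, map_zero] at h3
      exact h3.symm
  have h2 : p ∈ surfaceIdeal g w ↔ ∀ m, g ∣ coeff m (surfQ w p) := by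
    constructor
    · intro h m
      rw [dvd_iff_eval hg]
      intro x hx
      have h4 : MvPolynomial.map (eval x) (surfQ w p) = 0 := by
        apply MvPolynomial.funext
        intro c
        have h5 : ∀ i, (fun i => ∑ a, c a * eval x (w a i)) i = ∑ a, c a * eval x (w a i) :=
          fun i => rfl
        rw [map_zero, eval_surfQ' w p x c (fun i => ∑ a, c a * eval x (w a i)) h5]
        exact h x c (fun i => ∑ a, c a * eval x (w a i)) hx h5
      rw [← coeff_map, h4, coeff_zero]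
    · intro h x c u hx hu
      rw [← eval_surfQ' w p x c u hu]
      have h4 : MvPolynomial.map (eval x) (surfQ w p) = 0 := by
        ext m
        rw [coeff_map, coeff_zero]
        exact (dvd_iff_eval hg _).1 (h m) x hx
      rw [h4, map_zero]
  rw [h1, h2]

end Vale.Agent.P287.H270
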