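import Vale.Agent.P287.H270.OddFrame
import Vale.Agent.P287.H597.OddSkel

/-!
The block `StmtT` of the odd theta theorem.
-/

namespace Vale.Agent.P287.H270

theorem stmtT : H597.StmtT := by
  intro m g f A c hm hf _ hs hg hgi hgf hA hA2 hc hdet
  exact OddCoord.exists_frame hf hs hm hg hgi hgf hA hA2 hc hdet

end Vale.Agent.P287.H270
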